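import Vale.Agent.P004Z.Kf.Cn1
import Vale.Agent.P004Z.Hd.Kl

/-!
# P004Z, block G5, the count: genus characters, Legendre's theorem, the fibres
-/

set_option autoImplicit false
set_option linter.all false

open QuadraticAlgebra Ideal Finset
open scoped MatrixGroups NumberTheorySymbols Classical

noncomputable section

namespace Vale.Agent.P004Z.Kf.Cn

open Hd Gq

variable {e : ℤ} {d : ℕ}

/-! ### genus characters -/

def jq (q : ℕ) : ℕ →* ℤ where
  toFun x := J(x | q)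
  map_one' := jacobiSym.one_left q
  map_mul' x y := by rw [Nat.cast_mul, jacobiSym.mul_left]

theorem jq_ap (q x : ℕ) : jq q x = J(x | q) := rfl

/-- the norm residue symbol at `q` -/
def ep (d q : ℕ) : ℕ →* ℤ where
  toFun x := if x = 0 then 0 else J((ordCompl[q] x : ℕ) | q) * J(q | d / q) ^ x.factorization q
  map_one' := by simp
  map_mul' x y := by
    by_cases hx : x = 0
    · simp [hx]
    by_cases hy : y = 0
    · simp [hy]
    rw [if_neg hx, if_neg hy, if_neg (mul_ne_zero hx hy), Nat.ordCompl_mul,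
      Nat.factorization_mul hx hy, Finsupp.add_apply, Nat.cast_mul, jacobiSym.mul_left]
    ring

theorem ep_nd {q x : ℕ} (h : ¬ q ∣ x) : ep d q x = J(x | q) := by
  have : x ≠ 0 := fun k => h (k ▸ dvd_zero q)
  simp [ep, this, Nat.factorization_eq_zero_of_not_dvd h]

theorem ep_self {q : ℕ} (h : q.Prime) : ep d q q = J(q | d / q) := by
  simp [ep, h.ne_zero, h.factorization_self, Nat.div_self h.pos]

theorem cop_div (hs : Squarefree d) {q : ℕ} (k : q ∣ d) : q.Coprime (d / q) :=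
  Nat.coprime_of_squarefree_mul (by rwa [Nat.mul_div_cancel' k])

theorem ep_sq (hs : Squarefree d) {q : ℕ} (h : q.Prime) (k : q ∣ d) (x : ℕ) :
    x ≠ 0 → ep d q x * ep d q x = 1 := by
  induction x using Nat.recOnMul with
  | zero => simp
  | one => simp
  | prime p hp =>
    intro _
    rcases eq_or_ne q p with rfl | a
    · rw [ep_self h, J_cop (cop_div hs k)]
    · rw [ep_nd fun j => a ((Nat.prime_dvd_prime_iff_eq h hp).1 j),
        J_cop ((Nat.coprime_primes hp h).2 a.symm)]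
  | mul a b ha hb =>
    intro j
    rw [map_mul, mul_mul_mul_comm, ha (left_ne_zero_of_mul j), hb (right_ne_zero_of_mul j), mul_one]

theorem gch (hs : Squarefree d) {S : Finset ℕ} (hS : S ⊆ d.primeFactors) :
    Gch d (∏ q ∈ S, jq q) (∏ q ∈ d.primeFactors \ S, jq q) (∏ q ∈ S, ep d q) := fun p hp => by
  simp only [MonoidHom.finset_prod_apply, jq_ap]
  have pr : ∀ q ∈ S, q.Prime := fun q h => Nat.prime_of_mem_primeFactors (hS h)
  have c1 : (∏ q ∈ S, J(p | q)) * ∏ q ∈ d.primeFactors \ S, J(p | q) = J(p | d) := by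
    rw [mul_comm, prod_sdiff hS, J_prod hs]
  have nd : ∀ q ∈ S, q ≠ p → ep d q p = J(p | q) := fun q h a =>
    ep_nd fun j => a ((Nat.prime_dvd_prime_iff_eq (pr q h) hp).1 j)
  have c2 : p ∉ S → ∏ q ∈ S, J(p | q) = ∏ q ∈ S, ep d q p := fun k =>
    prod_congr rfl fun q h => (nd q h fun a => k (a ▸ h)).symm
  have c3 : p ∈ S → ∏ q ∈ S, J(p | q) = 0 := fun k => prod_eq_zero k (J_dvd hp.one_lt dvd_rfl)
  refine ⟨c1, ?_, fun k => ?_, fun k => ?_, fun k => ?_⟩
  · rw [← prod_mul_distrib]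
    exact prod_eq_one fun q h => ep_sq hs (pr q h) (Nat.dvd_of_mem_primeFactors (hS h)) p hp.ne_zero
  · rw [k] at c1
    rw [← c2 fun j => by simp [c3 j] at c1]
    exact ⟨rfl, (Int.eq_of_mul_eq_one c1).symm⟩
  · rw [k] at c1
    rcases Int.eq_one_or_neg_one_of_mul_eq_neg_one' c1 with ⟨a, b⟩ | ⟨a, b⟩ <;> rw [a, b] <;> rfl
  · by_cases j : p ∈ S
    · have e1 : (d / p).primeFactors = d.primeFactors.erase p := by
        obtain ⟨c, rfl⟩ := k
        have := Nat.coprime_of_squarefree_mul hs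
        rw [Nat.mul_div_cancel_left _ hp.pos, this.primeFactors_mul, hp.primeFactors,
          ← insert_eq, erase_insert fun i => hp.coprime_iff_not_dvd.1 this
            (Nat.dvd_of_mem_primeFactors i)]
      have e2 : d.primeFactors.erase p \ S.erase p = d.primeFactors \ S := by
        ext x
        simp only [mem_sdiff, mem_erase]
        by_cases i : x = p <;> simp [i, j]
      rw [c3 j, zero_add, ← mul_prod_erase S _ j, ep_self hp,
        J_prod (hs.squarefree_of_dvd (Nat.div_dvd_of_dvd k)), e1,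
        ← prod_sdiff (erase_subset_erase p hS), e2, mul_assoc, ← prod_mul_distrib,
        prod_eq_one (s := S.erase p) fun q h => ?_, mul_one]
      obtain ⟨a, b⟩ := mem_erase.1 h
      rw [nd q b a, J_cop ((Nat.coprime_primes hp (pr q b)).2 a.symm)]
    · rw [c2 j, prod_eq_zero (mem_sdiff.2 ⟨Nat.mem_primeFactors.2 ⟨hp, k, hs.ne_zero⟩, j⟩)
        (J_dvd hp.one_lt dvd_rfl), add_zero]

theorem J_one {q : ℕ} (hq : q.Prime) (h2 : q ≠ 2) {a x : ℤ} (h : (q : ℤ) ∣ a ^ 2 - 4 * x)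
    (n : ¬ (q : ℤ) ∣ x) : J(x | q) = 1 := by
  have pp := Nat.prime_iff_prime_int.1 hq
  have n2 : ¬ (q : ℤ) ∣ 2 := fun d =>
    h2 ((Nat.prime_dvd_prime_iff_eq hq Nat.prime_two).1 (by exact_mod_cast d))
  have := J_congr (b := 2 ^ 2 * x) h
  rw [jacobiSym.mul_left, jacobiSym.sq_one' (gcd_one hq n2), one_mul,
    jacobiSym.sq_one' (gcd_one hq fun k => ?_)] at this
  · exact this.symm
  · exact (pp.dvd_or_dvd ((dvd_sub_right (dvd_pow k two_ne_zero)).1 h)).elim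
      (fun j => n2 (pp.dvd_of_dvd_pow (n := 2) j)) n

/-- Legendre's theorem -/
theorem leg (hd : (d : ℤ) = 4 * e - 1) (d0 : d ≠ 0) {m : ℕ} (m0 : m ≠ 0) (c : IsCoprime (m : ℤ) d)
    {B s : ℤ} (hB : (m : ℤ) ∣ B ^ 2 + d) (hs : (d : ℤ) ∣ s ^ 2 - m) :
    ∃ ρ ρ' : R e, ρ' ≠ 0 ∧ ρ.norm = m * ρ'.norm := by
  haveI := NeZero.mk d0
  haveI := NeZero.mk m0
  have up : ∀ n : ℕ, n ≤ ((n - 1).sqrt + 1) ^ 2 := fun n => by
    have := Nat.lt_succ_sqrt' (n - 1)
    rw [Nat.succ_eq_add_one] at this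
    omega
  have lo : ∀ n : ℕ, n ≠ 0 → ∀ a b : Fin ((n - 1).sqrt + 1), ((a : ℕ) - (b : ℕ) : ℤ) ^ 2 < n :=
    fun n n0 a b => by
      have h1 : (((n - 1).sqrt : ℕ) : ℤ) ^ 2 < n := by
        have := Nat.sqrt_le' (n - 1)
        exact_mod_cast (by omega : (n - 1).sqrt ^ 2 < n)
      exact (sq_le_sq' (by omega) (by omega)).trans_lt h1
  obtain ⟨x, y, ne, k⟩ := Fintype.exists_ne_map_eq_of_card_lt
    (fun x : Fin ((m * d - 1).sqrt + 1) × Fin ((m - 1).sqrt + 1) × Fin ((d - 1).sqrt + 1) =>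
      ((((x.1 : ℕ) - B * (x.2.1 : ℕ) : ℤ) : ZMod m), (((x.1 : ℕ) - s * (x.2.2 : ℕ) : ℤ) : ZMod d)))
    (by
      simp only [Fintype.card_prod, ZMod.card, Fintype.card_fin]
      refine lt_of_pow_lt_pow_left₀ 2 (Nat.zero_le _) ?_
      have h3 : d < ((d - 1).sqrt + 1) ^ 2 := (up d).lt_of_ne fun k => by
        rcases Nat.even_or_odd' ((d - 1).sqrt + 1) with ⟨j, a | a⟩ <;> rw [a] at k
        · have : d = 4 * j ^ 2 := by rw [k]; ring
          omega
        · have : d = 4 * (j ^ 2 + j) + 1 := by rw [k]; ring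
          omega
      rw [mul_pow _ (_ * _), mul_pow (_ + 1), show (m * d) ^ 2 = m * d * (m * d) from sq _]
      exact mul_lt_mul_of_le_of_lt_of_pos_of_nonneg (up _)
        (mul_lt_mul_of_le_of_lt_of_pos_of_nonneg (up _) h3 (Nat.pos_of_ne_zero m0) (Nat.zero_le _))
        (Nat.pos_of_ne_zero (mul_ne_zero m0 d0)) (Nat.zero_le _))
  have h1 := lo _ (mul_ne_zero m0 d0) y.1 x.1
  have h2 := lo _ m0 y.2.1 x.2.1
  have h3 := lo _ d0 y.2.2 x.2.2
  obtain ⟨k1, a⟩ := (ZMod.intCast_eq_intCast_iff_dvd_sub _ _ _).1 (congrArg Prod.fst k)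
  obtain ⟨k2, b⟩ := (ZMod.intCast_eq_intCast_iff_dvd_sub _ _ _).1 (congrArg Prod.snd k)
  have ne : ¬ (((y.1 : ℕ) - (x.1 : ℕ) : ℤ) = 0 ∧ ((y.2.1 : ℕ) - (x.2.1 : ℕ) : ℤ) = 0 ∧
      ((y.2.2 : ℕ) - (x.2.2 : ℕ) : ℤ) = 0) := fun k => ne (Prod.ext (Fin.ext (by omega))
    (Prod.ext (Fin.ext (by omega)) (Fin.ext (by omega))))
  obtain ⟨u, hu⟩ : ∃ u : ℤ, u = (y.1 : ℕ) - (x.1 : ℕ) := ⟨_, rfl⟩
  obtain ⟨v, hv⟩ : ∃ u : ℤ, u = (y.2.1 : ℕ) - (x.2.1 : ℕ) := ⟨_, rfl⟩
  obtain ⟨w, hw⟩ : ∃ u : ℤ, u = (y.2.2 : ℕ) - (x.2.2 : ℕ) := ⟨_, rfl⟩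
  have a : u = B * v + m * k1 := by rw [hu, hv]; linear_combination a
  have b : u = s * w + d * k2 := by rw [hu, hw]; linear_combination b
  rw [← hu, ← hv, ← hw] at ne
  rw [← hu] at h1
  rw [← hv] at h2
  rw [← hw] at h3
  clear hu hv hw k lo up
  obtain ⟨f, hf⟩ : (m * d : ℤ) ∣ u ^ 2 + d * v ^ 2 - m * w ^ 2 := by
    obtain ⟨i, hi⟩ := hB
    obtain ⟨j, hj⟩ := hs
    exact c.mul_dvd ⟨i * v ^ 2 + 2 * B * v * k1 + m * k1 ^ 2 - w ^ 2, by
      rw [a]; linear_combination v ^ 2 * hi⟩ ⟨j * w ^ 2 + 2 * s * w * k2 + d * k2 ^ 2 + v ^ 2, by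
      rw [b]; linear_combination w ^ 2 * hj⟩
  have dp : (0 : ℤ) < d := by omega
  have mp : (0 : ℤ) < m := by omega
  push_cast at h1
  have f1 : -1 < f := lt_of_mul_lt_mul_left (a := (m * d : ℤ)) (by
    nlinarith [sq_nonneg u, mul_nonneg dp.le (sq_nonneg v)]) (by positivity)
  have f2 : f < 2 := lt_of_mul_lt_mul_left (a := (m * d : ℤ)) (by
    nlinarith [mul_nonneg mp.le (sq_nonneg w)]) (by positivity)
  obtain rfl | rfl : f = 0 ∨ f = 1 := by omega
  · refine ⟨⟨u - v, 2 * v⟩, ⟨w, 0⟩, fun k => ?_, by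
      simp only [norm_def]; linear_combination hf - v ^ 2 * hd⟩
    have k : w = 0 := congrArg QuadraticAlgebra.re k
    rw [k] at hf
    exact ne ⟨by nlinarith [mul_nonneg dp.le (sq_nonneg v)], by
      nlinarith [sq_nonneg u, sq_nonneg v], k⟩
  · exact ⟨⟨u - v, 2 * v⟩, ⟨w - 1, 2⟩, fun k => by simpa using congrArg QuadraticAlgebra.im k, by
      simp only [norm_def]; linear_combination hf - (v ^ 2 - m) * hd⟩

variable [he : Fact (1 < e)]

theorem sqf (hd : (d : ℤ) = 4 * e - 1) (hs : Squarefree d) : Squarefree (4 * e - 1) :=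
  hd ▸ Int.squarefree_natCast.2 hs

/-- norms are local norms -/
theorem ep_norm (hd : (d : ℤ) = 4 * e - 1) (hs : Squarefree d) {q : ℕ} (hq : q.Prime) (k : q ∣ d)
    (j : ℕ) : ∀ (x : R e) (y : ℕ), y ≠ 0 → x.norm = y → y.factorization q ≤ j → ep d q y = 1 := by
  obtain ⟨c, rfl⟩ := k
  have ho : Odd (q * c) := Nat.odd_iff.2 (by omega)
  have h2 : q ≠ 2 := fun k => (Nat.Odd.of_mul_left ho).not_two_dvd_nat (k ▸ dvd_rfl)
  have base : ∀ (x : R e) (y : ℕ), x.norm = y → ¬ q ∣ y → ep (q * c) q y = 1 := fun x y a n => by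
    rw [ep_nd n, J_one hq h2 (a := 2 * x.re + x.im) ⟨-(c * x.im ^ 2), ?_⟩
      fun k => n (Int.natCast_dvd_natCast.1 k)]
    push_cast at hd
    linear_combination 4 * a - nm4 x + x.im ^ 2 * hd
  induction j with
  | zero => exact fun x y y0 a b => base x y a fun k =>
      (hq.factorization_pos_of_dvd y0 k).not_ge b
  | succ j ih =>
    intro x y y0 a b
    by_cases n : q ∣ y
    swap
    · exact base x y a n
    obtain ⟨y, rfl⟩ := n
    have cp := Nat.coprime_of_squarefree_mul hs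
    have nc := hq.coprime_iff_not_dvd.1 cp
    have c0 : c ≠ 0 := fun k => nc (k ▸ dvd_zero q)
    have y1 := right_ne_zero_of_mul y0
    push_cast at hd a
    obtain ⟨z, hz⟩ : (q : ℤ) ∣ 2 * x.re + x.im := (Nat.prime_iff_prime_int.1 hq).dvd_of_dvd_pow
      (n := 2) ⟨4 * y - c * x.im ^ 2, by linear_combination 4 * a - nm4 x + x.im ^ 2 * hd⟩
    obtain ⟨w, hw⟩ : (q : ℤ) ∣ -x.re - 2 * e * x.im := by
      refine ((Nat.prime_iff_prime_int.1 hq).dvd_or_dvd (a := 2) ⟨-z - c * x.im, by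
        linear_combination -hz + x.im * hd⟩).resolve_left fun k => h2 ?_
      exact (Nat.prime_dvd_prime_iff_eq hq Nat.prime_two).1 (by exact_mod_cast k)
    have e1 : x * dl e = (q : ℤ) * ⟨w, z⟩ := by
      ext <;> simp [dl]
      · linear_combination hw
      · linear_combination hz
    have e2 := congrArg QuadraticAlgebra.norm e1
    rw [map_mul, map_mul, nm_dl, norm_intCast, a, ← hd] at e2
    have := ih ⟨w, z⟩ (y * c) (mul_ne_zero y1 c0) (mul_left_cancel₀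
      (pow_ne_zero 2 (Int.natCast_ne_zero.2 hq.ne_zero)) (by
        push_cast at e2 ⊢; linear_combination -e2)) (by
      rw [Nat.factorization_mul hq.ne_zero y1, Finsupp.add_apply, hq.factorization_self] at b
      rw [Nat.factorization_mul y1 c0, Finsupp.add_apply, Nat.factorization_eq_zero_of_not_dvd nc]
      omega)
    rw [map_mul, ep_nd nc] at this
    rw [map_mul, ep_self hq, Nat.mul_div_cancel_left _ hq.pos, mul_comm, ← this]
    congr 1
    have oq := Nat.Odd.of_mul_left ho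
    have oc := Nat.Odd.of_mul_right ho
    by_cases k1 : q % 4 = 1
    · exact jacobiSym.quadratic_reciprocity_one_mod_four k1 oc
    · have k2 : q % 4 = 3 := by have := Nat.odd_iff.1 oq; omega
      have k3 : q * c % 4 = 3 := by
        have : ((q * c : ℕ) : ℤ) = 4 * e - 1 := by exact_mod_cast hd
        omega
      rw [Nat.mul_mod, k2] at k3
      exact (jacobiSym.quadratic_reciprocity_one_mod_four (by omega) oq).symm

theorem ex_nm (hs : Squarefree (4 * e - 1)) {I : Ideal (R e)} (h : I ≠ ⊥) : ∃ m, 0 < m ∧ Nm I m := by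
  obtain ⟨c, Q, c0, a, k, rfl⟩ := hnf h
  exact ⟨_, mul_pos (nm_pos (Int.cast_ne_zero.2 c0.ne')) a, (nm_span _).mul (nm_aQ hs k)⟩

/-- the principal genus theorem -/
theorem pgt (hd : (d : ℤ) = 4 * e - 1) (hs : Squarefree d) {b : Ideal (R e)} {m : ℕ} (m0 : m ≠ 0)
    (n : Nm b m) (h : ∀ q ∈ d.primeFactors, ep d q m = 1) :
    ∃ (a : Ideal (R e)) (ζ : R e), a ≠ ⊥ ∧ a * a * b = span {ζ} := by
  have hs' := sqf hd hs
  obtain ⟨c, Q, c0, a0, k, eb⟩ := hnf (n.ne (Int.natCast_ne_zero.2 m0))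
  have em : (m : ℤ) = c ^ 2 * Q.1 := n.uniq (by
    simpa [← eb] using (nm_span (c : R e)).mul (nm_aQ hs' k)) (by omega) (by positivity)
  obtain ⟨γ, cp⟩ := rep (S := d) (Int.natCast_ne_zero.2 hs.ne_zero) (l := Q) fun p hp _ i j l => by
    obtain ⟨x, y, z, u⟩ := prim hs' k
    exact (Nat.prime_iff_prime_int.1 hp).not_dvd_one
      (u ▸ dvd_add (dvd_add (i.mul_left x) (j.mul_left y)) (l.mul_left z))
  have k' := (disc_fa Q γ).trans k
  have p1 := pos_fa (l := Q) (by have := he.out; omega) a0 γ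
  have p2 : 0 < (fa Q γ).2.2 := by
    rw [disc] at k'
    have := he.out
    nlinarith [sq_nonneg (fa Q γ).2.1]
  obtain ⟨m', hm⟩ := Int.eq_ofNat_of_zero_le p2.le
  have e1 : (c * el e Q (γ 0 1) (γ 1 1)).norm = (m * m' : ℕ) := by
    rw [map_mul, nm_el k, norm_intCast, show val Q (γ 0 1) (γ 1 1) = (fa Q γ).2.2 from rfl, hm]
    push_cast
    linear_combination -m' * em
  have m1 : m' ≠ 0 := by omega
  rw [hm] at cp
  obtain ⟨s, es⟩ := ex_sqrt m' d hs fun p hp i => by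
    have j := Nat.mem_primeFactors.2 ⟨hp, i, hs.ne_zero⟩
    have := ep_norm hd hs hp i _ _ _ (mul_ne_zero m0 m1) e1 le_rfl
    rwa [map_mul, h p j, one_mul, ep_nd fun l => ndvd j cp (Int.natCast_dvd_natCast.2 l)] at this
  obtain ⟨ρ, ρ', r0, r⟩ := leg hd hs.ne_zero m1 cp (B := (fa Q γ).2.1) ⟨4 * (fa Q γ).1, by
    rw [disc, hm] at k'
    linear_combination k' + hd⟩ es
  obtain ⟨σ, z, z0, r⟩ : ∃ (σ : R e) (z : ℤ), z ≠ 0 ∧ σ * star σ = m * z ^ 2 :=
    ⟨c * el e Q (γ 0 1) (γ 1 1) * (ρ * ρ'), m' * ρ'.norm,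
      mul_ne_zero (Int.natCast_ne_zero.2 m1) (nm_pos r0).ne', by
        rw [← nm_cast, map_mul, e1, map_mul, r]
        push_cast
        ring⟩
  have z1 : (z : R e) ≠ 0 := Int.cast_ne_zero.2 z0
  have a1 : span {((z * m : ℤ) : R e)} ⊔ span {σ} * cj b ≠ ⊥ := fun i => by
    simpa [z0, m0] using (sup_eq_bot_iff.1 i).1
  obtain ⟨A, -, nA⟩ := ex_nm hs' a1
  generalize ha : span {((z * m : ℤ) : R e)} ⊔ span {σ} * cj b = a at a1 nA
  have e2 : span {σ} * cj a = span {(z : R e)} * (a * b) := by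
    rw [← ha, cj_sup, cj_mul, cj_cj, cj_int, cj_span, Ideal.mul_sup, Ideal.sup_mul, Ideal.mul_sup,
      mul_assoc _ (cj b), mul_comm (cj b), n, sup_comm]
    simp only [← mul_assoc, span_singleton_mul_span_singleton, r]
    congr 3 <;> push_cast <;> ring_nf
  obtain ⟨ζ, e3, -⟩ := pr_div (I := a * a * b) (y := σ * A) z1 (by
    rw [← span_singleton_mul_span_singleton, ← nA, mul_left_comm (span {σ}), e2]
    ring)
  exact ⟨a, ζ, a1, e3⟩

end Vale.Agent.P004Z.Kf.Cn
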