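import Vale.Agent.P004Z.Kf.St
import Vale.Agent.P004Z.Th.Gau

/-!
# P004Z, block G5: the involution and the twist by Gauss sums
-/

set_option autoImplicit false
set_option linter.all false

open Finset
open scoped NumberTheorySymbols Classical

noncomputable section

namespace Vale.Agent.P004Z.Kf

open Hd Gq

theorem twg : TWG := fun δ n ho hs => by
  rw [← gk_eq ho hs n, gk]
  simp only [Int.cast_mul, Int.cast_natCast]

namespace Iv

/-- the part of `n` at the primes with the property `K` -/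
def pt (K : ℕ → Prop) (n : ℕ) : ℕ := (n.factorization.filter K).prod (· ^ ·)

theorem pt_fac (K : ℕ → Prop) (n p : ℕ) :
    (pt K n).factorization p = if K p then n.factorization p else 0 := by
  rw [pt, Nat.prod_pow_factorization_eq_self fun q hq => ?_, Finsupp.filter_apply]
  rw [Finsupp.support_filter] at hq
  exact Nat.prime_of_mem_primeFactors (mem_filter.1 hq).1

theorem pt_ne (K : ℕ → Prop) (n : ℕ) : pt K n ≠ 0 := by
  rw [pt, Finsupp.prod]
  refine prod_ne_zero_iff.2 fun q hq => ?_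
  rw [Finsupp.support_filter] at hq
  exact pow_ne_zero _ (Nat.prime_of_mem_primeFactors (mem_filter.1 hq).1).ne_zero

theorem pt_dvd {K : ℕ → Prop} {n p : ℕ} (hp : p.Prime) (h : p ∣ pt K n) : K p := by
  have := hp.factorization_pos_of_dvd (pt_ne K n) h
  rw [pt_fac] at this
  by_contra k
  rw [if_neg k] at this
  exact lt_irrefl _ this

theorem pt_mul (K : ℕ → Prop) {n : ℕ} (h : n ≠ 0) : pt K n * pt (fun p => ¬ K p) n = n := by
  refine Nat.eq_of_factorization_eq (mul_ne_zero (pt_ne _ _) (pt_ne _ _)) h fun p => ?_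
  rw [Nat.factorization_mul (pt_ne _ _) (pt_ne _ _), Finsupp.add_apply, pt_fac, pt_fac]
  split_ifs <;> simp

theorem pt_sw (K : ℕ → Prop) (a c : ℕ) : pt K (pt K a * pt (fun p => ¬ K p) c) = pt K a ∧
    pt (fun p => ¬ K p) (pt K a * pt (fun p => ¬ K p) c) = pt (fun p => ¬ K p) c := by
  constructor <;> refine Nat.eq_of_factorization_eq (pt_ne _ _) (pt_ne _ _) fun p => ?_ <;>
    simp only [Nat.factorization_mul (pt_ne _ _) (pt_ne _ _), Finsupp.add_apply, pt_fac] <;>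
    split_ifs <;> simp

theorem inv_sum (K : ℕ → Prop) (m : ℕ) (F : ℕ → ℕ → ℤ)
    (h : ∀ a₁ a₂ c₁ c₂ : ℕ, a₁ * a₂ * (c₁ * c₂) = m → m ≠ 0 →
      (∀ p, p.Prime → p ∣ a₁ * c₁ → K p) → (∀ p, p.Prime → p ∣ a₂ * c₂ → ¬ K p) →
      F (a₁ * c₂) (c₁ * a₂) = -F (a₁ * a₂) (c₁ * c₂)) :
    ∑ i ∈ m.divisorsAntidiagonal, F i.1 i.2 = 0 := by
  have ne : ∀ i ∈ m.divisorsAntidiagonal, i.1 ≠ 0 ∧ i.2 ≠ 0 := fun i hi =>
    ⟨Nat.left_ne_zero_of_mem_divisorsAntidiagonal hi,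
      Nat.right_ne_zero_of_mem_divisorsAntidiagonal hi⟩
  have key : ∀ i ∈ m.divisorsAntidiagonal, F (pt K i.1 * pt (fun p => ¬ K p) i.2)
      (pt K i.2 * pt (fun p => ¬ K p) i.1) = -F i.1 i.2 := fun i hi => by
    obtain ⟨h1, h2⟩ := Nat.mem_divisorsAntidiagonal.1 hi
    have := h (pt K i.1) (pt (fun p => ¬ K p) i.1) (pt K i.2) (pt (fun p => ¬ K p) i.2)
      (by rw [pt_mul K (ne i hi).1, pt_mul K (ne i hi).2, h1]) h2
      (fun p hp d => ((Nat.Prime.dvd_mul hp).1 d).elim (pt_dvd hp) (pt_dvd hp))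
      (fun p hp d => ((Nat.Prime.dvd_mul hp).1 d).elim (pt_dvd (K := fun p => ¬ K p) hp)
        (pt_dvd (K := fun p => ¬ K p) hp))
    rwa [pt_mul K (ne i hi).1, pt_mul K (ne i hi).2] at this
  refine sum_involution (fun i _ => (pt K i.1 * pt (fun p => ¬ K p) i.2,
    pt K i.2 * pt (fun p => ¬ K p) i.1)) (fun i hi => by rw [key i hi, add_neg_cancel])
    (fun i hi k e => k ?_) (fun i hi => ?_) fun i hi => ?_
  · have := key i hi
    rw [show _ * _ = i.1 from congrArg Prod.fst e, show _ * _ = i.2 from congrArg Prod.snd e]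
      at this
    omega
  · obtain ⟨h1, h2⟩ := Nat.mem_divisorsAntidiagonal.1 hi
    refine Nat.mem_divisorsAntidiagonal.2 ⟨?_, h2⟩
    rw [← h1]
    conv_rhs => rw [← pt_mul K (ne i hi).1, ← pt_mul K (ne i hi).2]
    ring
  · simp only [(pt_sw K _ _).1, (pt_sw K _ _).2, pt_mul K (ne i hi).1, pt_mul K (ne i hi).2]

theorem J_sq {q : ℕ} (hq : q.Prime) {a : ℤ} (h : ¬ (q : ℤ) ∣ a) : J(a | q) * J(a | q) = 1 := by
  rw [← sq, jacobiSym.sq_one (gcd_one hq h)]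

theorem nd4 {q : ℕ} (hq : q.Prime) (h2 : q ≠ 2) : ¬ (q : ℤ) ∣ 2 := fun d =>
  h2 ((Nat.prime_dvd_prime_iff_eq hq Nat.prime_two).1 (by exact_mod_cast d))

theorem J_four {q : ℕ} (hq : q.Prime) (h2 : q ≠ 2) (a : ℤ) : J(4 * a | q) = J(a | q) := by
  rw [jacobiSym.mul_left, show (4 : ℤ) = 2 ^ 2 by norm_num,
    jacobiSym.sq_one' (gcd_one hq (nd4 hq h2)), one_mul]

theorem gp_sw {q : ℕ} (hq : q.Prime) (h2 : q ≠ 2) {a₁ a₂ c₁ c₂ n : ℤ} (ha : ¬ (q : ℤ) ∣ a₁)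
    (hc : ¬ (q : ℤ) ∣ c₁) (hd : (q : ℤ) ∣ n ^ 2 + 4 * (a₁ * a₂ * (c₁ * c₂))) :
    gp q (-(a₁ * c₂), n, c₁ * a₂) = J(-(a₁ * c₁) | q) * gp q (-(a₁ * a₂), n, c₁ * c₂) := by
  have pp := Nat.prime_iff_prime_int.1 hq
  have s1 := J_sq hq ha
  have s2 := J_sq hq hc
  have s3 := eps_sq q
  have ng : ∀ x : ℤ, J(-x | q) = eps q * J(x | q) := fun x => by
    rw [← neg_one_mul, jacobiSym.mul_left, eps]
  simp only [gp, dvd_neg, pp.dvd_mul, ha, false_or, ng, jacobiSym.mul_left]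
  by_cases h1 : (q : ℤ) ∣ a₂ <;> by_cases h3 : (q : ℤ) ∣ c₂ <;> simp only [h1, h3, if_true, if_false]
  · rw [J_dvd hq.one_lt h1, J_dvd hq.one_lt h3]
    ring
  · linear_combination (-(eps q * J(a₁ | q) * J(c₂ | q))) * s2
  · linear_combination (-(J(c₁ | q) * J(a₂ | q))) * s3 -
      (eps q * eps q * J(c₁ | q) * J(a₂ | q)) * s1
  · have e := J_congr (a := n ^ 2) (b := -(4 * (a₁ * a₂ * (c₁ * c₂)))) (by rwa [sub_neg_eq_add])
    rw [jacobiSym.sq_one' (gcd_one hq fun d => ?_), ng, J_four hq h2] at e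
    · simp only [jacobiSym.mul_left] at e
      have s4 := J_sq hq h3
      rcases Int.eq_one_or_neg_one_of_mul_eq_one s1 with k1 | k1 <;>
        rcases Int.eq_one_or_neg_one_of_mul_eq_one s3 with k3 | k3 <;>
        rcases Int.eq_one_or_neg_one_of_mul_eq_one s4 with k4 | k4 <;>
        rw [k1, k3, k4] at e ⊢ <;> linarith
    · have := (dvd_add_right (dvd_pow d two_ne_zero)).1 hd
      simp only [pp.dvd_mul, ha, hc, h1, h3, or_false] at this
      exact nd4 hq h2 (pp.dvd_of_dvd_pow (n := 2) this)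

theorem gc_sw {d : ℕ} (ho : Odd d) (hs : Squarefree d) {a₁ a₂ c₁ c₂ n : ℤ}
    (ha : IsCoprime (a₁ * c₁) d) (hd : (d : ℤ) ∣ n ^ 2 + 4 * (a₁ * a₂ * (c₁ * c₂))) :
    gc d (-(a₁ * c₂), n, c₁ * a₂) = J(-(a₁ * c₁) | d) * gc d (-(a₁ * a₂), n, c₁ * c₂) := by
  rw [J_prod hs, gc_def, gc_def, ← prod_mul_distrib]
  exact prod_congr rfl fun q hq => gp_sw (Nat.prime_of_mem_primeFactors hq) (ne_two ho hq)
    (ndvd hq ha.of_mul_left_left) (ndvd hq ha.of_mul_left_right)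
    ((Int.natCast_dvd_natCast.2 (Nat.dvd_of_mem_primeFactors hq)).trans hd)

theorem tor_sw {M : ℕ} {ψ : Fm → ℤ} (h : Tor M ψ) {a₁ a₂ c₁ c₂ n : ℤ}
    (ha : IsCoprime (a₂ * c₂) M) : ψ (-(a₁ * c₂), n, c₁ * a₂) = ψ (-(a₁ * a₂), n, c₁ * c₂) := by
  obtain ⟨v, k, e⟩ := ha
  have h1 := h.tor (v * c₂ ^ 2) (v * a₂ ^ 2) ⟨-k * (v * (a₂ * c₂) + 1), by
    linear_combination (v * (a₂ * c₂) + 1) * e⟩ (-(a₁ * a₂), n, c₁ * c₂)
  rw [← h1, ← h.per (-(a₁ * c₂), n, c₁ * a₂) (k * a₁ * c₂, 0, -(k * c₁ * a₂))]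
  congr 1
  refine Prod.ext ?_ (Prod.ext ?_ ?_) <;> simp only
  · linear_combination (a₁ * c₂) * e
  · ring
  · linear_combination (-(c₁ * a₂)) * e

theorem spl_iff {d p : ℕ} (h8 : d % 8 = 7) (hp : p.Prime) : Spl d p ↔ J(p | d) = 1 := by
  rcases hp.eq_two_or_odd' with rfl | ho
  · refine iff_of_true (Or.inl rfl) ?_
    rw [Nat.cast_ofNat, jacobiSym.at_two (Nat.odd_iff.2 (by omega)), ZMod.χ₈_nat_eq_if_mod_eight]
    simp only [h8]
    rw [if_neg (by omega)]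
    simp
  · rw [Spl, J_flip (by omega) ho]
    exact or_iff_right fun e => by simp [e] at ho; exact absurd ho (by decide)

theorem spl_M {M d p : ℕ} {β : ℤ} (h : Sp M d β) (hp : p.Prime) (hM : p ∣ M) : Spl d p := by
  by_cases h2 : p = 2
  · exact Or.inl h2
  have pM : (p : ℤ) ∣ β ^ 2 + d := ((Int.natCast_dvd_natCast.2 hM).mul_left 4).trans h.rt
  right
  rw [← J_congr (a := β ^ 2) (by rwa [sub_neg_eq_add]),
    jacobiSym.sq_one' (gcd_one hp fun k => ?_)]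
  have := Int.natCast_dvd_natCast.1 ((dvd_add_right (dvd_pow k two_ne_zero)).1 pM)
  exact hp.one_lt.ne' ((h.cop.coprime_dvd_left hM).eq_one_of_dvd this)

theorem cop_M {M d x : ℕ} {β : ℤ} (h : Sp M d β) (hx : ∀ p, p.Prime → p ∣ x → ¬ Spl d p) :
    IsCoprime (x : ℤ) M := cop_of fun p hp a b =>
  hx p hp (Int.natCast_dvd_natCast.1 a) (spl_M h hp (Int.natCast_dvd_natCast.1 b))

theorem J_spl {d x : ℕ} (h8 : d % 8 = 7) (h0 : x ≠ 0) (hx : ∀ p, p.Prime → p ∣ x → Spl d p) :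
    J(-(x : ℤ) | d) = -1 ∧ IsCoprime (x : ℤ) d := by
  have h := J_all x h0 fun p hp k => (spl_iff h8 hp).1 (hx p hp k)
  refine ⟨?_, Nat.isCoprime_iff_coprime.2 (cop_J (by omega) h)⟩
  rw [← neg_one_mul, jacobiSym.mul_left, h, J_neg_one (Nat.odd_iff.2 (by omega)),
    if_neg (by omega), mul_one]

theorem fac_sw {p c₁ a₂ c₂ : ℕ} (hp : p.Prime) (h : ¬ p ∣ a₂ * c₂) :
    (c₁ * a₂).factorization p = (c₁ * c₂).factorization p := by
  rcases eq_or_ne c₁ 0 with rfl | h0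
  · simp
  have h1 : ¬ p ∣ a₂ := fun k => h (k.mul_right _)
  have h2 : ¬ p ∣ c₂ := fun k => h (k.mul_left _)
  have h3 : a₂ ≠ 0 := fun k => h1 (k ▸ dvd_zero p)
  have h4 : c₂ ≠ 0 := fun k => h2 (k ▸ dvd_zero p)
  rw [Nat.factorization_mul h0 h3, Nat.factorization_mul h0 h4, Finsupp.add_apply,
    Finsupp.add_apply,
    Nat.factorization_eq_zero_of_not_dvd h1, Nat.factorization_eq_zero_of_not_dvd h2]

theorem gc_ram {q e : ℕ} (hq : q.Prime) (hs : Squarefree (q * e)) (h4 : q * e % 4 = 3)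
    {a₁ a₂ c c₂ n D : ℤ} (hD : J(-D | q) = 1) (ha : IsCoprime (a₁ * c) (q * e : ℕ))
    (hJ : J(-(a₁ * c) | q * e) = -1)
    (hm : n ^ 2 + 4 * (a₁ * a₂ * (q * c * c₂)) = (q * e : ℕ) * D) :
    gc (q * e) (-(a₁ * c₂), n, q * c * a₂) = -gc (q * e) (-(a₁ * a₂), n, q * c * c₂) := by
  have pp := Nat.prime_iff_prime_int.1 hq
  have ho : Odd (q * e) := Nat.odd_iff.2 (by omega)
  have oq := Nat.Odd.of_mul_left ho
  have oe := Nat.Odd.of_mul_right ho
  have h2 : q ≠ 2 := fun k => by simp [k] at oq; exact absurd oq (by decide)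
  have cp := Nat.coprime_of_squarefree_mul hs
  have e0 : e ≠ 0 := oe.pos.ne'
  have gm : ∀ l, gc (q * e) l = gp q l * gc e l := fun l => by
    rw [gc_def, cp.primeFactors_mul, prod_union cp.disjoint_primeFactors, hq.primeFactors,
      prod_singleton, gc_def]
  push_cast at hm ha
  have q0 : (q : ℤ) ≠ 0 := pp.ne_zero
  obtain ⟨k, rfl⟩ : (q : ℤ) ∣ n := pp.dvd_of_dvd_pow (n := 2)
    ⟨e * D - 4 * (a₁ * a₂ * (c * c₂)), by linear_combination hm⟩
  have hm' : q * k ^ 2 + 4 * (a₁ * c * (a₂ * c₂)) = e * D :=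
    mul_left_cancel₀ q0 (by linear_combination hm)
  have e1 := J_congr (n := q) (a := e * D) (b := 4 * (a₁ * c * (a₂ * c₂)))
    ⟨k ^ 2, by linear_combination -hm'⟩
  have ng : ∀ x : ℤ, J(-x | q) = eps q * J(x | q) := fun x => by
    rw [← neg_one_mul, jacobiSym.mul_left, eps]
  have s0 := eps_sq q
  have s1 := J_cop cp.symm
  have e2 : J(q | e) = J(e | q) := by
    by_cases k1 : q % 4 = 1
    · exact jacobiSym.quadratic_reciprocity_one_mod_four k1 oe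
    · have k2 : q % 4 = 3 := by have := Nat.odd_iff.1 oq; omega
      have k3 : e % 4 = 1 := by
        rw [Nat.mul_mod, k2] at h4
        omega
      exact (jacobiSym.quadratic_reciprocity_one_mod_four k3 oq).symm
  rw [J_four hq h2] at e1
  rw [ng] at hD
  have nz : J(a₁ * c * (a₂ * c₂) | q) ≠ 0 := by
    rw [← e1, jacobiSym.mul_left]
    intro k
    rcases mul_eq_zero.1 k with k | k
    · simp [k] at s1
    · simp [k] at hD
  have nd : ¬ (q : ℤ) ∣ a₁ * c * (a₂ * c₂) := fun k => nz (J_dvd hq.one_lt k)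
  simp only [pp.dvd_mul, not_or] at nd
  have e3 := gc_sw oe hs.of_mul_right (a₁ := a₁) (a₂ := a₂) (c₁ := q * c) (c₂ := c₂) (n := q * k)
    (by
      rw [mul_left_comm]
      exact (Nat.isCoprime_iff_coprime.2 cp).mul_left ha.of_mul_right_right)
    ⟨q * D, by linear_combination hm⟩
  have : NeZero q := ⟨hq.ne_zero⟩
  have : NeZero e := ⟨e0⟩
  rw [jacobiSym.mul_right, ng] at hJ
  rw [show -(a₁ * (q * c)) = q * -(a₁ * c) by ring, jacobiSym.mul_left, e2] at e3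
  rw [gm, gm, e3]
  simp only [gp, dvd_neg, pp.dvd_mul, nd.1.1, nd.2.1, nd.2.2, or_false, if_false, ng,
    jacobiSym.mul_left] at e1 hJ ⊢
  have s2 := J_sq hq nd.1.1
  have s3 := J_sq hq nd.1.2
  have s4 := J_sq hq nd.2.2
  generalize gc e _ = G
  generalize J(-(a₁ * c) | e) = Y at hJ ⊢
  have key : J(c₂ | q) * (J(e | q) * Y) = -J(a₂ | q) := by
    rcases Int.eq_one_or_neg_one_of_mul_eq_one s0 with k0 | k0 <;>
      rcases Int.eq_one_or_neg_one_of_mul_eq_one s1 with k1 | k1 <;>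
      rcases Int.eq_one_or_neg_one_of_mul_eq_one s2 with k2 | k2 <;>
      rcases Int.eq_one_or_neg_one_of_mul_eq_one s3 with k3 | k3 <;>
      rcases Int.eq_one_or_neg_one_of_mul_eq_one s4 with k4 | k4 <;>
      rw [k0] at hD <;> rw [k0, k2, k3] at hJ <;> rw [k1, k2, k3, k4] at e1 <;>
      rw [k1, k4] <;> linarith only [hD, hJ, e1]
  linear_combination (eps q * J(a₁ | q) * G) * key

end Iv

open Iv in
theorem inv : INV := by
  intro M d β ψ h h8 hT n D m hm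
  have ho : Odd d := Nat.odd_iff.2 (by omega)
  have sw : ∀ a₁ a₂ c₁ c₂ : ℕ, a₁ * a₂ * (c₁ * c₂) = m → m ≠ 0 →
      (∀ p, p.Prime → p ∣ a₁ * c₁ → Spl d p) → (∀ p, p.Prime → p ∣ a₂ * c₂ → ¬ Spl d p) →
      ψ (-(a₁ * c₂ : ℕ), n, (c₁ * a₂ : ℕ)) * gc d (-(a₁ * c₂ : ℕ), n, (c₁ * a₂ : ℕ)) =
        -(ψ (-(a₁ * a₂ : ℕ), n, (c₁ * c₂ : ℕ)) * gc d (-(a₁ * a₂ : ℕ), n, (c₁ * c₂ : ℕ))) := by
    intro a₁ a₂ c₁ c₂ e m0 k1 k2
    subst e
    have k3 := J_spl h8 (x := a₁ * c₁) (by simp only [ne_eq, mul_eq_zero] at m0 ⊢; tauto) k1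
    have k4 := cop_M h k2
    push_cast at k3 k4 hm ⊢
    rw [tor_sw hT k4, gc_sw ho h.sq k3.2 ⟨D, hm⟩, k3.1]
    ring
  refine ⟨inv_sum (Spl d) m (fun a c => ψ (-a, n, c) * gc d (-a, n, c)) sw, fun p hp hc => ?_⟩
  by_cases hs : Spl d p
  · refine inv_sum (Spl d) m (fun a c => ψ (-a, n, c) * gc d (-a, n, c) * c.factorization p)
      fun a₁ a₂ c₁ c₂ e m0 k1 k2 => ?_
    rw [sw a₁ a₂ c₁ c₂ e m0 k1 k2, fac_sw hp fun k => k2 p hp k hs, neg_mul]
  have hD := hc.resolve_left hs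
  have pp := Nat.prime_iff_prime_int.1 hp
  by_cases pd : p ∣ d
  · obtain ⟨e, rfl⟩ := pd
    refine inv_sum (fun l => Spl (p * e) l ∨ l = p) m
      (fun a c => ψ (-a, n, c) * gc (p * e) (-a, n, c) * c.factorization p)
      fun a₁ a₂ c₁ c₂ e1 m0 k1 k2 => ?_
    have k5 : ¬ p ∣ a₂ * c₂ := fun k => k2 p hp k (Or.inr rfl)
    rw [fac_sw hp k5]
    by_cases pc : p ∣ c₁
    · obtain ⟨c, rfl⟩ := pc
      subst e1
      have k6 : ¬ p ∣ a₁ * c := fun k => by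
        have k7 : (p : ℤ) ∣ a₁ * c := by exact_mod_cast k
        obtain ⟨j, hj⟩ := k7
        push_cast at hm
        obtain ⟨i, rfl⟩ : (p : ℤ) ∣ n := pp.dvd_of_dvd_pow (n := 2)
          ⟨e * D - 4 * (a₁ * a₂ * (c * c₂)), by linear_combination hm⟩
        have k8 : (p : ℤ) ∣ e * D := ⟨i ^ 2 + 4 * j * a₂ * c₂, mul_left_cancel₀ pp.ne_zero (by
          linear_combination (4 * p * a₂ * c₂) * hj - hm)⟩
        rcases pp.dvd_or_dvd k8 with k9 | k9
        · exact hp.one_lt.ne' ((Nat.coprime_of_squarefree_mul h.sq).eq_one_of_dvd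
            (Int.natCast_dvd_natCast.1 k9))
        · rw [J_dvd hp.one_lt (dvd_neg.2 k9)] at hD
          exact zero_ne_one hD
      have k3 := J_spl h8 (x := a₁ * c) (fun k => k6 (k ▸ dvd_zero p)) fun l hl k =>
        (k1 l hl (k.trans (mul_dvd_mul_left _ (dvd_mul_left _ _)))).resolve_right
          fun j => k6 (j ▸ k)
      have k4 := cop_M h fun l hl k j => k2 l hl k (Or.inl j)
      rw [Nat.cast_mul a₁] at k3
      have := gc_ram hp h.sq h.m4 (a₂ := a₂) (c₂ := c₂) (n := n) hD k3.2 k3.1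
        (by rw [← hm]; push_cast; ring)
      push_cast at k4 ⊢
      rw [tor_sw hT k4, this]
      ring
    · rw [Nat.factorization_eq_zero_of_not_dvd fun k => ((Nat.Prime.dvd_mul hp).1 k).elim pc
        fun j => k5 (j.mul_left _)]
      simp
  · refine sum_eq_zero fun i hi => ?_
    rw [Nat.factorization_eq_zero_of_not_dvd fun k => ?_, Nat.cast_zero, mul_zero]
    have k1 : (p : ℤ) ∣ m := Int.natCast_dvd_natCast.2
      ((Nat.mem_divisorsAntidiagonal.1 hi).1 ▸ k.mul_left _)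
    have k2 := J_congr (n := p) (a := -(d : ℤ) * -D) (b := n ^ 2)
      ((k1.mul_left 4).trans (dvd_of_eq (by linear_combination hm)))
    have k3 := (jacobiSym.eq_one_or_neg_one (gcd_one hp (a := -(d : ℤ)) fun j =>
      pd (Int.natCast_dvd_natCast.1 (dvd_neg.1 j)))).resolve_left fun j => hs (Or.inr j)
    rw [jacobiSym.mul_left, hD, k3, sq, jacobiSym.mul_left] at k2
    linarith [mul_self_nonneg J(n | p)]

end Vale.Agent.P004Z.Kf
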