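import Vale.Agent.P004Z.Kf.Cn0
import Vale.Agent.P004Z.Th.Gau

/-!
# P004Z, block G5, the count: sums over ideals of given norm
-/

set_option autoImplicit false
set_option linter.all false

open QuadraticAlgebra Ideal Finset
open scoped MatrixGroups NumberTheorySymbols Classical

noncomputable section

namespace Vale.Agent.P004Z.Kf.Cn

open Hd Gq

variable {e : ℤ} {A : Type} [CommRing A] (ι : R e →+* A)

/-- invariant under the torus -/
def TI (F : A → A → ℤ) : Prop := ∀ u u' x y, u * u' = 1 → F (u * x) (u' * y) = F x y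

def sh (u v : A) (F : A → A → ℤ) : A → A → ℤ := fun x y => F (u * x) (v * y)

theorem TI.sh {F : A → A → ℤ} (h : TI F) (u v : A) : TI (sh u v F) := fun a a' x y k => by
  simp only [Cn.sh, mul_left_comm u, mul_left_comm v, h a a' _ _ k]

theorem TI.sw {F : A → A → ℤ} (h : TI F) {u : A} (k : IsUnit u) : Cn.sh u 1 F = Cn.sh 1 u F := by
  obtain ⟨u', a⟩ := k.exists_left_inv
  funext x y
  simp only [Cn.sh, one_mul]
  rw [← h u' u _ _ a, ← mul_assoc, a, one_mul]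

/-- local generators of `cj b` and `b` with product `m` -/
def Gen (b : Ideal (R e)) (m : ℤ) (x y : A) : Prop := ∃ η ∈ b, ∃ η' ∈ cj b, ∃ s s',
  IsUnit (ι s) ∧ IsUnit (ι s') ∧ η * η' = m * s * s' ∧ x * ι s' = ι η' ∧ y * ι s = ι η

variable {ι}

theorem Gen.mul {b c : Ideal (R e)} {m n : ℤ} {x y z w : A} (h : Gen ι b m x y)
    (k : Gen ι c n z w) : Gen ι (b * c) (m * n) (x * z) (y * w) := by
  obtain ⟨η, a, η', a', s, s', u, u', p, q, r⟩ := h
  obtain ⟨η1, a1, η1', a1', s1, s1', u1, u1', p1, q1, r1⟩ := k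
  refine ⟨η * η1, mul_mem_mul a a1, η' * η1', cj_mul b c ▸ mul_mem_mul a' a1', s * s1, s' * s1',
    map_mul ι _ _ ▸ u.mul u1, map_mul ι _ _ ▸ u'.mul u1', ?_, ?_, ?_⟩
  · push_cast
    linear_combination η1 * η1' * p + m * s * s' * p1
  · rw [map_mul, map_mul, ← q, ← q1]
    ring
  · rw [map_mul, map_mul, ← r, ← r1]
    ring

theorem Gen.st {b : Ideal (R e)} {m : ℤ} {x y : A} (h : Gen ι b m x y) : Gen ι (cj b) m y x := by
  obtain ⟨η, a, η', a', s, s', u, u', p, q, r⟩ := h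
  exact ⟨η', a', η, (cj_cj b).symm ▸ a, s', s, u', u, by linear_combination p, r, q⟩

theorem gen_int (k : ℤ) : Gen ι (span {(k : R e)}) (k * k) k k :=
  ⟨k, mem_span_singleton_self _, k, (cj_int k).symm ▸ mem_span_singleton_self _, 1, 1, by simp,
    by simp, by simp, by simp, by simp⟩

theorem gen_of {P : Ideal (R e)} {k : ℤ} (h : Nm P k) {x : R e} (a : x ∈ cj P)
    (u : IsUnit (ι x)) : Gen ι P k 1 k :=
  ⟨k, h.self, x, a, 1, x, by simp, u, by simp, by simp, by simp⟩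

theorem mem_el {Q : Fm} (h : disc Q = 1 - 4 * e) {u v : ℤ} :
    u + v * th e Q ∈ aQ e Q ↔ Q.1 ∣ u := by
  rw [mem_aQ h]
  refine ⟨fun ⟨a, b, k⟩ => ⟨a, ?_⟩, fun ⟨a, k⟩ => ⟨a, -v, by rw [k, el]; push_cast; ring⟩⟩
  have k1 := congrArg QuadraticAlgebra.re k
  have k2 := congrArg QuadraticAlgebra.im k
  simp [el, th] at k1 k2
  rw [k2] at k1
  linear_combination k1

theorem mem_el' {Q : Fm} (h : disc Q = 1 - 4 * e) {u v : ℤ} :
    u + v * th e Q ∈ cj (aQ e Q) ↔ Q.1 ∣ u - Q.2.1 * v := by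
  rw [mem_cj, ← mem_el h (v := -v)]
  refine iff_of_eq (congrArg (· ∈ aQ e Q) ?_)
  simp only [star_add, star_mul', star_intCast]
  push_cast
  linear_combination (v : R e) * th_add h

theorem nm_dec {Q : Fm} (h : disc Q = 1 - 4 * e) (u v : ℤ) :
    (u + v * th e Q).norm = u * (u - Q.2.1 * v) + Q.1 * (Q.2.2 * v ^ 2) := by
  refine Int.cast_injective (α := R e) ?_
  rw [nm_cast]
  simp only [star_add, star_mul', star_intCast]
  push_cast
  linear_combination (u * v : R e) * th_add h + (v : R e) ^ 2 * th_mul h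

theorem ex_Q {p : ℕ} (hp : p.Prime) {x : R e} (a : (p : ℤ) ∣ x.norm) (b : ¬ ((p : ℤ) : R e) ∣ x) :
    ∃ Q : Fm, Q.1 = p ∧ disc Q = 1 - 4 * e := by
  have pp := Nat.prime_iff_prime_int.1 hp
  rw [norm_def] at a
  have c : ¬ (p : ℤ) ∣ x.im := fun k => b (cast_dvd.2 ⟨?_, k⟩)
  · obtain ⟨u, v, k⟩ := pp.irreducible.coprime_iff_not_dvd.2 c
    obtain ⟨w, a⟩ := a
    refine ⟨(p, 2 * (-(v * x.re)) - 1,
      v ^ 2 * w + u * v * x.re + e * u * (1 + v * x.im)), rfl, ?_⟩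
    simp only [disc]
    linear_combination 4 * v ^ 2 * a - 4 * (v * x.re + e * (1 + v * x.im)) * k
  · exact pp.dvd_of_dvd_pow (n := 2) (by
      simpa [sq] using dvd_sub a (k.mul_left (x.re + e * x.im)) |>.trans (dvd_of_eq (by ring)))

variable {d : ℕ}

theorem J_split (hd : (d : ℤ) = 4 * e - 1) {p : ℕ} (hp : p.Prime) (n : ¬ p ∣ d) {Q : Fm}
    (a : Q.1 = p) (h : disc Q = 1 - 4 * e) : J(p | d) = 1 := by
  obtain ⟨s, h1, -, h2⟩ := ex_s h
  rcases hp.eq_two_or_odd' with rfl | ho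
  · have := Int.even_mul_succ_self (s - 1)
    have h8 : d % 8 = 7 := by
      obtain ⟨k, hk⟩ := this
      have : e = 2 * (Q.2.2 - k) := by
        rw [h2, a]
        push_cast
        linear_combination -hk
      omega
    rw [Nat.cast_ofNat, jacobiSym.at_two (Nat.odd_iff.2 (by omega)), ZMod.χ₈_nat_eq_if_mod_eight]
    simp only [h8]
    rw [if_neg (by omega)]
    simp
  · have k : (p : ℤ) ∣ Q.2.1 ^ 2 - -(d : ℤ) := ⟨4 * Q.2.2, by
      rw [disc, a] at h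
      linear_combination h + hd⟩
    rw [← J_flip (by omega) ho, ← J_congr k, jacobiSym.sq_one' (gcd_one hp fun j => n ?_)]
    exact Int.natCast_dvd_natCast.1 (dvd_neg.1 ((dvd_sub_right (dvd_pow j two_ne_zero)).1 k))

theorem J_inert (hd : (d : ℤ) = 4 * e - 1) {p : ℕ} (hp : p.Prime)
    (h : ∀ x : R e, (p : ℤ) ∣ x.norm → ((p : ℤ) : R e) ∣ x) : J(p | d) = -1 := by
  rcases hp.eq_two_or_odd' with rfl | ho
  · have h8 : d % 8 = 3 := by
      by_contra k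
      have := (cast_dvd.1 (h ⟨0, 1⟩ (by simp only [norm_def]; omega))).2
      simp at this
    rw [Nat.cast_ofNat, jacobiSym.at_two (Nat.odd_iff.2 (by omega)), ZMod.χ₈_nat_eq_if_mod_eight]
    simp only [h8]
    rw [if_neg (by omega)]
    simp
  · haveI := Fact.mk hp
    rw [← J_flip (by omega) ho]
    refine ZMod.nonsquare_iff_jacobiSym_eq_neg_one.2 fun ⟨y, k⟩ => ?_
    obtain ⟨y, rfl⟩ := ZMod.intCast_surjective y
    rw [← Int.cast_mul, ZMod.intCast_eq_intCast_iff_dvd_sub] at k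
    have := (cast_dvd.1 (h ⟨y - 1, 2⟩ (k.trans (dvd_of_eq ?_)))).2
    · exact ho.not_two_dvd_nat ((Nat.prime_dvd_prime_iff_eq hp Nat.prime_two).1
        (Int.natCast_dvd_natCast.1 this) ▸ dvd_rfl)
    · simp only [norm_def]
      linear_combination hd

variable (ι d) in
/-- the primes which are not units split, and `ι` sees one of the two primes above -/
def Loc : Prop := ∀ p : ℕ, p.Prime → IsUnit ((p : ℤ) : A) ∨
  ¬ p ∣ d ∧ ∃ Q : Fm, Q.1 = p ∧ disc Q = 1 - 4 * e ∧ IsUnit (ι (star (th e Q)))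

theorem pd (hd : (d : ℤ) = 4 * e - 1) (hs : Squarefree (4 * e - 1)) (hι : Loc ι d) {p : ℕ}
    (hp : p.Prime) :
    (J(p | d) = 1 ∧ ∃ P, Nm P p ∧ Gen ι P p 1 (p : ℤ) ∧ ∀ b m, Nm b m → (p : ℤ) ∣ m →
      (b ≤ P ∨ b ≤ cj P) ∧ (b ≤ span {((p : ℤ) : R e)} ↔ b ≤ P ∧ b ≤ cj P)) ∨
    (p ∣ d ∧ IsUnit ((p : ℤ) : A) ∧ ∃ P, Nm P p ∧ Gen ι P p 1 (p : ℤ) ∧
      ∀ b m, Nm b m → (p : ℤ) ∣ m → b ≤ P) ∨
    (J(p | d) = -1 ∧ IsUnit ((p : ℤ) : A) ∧ ∀ (b : Ideal (R e)) m, Nm b m → (p : ℤ) ∣ m →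
      b ≤ span {((p : ℤ) : R e)}) := by
  have pp := Nat.prime_iff_prime_int.1 hp
  by_cases hi : ∀ x : R e, (p : ℤ) ∣ x.norm → ((p : ℤ) : R e) ∣ x
  · refine Or.inr (Or.inr ⟨J_inert hd hp hi, (hι p hp).resolve_right fun ⟨n, Q, a, h, _⟩ => ?_,
      fun b m k j x hx => mem_span_singleton.2 (hi x (j.trans (k.dvd hx)))⟩)
    have := J_split hd hp n a h
    rw [J_inert hd hp hi] at this
    omega
  obtain ⟨Q, a, h, g⟩ : ∃ Q : Fm, Q.1 = p ∧ disc Q = 1 - 4 * e ∧ Gen ι (aQ e Q) p 1 (p : ℤ) := by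
    rcases hι p hp with u | ⟨-, Q, a, h, u⟩
    · push Not at hi
      obtain ⟨x, a, b⟩ := hi
      obtain ⟨Q, a, h⟩ := ex_Q hp a b
      have := a ▸ nm_aQ hs h
      exact ⟨Q, a, h, gen_of this this.st.self (by simpa using u)⟩
    · exact ⟨Q, a, h, gen_of (a ▸ nm_aQ hs h) (mem_cj.2 (by
        rw [star_star]; exact subset_span (by simp))) u⟩
  have n : Nm (aQ e Q) p := a ▸ nm_aQ hs h
  have pB : (p : ℤ) ∣ Q.2.1 ^ 2 + d := ⟨4 * Q.2.2, by
    rw [disc, a] at h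
    linear_combination h + hd⟩
  have k : ∀ u v : ℤ, (p : ℤ) ∣ (u + v * th e Q).norm → (p : ℤ) ∣ u ∨ (p : ℤ) ∣ u - Q.2.1 * v :=
    fun u v k => by
      rw [nm_dec h, a, dvd_add_left (dvd_mul_right _ _)] at k
      exact pp.dvd_or_dvd k
  by_cases pd : p ∣ d
  · refine Or.inr (Or.inl ⟨pd, (hι p hp).resolve_right fun k => k.1 pd, _, n, g,
      fun b m j j' x hx => ?_⟩)
    obtain ⟨u, v, rfl⟩ := dec Q x
    have := pp.dvd_of_dvd_pow ((dvd_add_left (Int.natCast_dvd_natCast.2 pd)).1 pB)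
    exact (mem_el h).2 (a ▸ (k u v (j'.trans (j.dvd hx))).elim id
      (dvd_sub_left (this.mul_right v)).1)
  refine Or.inl ⟨J_split hd hp pd a h, _, n, g, fun b m j j' => ⟨?_, fun c => ?_, fun c x hx => ?_⟩⟩
  · refine Ideal.subset_union.1 fun x hx => ?_
    obtain ⟨u, v, rfl⟩ := dec Q x
    exact (k u v (j'.trans (j.dvd hx))).imp (fun c => (mem_el h).2 (a ▸ c))
      fun c => (mem_el' h).2 (a ▸ c)
  · exact ⟨c.trans ((span_singleton_le_iff_mem _).2 n.self),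
      c.trans ((span_singleton_le_iff_mem _).2 n.st.self)⟩
  · obtain ⟨u, v, rfl⟩ := dec Q x
    have c1 := a ▸ (mem_el h).1 (c.1 hx)
    have c2 := (dvd_sub_right c1).1 (a ▸ (mem_el' h).1 (c.2 hx))
    obtain ⟨v, rfl⟩ := (pp.dvd_or_dvd c2).resolve_left fun c =>
      pd (Int.natCast_dvd_natCast.1 ((dvd_add_right (dvd_pow c two_ne_zero)).1 pB))
    obtain ⟨u, rfl⟩ := c1
    exact mem_span_singleton.2 ⟨u + v * th e Q, by push_cast; ring⟩

variable [he : Fact (1 < e)]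

theorem Gen.eq {b : Ideal (R e)} {m : ℤ} {x y x1 y1 : A} {F : A → A → ℤ} (n : Nm b m) (m0 : m ≠ 0)
    (h : Gen ι b m x y) (k : Gen ι b m x1 y1) (t : TI F) : F x1 y1 = F x y := by
  obtain ⟨η, a, η', a', s, s', u, u', p, q, r⟩ := h
  obtain ⟨η1, a1, η1', a1', s1, s1', u1, u1', p1, q1, r1⟩ := k
  have m0 : (m : R e) ≠ 0 := Int.cast_ne_zero.2 m0
  obtain ⟨w, c⟩ := mem_span_singleton.1 (n.le (mul_mem_mul a a1'))
  obtain ⟨w', c'⟩ := mem_span_singleton.1 (n.le (mul_mem_mul a1 a'))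
  have e1 : w * w' = s * s' * (s1 * s1') := mul_left_cancel₀ (mul_ne_zero m0 m0) (by
    linear_combination η1 * η1' * p + m * s * s' * p1 - η1 * η' * c - m * w * c')
  have e2 : s1 * s1' * η = w * η1 := mul_left_cancel₀ m0 (by linear_combination η1 * c - η * p1)
  have e3 : s * s' * η1' = w * η' := mul_left_cancel₀ m0 (by linear_combination η' * c - η1' * p)
  have uw : IsUnit (ι w) := isUnit_of_mul_isUnit_left (y := ι w') (by
    simp only [← map_mul, e1]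
    simp only [map_mul]
    exact (u.mul u').mul (u1.mul u1'))
  have e2 := congrArg ι e2
  have e3 := congrArg ι e3
  simp only [map_mul, ← q, ← r, ← q1, ← r1] at e2 e3
  obtain ⟨v, hv⟩ := (u.mul u1').exists_left_inv
  obtain ⟨z, hz⟩ := uw.exists_left_inv
  rw [← t (v * ι w) (z * (ι s * ι s1')) x y (by linear_combination z * ι w * hv + hz)]
  congr 1
  · exact u'.mul_left_cancel (by linear_combination v * e3 - ι s' * x1 * hv)
  · exact u1.mul_left_cancel (by linear_combination -z * e2 - ι s1 * y1 * hz)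

variable (ι) in
/-- the weight of an ideal -/
def W (F : A → A → ℤ) (b : Ideal (R e)) (m : ℤ) : ℤ :=
  if h : ∃ p : A × A, Gen ι b m p.1 p.2 then F h.choose.1 h.choose.2 else 0

theorem W_eq {b : Ideal (R e)} {m : ℤ} {x y : A} {F : A → A → ℤ} (n : Nm b m) (m0 : m ≠ 0)
    (h : Gen ι b m x y) (t : TI F) : W ι F b m = F x y := by
  have k : ∃ p : A × A, Gen ι b m p.1 p.2 := ⟨(x, y), h⟩
  rw [W, dif_pos k]
  exact h.eq n m0 k.choose_spec t

variable (e) in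
/-- the ideals of norm `m` -/
def BB (m : ℕ) : Finset (Ideal (R e)) := if h : m = 0 then ∅ else
  ((Ring.HasFiniteQuotients.finite_setOfPred_mem ((m : ℤ) : R e) (by simpa using h)).subset
    (t := {b | Nm b m}) fun _ k => Nm.self k).toFinset

theorem mem_BB {m : ℕ} (h : m ≠ 0) {b : Ideal (R e)} : b ∈ BB e m ↔ Nm b m := by simp [BB, h]

theorem fac_le {b c : Ideal (R e)} {k m : ℕ} (n : Nm c k) (k0 : k ≠ 0) (h : Nm b m) (a : b ≤ c) :
    k ∣ m ∧ ∃ b', Nm b' (m / k : ℕ) ∧ b = c * b' := by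
  obtain ⟨b', rfl⟩ := n.fac (Int.natCast_ne_zero.2 k0) a
  obtain ⟨j, rfl⟩ : k ∣ m := Int.natCast_dvd_natCast.1 (cast_dvd.1 (mem_span_singleton.1
    ((h.ge.trans ((Ideal.mul_mono a (cj_le a)).trans n.le)) (mem_span_singleton_self _)))).1
  rw [Nat.mul_div_cancel_left _ (Nat.pos_of_ne_zero k0)]
  exact ⟨dvd_mul_right _ _, b', n.div (Int.natCast_ne_zero.2 k0) (by exact_mod_cast h), rfl⟩

theorem nm_one {b : Ideal (R e)} (h : Nm b (1 : ℕ)) : b = span {((1 : ℤ) : R e)} :=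
  le_antisymm (by simp) ((span_singleton_le_iff_mem _).2 h.self)

theorem nm_pp (p : ℕ) : Nm (span {((p : ℤ) : R e)}) (p * p : ℕ) := by
  simpa [sq] using nm_span ((p : ℤ) : R e)

theorem ex_gen (hd : (d : ℤ) = 4 * e - 1) (hs : Squarefree (4 * e - 1)) (hι : Loc ι d) (m : ℕ) :
    m ≠ 0 → ∀ b, Nm b m → ∃ x y, Gen ι b m x y := by
  induction m using Nat.strong_induction_on with | _ m ih => ?_
  intro m0 b h
  rcases eq_or_ne m 1 with rfl | m1
  · exact ⟨_, _, nm_one h ▸ gen_int 1⟩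
  obtain ⟨p, hp, pm⟩ := Nat.exists_prime_and_dvd m1
  have key : ∀ (c : Ideal (R e)) (k : ℕ) (x y : A), 1 < k → Nm c k → Gen ι c k x y → b ≤ c →
      ∃ x y, Gen ι b m x y := fun c k x y k1 n g a => by
    obtain ⟨⟨j, rfl⟩, b', n', rfl⟩ := fac_le n (by omega) h a
    rw [Nat.mul_div_cancel_left _ (by omega)] at n'
    have j0 := right_ne_zero_of_mul m0
    obtain ⟨z, w, g'⟩ := ih j (lt_mul_left (Nat.pos_of_ne_zero j0) k1) j0 b' n'
    exact ⟨_, _, Nat.cast_mul (α := ℤ) k j ▸ g.mul g'⟩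
  have pm := Int.natCast_dvd_natCast.2 pm
  rcases pd hd hs hι hp with ⟨-, P, n, g, a⟩ | ⟨-, -, P, n, g, a⟩ | ⟨-, -, a⟩
  · exact (a b m h pm).1.elim (key P p _ _ hp.one_lt n g) (key _ p _ _ hp.one_lt n.st g.st)
  · exact key P p _ _ hp.one_lt n g (a b m h pm)
  · exact key _ (p * p) _ _ (one_lt_mul'' hp.one_lt hp.one_lt) (nm_pp p)
      (Nat.cast_mul (α := ℤ) p p ▸ gen_int p) (a b m h pm)

variable (ι) in
def Gv (m : ℕ) (F : A → A → ℤ) : ℤ := ∑ b ∈ BB e m, W ι F b m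

theorem G_le (hd : (d : ℤ) = 4 * e - 1) (hs : Squarefree (4 * e - 1)) (hι : Loc ι d)
    {c : Ideal (R e)} {k m : ℕ} {x y : A} {F : A → A → ℤ} (n : Nm c k) (g : Gen ι c k x y)
    (k0 : k ≠ 0) (m0 : m ≠ 0) (t : TI F) : ∑ b ∈ BB e m, (if b ≤ c then W ι F b m else 0) =
      if k ∣ m then Gv ι (m / k) (sh x y F) else 0 := by
  rw [← sum_filter]
  split_ifs with a
  · obtain ⟨j, rfl⟩ := a
    have j0 := right_ne_zero_of_mul m0
    rw [Nat.mul_div_cancel_left _ (Nat.pos_of_ne_zero k0)]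
    refine (sum_bij (fun b _ => c * b) (fun b hb => mem_filter.2 ⟨(mem_BB m0).2 ?_, mul_le_left⟩)
      (fun b _ b' _ a => n.cancel (Int.natCast_ne_zero.2 k0) a) (fun b hb => ?_) fun b hb => ?_).symm
    · exact_mod_cast n.mul ((mem_BB j0).1 hb)
    · obtain ⟨-, b', n', rfl⟩ := fac_le n k0 ((mem_BB m0).1 (mem_filter.1 hb).1) (mem_filter.1 hb).2
      rw [Nat.mul_div_cancel_left _ (Nat.pos_of_ne_zero k0)] at n'
      exact ⟨b', (mem_BB j0).2 n', rfl⟩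
    · have n' := (mem_BB j0).1 hb
      obtain ⟨z, w, g'⟩ := ex_gen hd hs hι j j0 b n'
      rw [W_eq n' (Int.natCast_ne_zero.2 j0) g' (t.sh x y), Nat.cast_mul,
        W_eq (n.mul n') (by exact_mod_cast m0) (g.mul g') t, sh]
  · exact sum_eq_zero fun b hb => absurd
      (fac_le n k0 ((mem_BB m0).1 (mem_filter.1 hb).1) (mem_filter.1 hb).2).1 a

def Dv (χ χ' : ℕ →* ℤ) (m : ℕ) (F : A → A → ℤ) : ℤ :=
  ∑ i ∈ m.divisorsAntidiagonal, χ i.1 * χ' i.2 * F (i.1 : ℤ) (i.2 : ℤ)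

theorem D_le (χ χ' : ℕ →* ℤ) {u v m : ℕ} (F : A → A → ℤ) (m0 : m ≠ 0) :
    ∑ i ∈ m.divisorsAntidiagonal, (if u ∣ i.1 ∧ v ∣ i.2 then
      χ i.1 * χ' i.2 * F (i.1 : ℤ) (i.2 : ℤ) else 0) =
      if u * v ∣ m then χ u * χ' v * Dv χ χ' (m / (u * v)) (sh ((u : ℤ) : A) (v : ℤ) F) else 0 := by
  rw [← sum_filter]
  split_ifs with a
  · obtain ⟨j, rfl⟩ := a
    have j0 := right_ne_zero_of_mul m0
    have k0 := left_ne_zero_of_mul m0
    rw [Nat.mul_div_cancel_left _ (Nat.pos_of_ne_zero k0), Dv, mul_sum]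
    refine (sum_bij (fun i _ => (u * i.1, v * i.2)) (fun i hi => ?_) (fun i _ i' _ a => ?_)
      (fun i hi => ?_) fun i hi => ?_).symm
    · simp only [mem_filter, Nat.mem_divisorsAntidiagonal] at hi ⊢
      exact ⟨⟨by rw [← hi.1]; ring, m0⟩, dvd_mul_right _ _, dvd_mul_right _ _⟩
    · exact Prod.ext (mul_left_cancel₀ (left_ne_zero_of_mul k0) (congrArg Prod.fst a))
        (mul_left_cancel₀ (right_ne_zero_of_mul k0) (congrArg Prod.snd a))
    · simp only [mem_filter, Nat.mem_divisorsAntidiagonal] at hi ⊢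
      obtain ⟨⟨a, -⟩, ⟨x, hx⟩, y, hy⟩ := hi
      exact ⟨(x, y), ⟨mul_left_cancel₀ k0 (by rw [← a, hx, hy]; ring), j0⟩,
        Prod.ext hx.symm hy.symm⟩
    · simp only [map_mul, sh, Nat.cast_mul, Int.cast_mul]
      ring
  · refine sum_eq_zero fun i hi => absurd ?_ a
    simp only [mem_filter, Nat.mem_divisorsAntidiagonal] at hi
    exact hi.1.1 ▸ mul_dvd_mul hi.2.1 hi.2.2

theorem D_rec (χ χ' : ℕ →* ℤ) {p j : ℕ} (hp : p.Prime) (F : A → A → ℤ) (j0 : j ≠ 0) :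
    Dv χ χ' (p * j) F = χ p * Dv χ χ' j (sh ((p : ℤ) : A) 1 F) +
      χ' p * Dv χ χ' j (sh (1 : A) (p : ℤ) F) -
      if p ∣ j then χ p * χ' p * Dv χ χ' (j / p) (sh ((p : ℤ) : A) (p : ℤ) F) else 0 := by
  have m0 := mul_ne_zero hp.ne_zero j0
  have a := D_le χ χ' (u := p) (v := 1) F m0
  have b := D_le χ χ' (u := 1) (v := p) F m0
  have c := D_le χ χ' (u := p) (v := p) F m0
  simp only [mul_one, one_mul, dvd_mul_right, if_true, Nat.mul_div_cancel_left _ hp.pos, map_one,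
    Nat.cast_one, Int.cast_one, Nat.mul_dvd_mul_iff_left hp.pos,
    Nat.mul_div_mul_left _ _ hp.pos] at a b c
  rw [← a, ← b, ← c, ← sum_add_distrib, ← sum_sub_distrib]
  refine sum_congr rfl fun i hi => ?_
  have := (Nat.Prime.dvd_mul hp).1 ((Nat.mem_divisorsAntidiagonal.1 hi).1 ▸ dvd_mul_right p j)
  by_cases a : p ∣ i.1 <;> by_cases b : p ∣ i.2 <;> simp [a, b] at this ⊢

/-- genus characters -/
def Gch (d : ℕ) (χ χ' ε : ℕ →* ℤ) : Prop := ∀ p : ℕ, p.Prime → χ p * χ' p = J(p | d) ∧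
  ε p * ε p = 1 ∧ (J(p | d) = 1 → χ p = ε p ∧ χ' p = ε p) ∧ (J(p | d) = -1 → χ p + χ' p = 0) ∧
  (p ∣ d → χ p + χ' p = ε p)

/-- the `L`-function of a genus character splits -/
theorem D_eq (hd : (d : ℤ) = 4 * e - 1) (hs : Squarefree (4 * e - 1)) (hι : Loc ι d)
    {χ χ' ε : ℕ →* ℤ} (hχ : Gch d χ χ' ε) (m : ℕ) :
    m ≠ 0 → ∀ F, TI F → Dv χ χ' m F = ε m * Gv ι m F := by
  induction m using Nat.strong_induction_on with | _ m ih => ?_
  intro m0 F t
  rcases eq_or_ne m 1 with rfl | m1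
  · have : BB e 1 = {span {((1 : ℤ) : R e)}} := eq_singleton_iff_unique_mem.2
      ⟨(mem_BB m0).2 (nm_pp 1), fun b h => nm_one ((mem_BB m0).1 h)⟩
    rw [Gv, this, sum_singleton, W_eq (m := (1 : ℕ)) (b := span {((1 : ℤ) : R e)}) (nm_pp 1)
      one_ne_zero (gen_int 1) t]
    simp [Dv]
  obtain ⟨p, hp, j, rfl⟩ := Nat.exists_prime_and_dvd m1
  have j0 := right_ne_zero_of_mul m0
  have lt := lt_mul_left (Nat.pos_of_ne_zero j0) hp.one_lt
  obtain ⟨c1, c2, c3, c4, c5⟩ := hχ p hp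
  have i2 : (if p ∣ j then Dv χ χ' (j / p) (sh ((p : ℤ) : A) (p : ℤ) F) else 0) = ε (p * j) *
      ∑ b ∈ BB e (p * j), if b ≤ span {((p : ℤ) : R e)} then W ι F b (p * j : ℕ) else 0 := by
    rw [G_le hd hs hι (nm_pp p) (Nat.cast_mul (α := ℤ) p p ▸ gen_int p)
      (mul_ne_zero hp.ne_zero hp.ne_zero) m0 t]
    simp only [Nat.mul_dvd_mul_iff_left hp.pos, Nat.mul_div_mul_left _ _ hp.pos]
    split_ifs with a
    · obtain ⟨i, rfl⟩ := a
      rw [Nat.mul_div_cancel_left _ hp.pos, ih i ((Nat.le_mul_of_pos_left _ hp.pos).trans_lt lt)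
        (right_ne_zero_of_mul j0) _ (t.sh _ _), map_mul, map_mul, ← mul_assoc (ε p), c2, one_mul]
    · simp
  have i1 : ∀ c x y, Nm c p → Gen ι c p x y → ε p * Dv χ χ' j (sh x y F) = ε (p * j) *
      ∑ b ∈ BB e (p * j), if b ≤ c then W ι F b (p * j : ℕ) else 0 := fun c x y n g => by
    rw [G_le hd hs hι n g hp.ne_zero m0 t, if_pos (dvd_mul_right _ _),
      Nat.mul_div_cancel_left _ hp.pos, ih j lt j0 _ (t.sh _ _), map_mul, mul_assoc]
  have pm : (p : ℤ) ∣ (p * j : ℕ) := Int.natCast_dvd_natCast.2 (dvd_mul_right p j)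
  rw [D_rec χ χ' hp F j0, c1, ← mul_ite_zero, i2, Gv]
  rcases pd hd hs hι hp with ⟨s, P, n, g, a⟩ | ⟨s, u, P, n, g, a⟩ | ⟨s, u, a⟩
  · rw [(c3 s).1, (c3 s).2, s, i1 _ _ _ n g, i1 _ _ _ n.st g.st, one_mul, ← mul_add, ← mul_sub,
      ← sum_add_distrib, ← sum_sub_distrib]
    refine congrArg _ (sum_congr rfl fun b hb => ?_)
    obtain ⟨a1, a2⟩ := a b _ ((mem_BB m0).1 hb) pm
    rw [a2]
    by_cases x : b ≤ P <;> by_cases y : b ≤ cj P <;> simp [x, y] at a1 ⊢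
  · have : J(p | d) = 0 := jacobiSym.eq_zero_iff.2 ⟨by rintro rfl; omega, by
      simpa [Nat.gcd_eq_left s] using hp.ne_one⟩
    rw [t.sw u, this, zero_mul, sub_zero, ← add_mul, c5 s, i1 _ _ _ n g]
    exact congrArg _ (sum_congr rfl fun b hb => if_pos (a b _ ((mem_BB m0).1 hb) pm))
  · rw [t.sw u, ← add_mul, c4 s, s, zero_mul, zero_sub, neg_one_mul, neg_neg]
    exact congrArg _ (sum_congr rfl fun b hb => if_pos (a b _ ((mem_BB m0).1 hb) pm))

end Vale.Agent.P004Z.Kf.Cn
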