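import Vale.Agent.P004Z.St

/-! # P004Z, block G5: words and rows -/

open Complex UpperHalfPlane MeasureTheory Filter Topology
open scoped Real MatrixGroups ComplexConjugate NumberTheorySymbols

noncomputable section

namespace Vale.Agent.P004Z.Kf

/-- `l ∘ (1 j; 0 δ)` -/
def up (δ : ℕ) (j : ℤ) (l : Fm) : Fm :=
  (l.1, 2 * l.1 * j + l.2.1 * δ, l.1 * j ^ 2 + l.2.1 * j * δ + l.2.2 * δ ^ 2)

/-- the twisting operator -/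
def twi (δ : ℕ) (σ : ℤ) (φ : Fm → ℤ) (l : Fm) : ℤ :=
  ∑ j ∈ Finset.range δ, J(σ * j | δ) * Function.extend (up δ j) φ 0 l

/-- periodic and invariant under the split torus modulo `M` -/
structure Tor (M : ℕ) (ψ : Fm → ℤ) : Prop where
  per : ∀ l m : Fm, ψ (l.1 + M * m.1, l.2.1 + 2 * M * m.2.1, l.2.2 + M * m.2.2) = ψ l
  tor : ∀ u u' : ℤ, (M : ℤ) ∣ u * u' - 1 → ∀ l : Fm, ψ (u * l.1, l.2.1, u' * l.2.2) = ψ l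

/-- `K = ℚ(√-d)`, the primes of `M` split -/
structure Sp (M d : ℕ) (β : ℤ) : Prop where
  pos : 0 < M
  sq : Squarefree d
  m4 : d % 4 = 3
  big : 3 < d
  cop : M.Coprime d
  rt : (4 * M : ℤ) ∣ β ^ 2 + d

/-- **the count** (Siegel-Weil) -/
def CNT : Prop := ∀ (M d : ℕ) (β : ℤ) (t : Finset Fm) (ψ : Fm → ℤ), Sp M d β → Tor M ψ →
  (∀ Q ∈ t, disc Q = -d ∧ 0 < Q.1 ∧ (M : ℤ) ∣ Q.1 ∧ (2 * M : ℤ) ∣ Q.2.1 - β ∧ (M : ℤ) ∣ Q.2.2) →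
  (∀ Q, disc Q = -d → 0 < Q.1 → ∃! Q', Q' ∈ t ∧ ∃ γ, fa Q γ = Q') →
  ∀ (n : ℤ) (m : ℕ), 0 < m → (d : ℤ) ∣ n ^ 2 - 4 * m →
    ∑ Q ∈ t, ∑ᶠ μ : Fm, (if bil μ Q = -n ∧ n ^ 2 + d * disc μ = 4 * m then ψ (β • μ) else 0) =
      ∑ i ∈ m.divisorsAntidiagonal, ψ (i.1, n, i.2) * gc d (i.1, n, i.2)

/-- **the involution** -/
def INV : Prop := ∀ (M d : ℕ) (β : ℤ) (ψ : Fm → ℤ), Sp M d β → d % 8 = 7 → Tor M ψ →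
  ∀ (n D : ℤ) (m : ℕ), n ^ 2 + 4 * m = d * D →
    ∑ i ∈ m.divisorsAntidiagonal, ψ (-i.1, n, i.2) * gc d (-i.1, n, i.2) = 0 ∧
    ∀ p : ℕ, p.Prime → Spl d p ∨ J(-D | p) = 1 → ∑ i ∈ m.divisorsAntidiagonal,
      ψ (-i.1, n, i.2) * gc d (-i.1, n, i.2) * i.2.factorization p = 0

/-- **the twisted test functions** -/
def ARI : Prop := ∀ (N : ℕ) [NeZero N] (δ d M : ℕ) (β β' : ℤ) (r : ZMod (2 * N)), Dat N δ d β →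
  2 * N * δ ^ 3 ∣ M → Sp M d β' → (2 * N : ℤ) ∣ β' - β →
  Tor M (twi δ (-1) (ph N δ (β * r))) ∧
  (∀ l, twi δ (-β') (ph N δ r) l = twi δ (-1) (ph N δ (β * r)) (β' • l)) ∧
  (∀ l, twi δ (-1) (ph N (δ * d) (β * r)) l =
    if (d : ℤ) ∣ disc l then twi δ (-1) (ph N δ (β * r)) l * gc d l else 0) ∧
  (∀ l, twi δ (-1) (ph N (δ * d) (β * r)) l ≠ 0 → ∃ n : ℤ, disc l = δ ^ 3 * d * n ∧ In N δ n r) ∧
  ∀ k, twi δ (-1) (ph N δ (β * r)) (0, 0, k) = 0 ∧ twi δ (-1) (ph N δ (β * r)) (k, 0, 0) = 0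

/-- summability of the kernels -/
def SUM : Prop := ∀ (ν : ℕ) (τ z : ℂ), 0 < ν → 0 < τ.im → 0 < z.im →
  (Summable fun l : Fm => ‖gau ν l τ z‖) ∧ Summable fun l : Fm => ‖evq l (conj z) * gau ν l τ z‖

/-- basic facts on harmonic forms -/
def HFB : Prop := ∀ (N : ℕ) [NeZero N] (δ : ℕ), Ok N δ → ∀ x : Cf N, IsS δ x → ∀ r,
  ContDiffOn ℝ 1 (nh x r) {τ | 0 < τ.im} ∧
  (∀ τ : ℂ, 0 < τ.im → Lo (nh x r) τ = (τ.im ^ (-(1 / 2) : ℝ) : ℝ) * conj (fn x r τ) ∧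
    nh x r (τ + 1) = conj (tm N δ r) * nh x r τ) ∧
  ∃ C c : ℝ, 0 < c ∧ ∀ τ : ℂ, 1 / 2 ≤ τ.im →
    ‖fn x r τ‖ ≤ C * Real.exp (-c * τ.im) ∧ ‖nh x r τ‖ ≤ C * Real.exp (-c * τ.im)

/-- twisting by Gauss sums -/
def TWG : Prop := ∀ (δ : ℕ) (n : ℤ), Odd δ → Squarefree δ →
  ∑ j ∈ Finset.range δ, (J(j | δ) : ℂ) * ee (n * j / δ) = J(n | δ) * gs δ

end Vale.Agent.P004Z.Kf
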