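import Vale.Agent.P004Z.Kf.Cn2
import Vale.Agent.P004Z.Kf.St

/-!
# P004Z, block G5, the count (Siegel-Weil)
-/

set_option autoImplicit false
set_option linter.all false

open QuadraticAlgebra Ideal Finset
open scoped MatrixGroups NumberTheorySymbols Classical

noncomputable section

namespace Vale.Agent.P004Z.Kf.Cn

open Hd Gq

variable {e : ℤ} {d : ℕ} {Q μ : Fm}

/-- the value of `μ` at the root of `Q` -/
def ev (e : ℤ) (Q μ : Fm) : R e :=
  μ.1 * th e Q ^ 2 + μ.2.1 * (Q.1 * th e Q) + μ.2.2 * (Q.1 : R e) ^ 2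

def qf (ζ : R e) (k : ℤ) (x : R e) : ℤ := trace (ζ * star x ^ 2) + k * x.norm

theorem qf_cast (ζ : R e) (k : ℤ) (x : R e) :
    (qf ζ k x : R e) = ζ * star x ^ 2 + star ζ * x ^ 2 + k * (x * star x) := by
  rw [qf, Int.cast_add, Int.cast_mul, nm_cast, show ((trace (ζ * star x ^ 2) : ℤ) : R e) = _ from
    algebraMap_trace_eq_add_star _, star_mul', star_pow, star_star]

theorem qf_ev (h : disc Q = 1 - 4 * e) (μ : Fm) (u v : ℤ) :
    qf (ev e Q μ) (-bil μ Q * Q.1) (el e Q u v) = (1 - 4 * e) * Q.1 ^ 2 * val μ u v := by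
  obtain ⟨s, a, b, c⟩ := ex_s h
  simp only [qf, ev, el, b, bil, Hd.val, a, trace_def, norm_def, sq, re_add, im_add, re_mul, im_mul,
    re_sub, im_sub, re_star, im_star, re_intCast, im_intCast, Int.cast_id]
  clear h b
  subst c
  ring

theorem nm_ev (h : disc Q = 1 - 4 * e) (μ : Fm) :
    4 * (ev e Q μ).norm = Q.1 ^ 2 * (bil μ Q ^ 2 + (4 * e - 1) * disc μ) := by
  obtain ⟨s, a, b, c⟩ := ex_s h
  simp only [ev, b, bil, disc, a, norm_def, sq, re_add, im_add, re_mul, im_mul, re_intCast,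
    im_intCast, Int.cast_id]
  clear h b
  subst c
  ring

theorem ex_ev {ζ : R e} (h : disc Q = 1 - 4 * e) (k : ζ ∈ aQ e Q * aQ e Q) : ∃ μ, ζ = ev e Q μ := by
  refine Submodule.mul_induction_on k (fun x hx y hy => ?_) ?_
  · obtain ⟨u, v, rfl⟩ := (mem_aQ h).1 hx
    obtain ⟨u', v', rfl⟩ := (mem_aQ h).1 hy
    exact ⟨(v * v', -(u * v' + v * u'), u * u'), by simp only [ev, el]; push_cast; ring⟩
  · rintro _ _ ⟨μ, rfl⟩ ⟨ν, rfl⟩
    exact ⟨μ + ν, by simp only [ev, Prod.fst_add, Prod.snd_add]; push_cast; ring⟩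

theorem ev_mem (μ : Fm) : ev e Q μ ∈ aQ e Q * aQ e Q := by
  have a : (Q.1 : R e) ∈ aQ e Q := subset_span (by simp)
  have b : th e Q ∈ aQ e Q := subset_span (by simp)
  simp only [ev, sq]
  exact add_mem (add_mem (mul_mem_left _ _ (mul_mem_mul b b)) (mul_mem_left _ _ (mul_mem_mul a b)))
    (mul_mem_left _ _ (mul_mem_mul a a))

theorem ev_shift (h : disc Q = 1 - 4 * e) (μ : Fm) (k : ℤ) :
    ∃ ν, ev e Q ν = ev e Q μ ∧ bil ν Q = bil μ Q + k * (4 * e - 1) := by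
  refine ⟨(μ.1 + k * Q.1, μ.2.1 + k * Q.2.1, μ.2.2 + k * Q.2.2), ?_, ?_⟩
  · simp only [ev]
    push_cast
    linear_combination (k * Q.1 : R e) * th_sq h
  · simp only [bil, disc] at h ⊢
    linear_combination -k * h

theorem ev_inj (h : disc Q = 1 - 4 * e) (a : 0 < Q.1) {ν : Fm} (k : ev e Q μ = ev e Q ν)
    (j : bil μ Q = bil ν Q) : μ = ν := by
  have : ∀ u v, val μ u v = val ν u v := fun u v => mul_left_cancel₀
    (mul_ne_zero (by omega : 1 - 4 * e ≠ 0) (pow_ne_zero 2 a.ne'))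
    (by rw [← qf_ev h, ← qf_ev h, k, j])
  have a := this 1 0
  have b := this 0 1
  have c := this 1 1
  simp only [Hd.val] at a b c
  exact Prod.ext (by linarith) (Prod.ext (by linarith) (by linarith))

/-- the ambiguous ideals -/
def am (e g : ℤ) : Ideal (R e) := span {(g : R e), dl e}

theorem aQ_am (h : disc Q = 1 - 4 * e) (k : Q.1 ∣ Q.2.1) : aQ e Q = am e Q.1 := by
  obtain ⟨s, a, -⟩ := ex_s h
  obtain ⟨c, k⟩ := k
  obtain ⟨j, o⟩ : Odd Q.1 := Int.Odd.of_mul_left (n := c) ⟨s - 1, by omega⟩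
  have b := th_dl h
  rw [k, Int.cast_mul] at b
  have o := congrArg (Int.cast (R := R e)) o
  push_cast at o
  refine le_antisymm (span_le.2 (Set.pair_subset (subset_span (by simp)) (mem_span_pair.2
    ⟨th e Q + j * c, -j, ?_⟩))) (span_le.2 (Set.pair_subset (subset_span (by simp))
    (mem_span_pair.2 ⟨c, 2, ?_⟩)))
  · linear_combination (j : R e) * b + th e Q * o
  · linear_combination b

theorem nm_am (hs : Squarefree (4 * e - 1)) {g : ℤ} (h : g ∣ 4 * e - 1) :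
    Nm (am e g) g ∧ am e g * am e g = span {(g : R e)} := by
  obtain ⟨c, k⟩ := h
  obtain ⟨j, o⟩ : (4 : ℤ) ∣ g + c := by
    have a : g * c % 4 = 3 := by omega
    rw [Int.mul_emod] at a
    have : g % 4 = 0 ∨ g % 4 = 1 ∨ g % 4 = 2 ∨ g % 4 = 3 := by omega
    rcases this with i | i | i | i <;> rw [i] at a <;> omega
  have h : disc (g, g, j) = 1 - 4 * e := by
    simp only [disc]
    linear_combination k + g * o
  have n : Nm (am e g) g := aQ_am h dvd_rfl ▸ nm_aQ hs h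
  refine ⟨n, Eq.trans ?_ n⟩
  rw [cj, am, map_span, Set.image_pair, starRingEnd_apply, starRingEnd_apply, star_dl, star_intCast,
    span_pair_neg]

theorem sq_uniq {g g' : ℤ} (a : Squarefree g) (a' : Squarefree g') (p : 0 < g) (p' : 0 < g')
    {r n : ℤ} (n0 : n ≠ 0) (h : r ^ 2 * g = n ^ 2 * g') : g = g' := by
  obtain ⟨x, y, c, hx, hy⟩ := Int.exists_gcd_one (Int.gcd_pos_of_ne_zero_right r n0)
  have c := Int.isCoprime_iff_gcd_eq_one.2 c
  have k0 : (r.gcd n : ℤ) ≠ 0 := Int.natCast_ne_zero.2 (Int.gcd_pos_of_ne_zero_right r n0).ne'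
  generalize (r.gcd n : ℤ) = k at hx hy k0
  subst hx hy
  have h : x * x * g = y * y * g' := mul_left_cancel₀ (pow_ne_zero 2 k0) (by linear_combination h)
  have c := (c.mul_left c).mul_right (c.mul_left c)
  have u := a' x (c.dvd_of_dvd_mul_left ⟨g, h.symm⟩)
  have v := a y (c.symm.dvd_of_dvd_mul_left ⟨g', h⟩)
  rwa [Int.isUnit_mul_self u, Int.isUnit_mul_self v, one_mul, one_mul] at h

theorem rel_card {α β : Type} (s : Finset α) (p : β → Prop) (E : α → β → Prop)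
    (h1 : ∀ a ∈ s, ∃! x, p x ∧ E a x) (h2 : ∀ x, p x → ∃! a, a ∈ s ∧ E a x) :
    ∃ Y : Finset β, (∀ x, x ∈ Y ↔ p x) ∧ #Y = #s := by
  choose f hf uf using h1
  refine ⟨s.attach.image fun a => f a.1 a.2, fun x => ⟨fun k => ?_, fun k => ?_⟩, ?_⟩
  · obtain ⟨a, -, rfl⟩ := mem_image.1 k
    exact (hf _ _).1
  · obtain ⟨a, j, -⟩ := h2 x k
    exact mem_image.2 ⟨⟨a, j.1⟩, mem_attach _ _, (uf a j.1 x ⟨k, j.2⟩).symm⟩
  · rw [card_image_of_injective _ fun a b k => Subtype.ext ((h2 _ (hf a.1 a.2).1).unique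
      ⟨a.2, (hf _ _).2⟩ ⟨b.2, (show f a.1 a.2 = f b.1 b.2 from k) ▸ (hf _ _).2⟩), card_attach]

variable (e) in
/-- representatives of the classes -/
structure Rp (t : Finset Fm) : Prop where
  mem : ∀ Q ∈ t, disc Q = 1 - 4 * e ∧ 0 < Q.1
  uq : ∀ Q, disc Q = 1 - 4 * e → 0 < Q.1 → ∃! Q', Q' ∈ t ∧ ∃ γ, fa Q γ = Q'

/-- `(a, ζ)` is equivalent to the pair `x` -/
def Eq' (a : Ideal (R e)) (ζ : R e) (x : Fm × Fm) : Prop := ∃ α α' : R e, α ≠ 0 ∧ α' ≠ 0 ∧
  span {α} * aQ e x.1 = span {α'} * a ∧ α ^ 2 * ev e x.1 x.2 = α' ^ 2 * ζ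

def Fb (b : Ideal (R e)) (x : Fm × Fm) : Prop := aQ e x.1 * aQ e x.1 * b = span {ev e x.1 x.2}

variable [he : Fact (1 < e)] {t : Finset Fm}

theorem el_ne (h : disc Q = 1 - 4 * e) (a : 0 < Q.1) (γ : SL(2, ℤ)) :
    star (el e Q (γ 0 0) (γ 1 0)) ≠ 0 := fun k => by
  have := nm_el h (γ 0 0) (γ 1 0)
  rw [star_eq_zero.1 k, QuadraticAlgebra.norm_zero] at this
  exact (mul_pos a (pos_fa (l := Q) (by have := he.out; omega) a γ)).ne this

theorem ex_pair (T : Rp e t) {a b : Ideal (R e)} {ζ : R e} (a0 : a ≠ ⊥)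
    (h : a * a * b = span {ζ}) : ∃ x : Fm × Fm, x.1 ∈ t ∧ Fb b x ∧ Eq' a ζ x := by
  obtain ⟨c, Q, c0, p, k, rfl⟩ := hnf a0
  obtain ⟨_, ⟨m, γ, rfl⟩, -⟩ := T.uq Q k p
  have e1 := aQ_fa k γ
  have x0 := el_ne k p γ
  generalize star (el e Q (γ 0 0) (γ 1 0)) = x at e1 x0
  have n0 : (c * Q.1 : R e) ≠ 0 := mul_ne_zero (Int.cast_ne_zero.2 c0.ne') (Int.cast_ne_zero.2 p.ne')
  have e2 : span {(c * Q.1 : R e)} * aQ e (fa Q γ) = span {x} * (span {(c : R e)} * aQ e Q) := by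
    rw [← span_singleton_mul_span_singleton, mul_assoc, e1, mul_left_comm]
  obtain ⟨z, e3, e4⟩ := pr_div (I := aQ e (fa Q γ) * aQ e (fa Q γ) * b) (y := x ^ 2 * ζ)
    (pow_ne_zero 2 n0) (by
      rw [← span_singleton_mul_span_singleton, ← h, ← span_singleton_pow, ← span_singleton_pow]
      calc _ = (span {(c * Q.1 : R e)} * aQ e (fa Q γ)) ^ 2 * b := by ring
        _ = _ := by rw [e2]; ring)
  obtain ⟨μ, rfl⟩ := ex_ev (T.mem _ m).1 (mul_le_left (e3.ge (mem_span_singleton_self z)))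
  exact ⟨(_, μ), m, e3, _, _, n0, x0, e2, e4⟩

theorem pair_uq (T : Rp e t) {a : Ideal (R e)} {ζ : R e} {x y : Fm × Fm} (hx : x.1 ∈ t)
    (hy : y.1 ∈ t) (hs : Squarefree (4 * e - 1)) (h : Eq' a ζ x) (k : Eq' a ζ y) :
    x.1 = y.1 ∧ ev e x.1 x.2 = ev e y.1 y.2 := by
  obtain ⟨α, α', a0, a0', h1, h2⟩ := h
  obtain ⟨γ, γ', c0, c0', k1, k2⟩ := k
  have e1 : span {γ' * α} * aQ e x.1 = span {α' * γ} * aQ e y.1 := by
    rw [← span_singleton_mul_span_singleton, ← span_singleton_mul_span_singleton, mul_assoc,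
      mul_assoc, h1, k1, mul_left_comm]
  obtain ⟨p1, p2⟩ := T.mem _ hx
  have e2 := (T.uq _ p1 p2).unique ⟨hx, 1, fa_one _⟩ ⟨hy, fa_of p1 (T.mem _ hy).1 p2 (T.mem _ hy).2
    (mul_ne_zero c0' a0) (mul_ne_zero a0' c0) e1⟩
  refine ⟨e2, mul_left_cancel₀ (pow_ne_zero 2 (mul_ne_zero a0' c0)) ?_⟩
  rw [← e2, mul_comm, mul_comm _ (aQ e x.1)] at e1
  have := sq_eq_sq_iff_eq_or_eq_neg.2 (span_pm ((nm_aQ hs p1).cancel p2.ne' e1))
  linear_combination γ' ^ 2 * h2 - α' ^ 2 * k2 - ev e x.1 x.2 * this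

theorem nm_fb (hs : Squarefree (4 * e - 1)) {b : Ideal (R e)} {m : ℤ} (m0 : 0 < m) (n : Nm b m)
    (h : disc Q = 1 - 4 * e) (a : 0 < Q.1) (k : Fb b (Q, μ)) :
    (ev e Q μ).norm = m * Q.1 ^ 2 ∧ bil μ Q ^ 2 + (4 * e - 1) * disc μ = 4 * m := by
  have n1 := ((nm_aQ hs h).mul (nm_aQ hs h)).mul n
  have z0 : ev e Q μ ≠ 0 := fun j => n1.ne (by positivity) (by rw [k, j]; simp)
  have := (nm_span _).uniq (k ▸ n1) (nm_pos z0) (by positivity)
  exact ⟨by linear_combination this, mul_left_cancel₀ (pow_ne_zero 2 a.ne')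
    (by linear_combination 4 * this - nm_ev h μ)⟩

theorem g_uq (hs : Squarefree (4 * e - 1)) {a a' : Ideal (R e)} {ζ : R e} (z0 : ζ ≠ 0) {g g' : ℤ}
    (p : 0 < g) (p' : 0 < g') (j : g ∣ 4 * e - 1) (j' : g' ∣ 4 * e - 1) {x : Fm × Fm}
    (h : Eq' a (g * ζ) x) (k : Eq' a' (g' * ζ) x) : g = g' := by
  obtain ⟨α, α', a0, a0', -, h2⟩ := h
  obtain ⟨γ, γ', c0, c0', -, k2⟩ := k
  have e1 : (γ * α' * star (α * γ')) ^ 2 * g = (((α * γ').norm ^ 2 * g' : ℤ) : R e) :=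
    mul_left_cancel₀ z0 (by
      rw [Int.cast_mul, Int.cast_pow, nm_cast]
      linear_combination star (α * γ') ^ 2 * (α ^ 2 * k2 - γ ^ 2 * h2))
  have n := nm_pos (mul_ne_zero a0 c0')
  generalize γ * α' * star (α * γ') = w, (α * γ').norm = N at e1 n
  have r := congrArg QuadraticAlgebra.re e1
  have i := congrArg QuadraticAlgebra.im e1
  simp only [sq, re_mul, im_mul, re_intCast, im_intCast, Int.cast_id] at r i
  have : w.im * (2 * w.re + w.im) = 0 := mul_left_cancel₀ p.ne' (by linear_combination i)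
  rcases mul_eq_zero.1 this with u | u
  · exact sq_uniq (hs.squarefree_of_dvd j) (hs.squarefree_of_dvd j') p p' n.ne' (r := w.re)
      (by rw [u] at r; linear_combination r)
  · have u : w.im = -2 * w.re := by linarith
    rw [u] at r
    have := he.out
    nlinarith [mul_pos (mul_pos n n) p', mul_nonneg (mul_nonneg p.le (sq_nonneg w.re))
      (by omega : 0 ≤ 4 * e - 1)]

/-- Hilbert 90 -/
theorem ex_g (hs : Squarefree (4 * e - 1)) {b : Ideal (R e)} {m : ℤ} (m0 : 0 < m) (n : Nm b m)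
    {Q0 μ0 : Fm} (h : disc Q = 1 - 4 * e) (a : 0 < Q.1) (k : Fb b (Q, μ))
    (h0 : disc Q0 = 1 - 4 * e) (a0 : 0 < Q0.1) (k0 : Fb b (Q0, μ0)) :
    ∃ g, 0 < g ∧ g ∣ 4 * e - 1 ∧ Eq' (aQ e Q0 * am e g) (g * ev e Q0 μ0) (Q, μ) := by
  have e1 := congrArg (Int.cast (R := R e)) (nm_fb hs m0 n h a k).1
  have e0 := congrArg (Int.cast (R := R e)) (nm_fb hs m0 n h0 a0 k0).1
  rw [nm_cast, Int.cast_mul, Int.cast_pow] at e0 e1
  have n1 := nm_aQ hs h
  have n0 := nm_aQ hs h0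
  have A0 : (Q0.1 : R e) ≠ 0 := Int.cast_ne_zero.2 a0.ne'
  obtain ⟨l, l0, hl⟩ : ∃ l : R e, l ≠ 0 ∧ l * Q0.1 * ev e Q μ = star l * Q.1 * ev e Q0 μ0 := by
    by_cases u : m * Q.1 * Q0.1 + star (ev e Q μ) * ev e Q0 μ0 = 0
    · refine ⟨dl e, fun j => by simpa [dl] using congrArg QuadraticAlgebra.im j, mul_left_cancel₀
        (mul_ne_zero (Int.cast_ne_zero.2 m0.ne') (Int.cast_ne_zero.2 a.ne')) ?_⟩
      rw [star_dl]
      linear_combination dl e * ev e Q μ * u - dl e * ev e Q0 μ0 * e1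
    · refine ⟨_, u, ?_⟩
      simp only [star_add, star_mul', star_intCast, star_star]
      linear_combination Q0.1 * ev e Q0 μ0 * e1 - Q.1 * ev e Q μ * e0
  have nc := (nm_span l).mul (n1.mul n0.st)
  have pc := mul_pos (nm_pos l0) (mul_pos a a0)
  have inv : cj (span {l} * (aQ e Q * cj (aQ e Q0))) = span {l} * (aQ e Q * cj (aQ e Q0)) := by
    refine ((n1.mul n0).mul n).cancel (by positivity) ?_
    rw [cj_mul, cj_mul, cj_cj, cj_span]
    calc _ = span {star l} * (aQ e Q * cj (aQ e Q)) * (aQ e Q0 * aQ e Q0 * b) := by ring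
      _ = span {l} * (aQ e Q0 * cj (aQ e Q0)) * (aQ e Q * aQ e Q * b) := by
        rw [n1, n0, k, k0]
        simp only [span_singleton_mul_span_singleton, hl]
      _ = _ := by ring
  obtain ⟨r, Q', r0, a', h', ec⟩ := hnf (nc.ne pc.ne')
  have r1 : (r : R e) ≠ 0 := Int.cast_ne_zero.2 r0.ne'
  rw [ec, cj_mul, cj_int, span_singleton_mul_right_inj r1] at inv
  have dv : Q'.1 ∣ Q'.2.1 := by
    simpa using (mem_el' h' (u := 0) (v := 1)).1 (inv.ge (subset_span (by simp)))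
  have e2 := congrArg (Int.cast (R := R e))
    (nc.uniq (ec ▸ (nm_span (r : R e)).mul (nm_aQ hs h')) pc (mul_pos (nm_pos r1) a'))
  simp only [Int.cast_mul, nm_cast, star_intCast] at e2
  refine ⟨Q'.1, a', ?_, l * Q0.1, r, mul_ne_zero l0 A0, r1, ?_, ?_⟩
  · obtain ⟨c, dv⟩ := dv
    exact ⟨4 * Q'.2.2 - c * Q'.2.1, by
      rw [disc] at h'
      linear_combination h' - Q'.2.1 * dv⟩
  · rw [← aQ_am h' dv, mul_left_comm, ← ec, ← span_singleton_mul_span_singleton, ← n0]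
    ring
  · linear_combination l * Q0.1 * hl + ev e Q0 μ0 * e2

/-- the signs -/
theorem sgn (hs : Squarefree (4 * e - 1)) {Q0 μ0 : Fm} (h : disc Q = 1 - 4 * e) (a : 0 < Q.1)
    (h0 : disc Q0 = 1 - 4 * e) (a0 : 0 < Q0.1) {g : ℤ} (p : 0 < g) (j : g ∣ 4 * e - 1)
    (E : Eq' (aQ e Q0 * am e g) (g * ev e Q0 μ0) (Q, μ)) :
    4 * e - 1 ∣ g * (bil μ Q - bil μ0 Q0) ∧ g ∣ bil μ Q + bil μ0 Q0 := by
  obtain ⟨α, α', b, b', e1, e2⟩ := E
  simp only at e1 e2
  have n := ((nm_span α).mul (nm_aQ hs h)).uniq (e1 ▸ (nm_span α').mul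
    ((nm_aQ hs h0).mul (nm_am hs j).1)) (mul_pos (nm_pos b) a) (mul_pos (nm_pos b') (mul_pos a0 p))
  have key : ∀ y ∈ aQ e Q0 * am e g, ∃ w,
      qf ((g : R e) * ev e Q0 μ0) (-bil μ Q * (Q0.1 * g)) y = (1 - 4 * e) * (Q0.1 * g) ^ 2 * w := fun y hy => by
    obtain ⟨x, hx, c⟩ := span_singleton_mul_le_span_singleton_mul.1 e1.ge y hy
    obtain ⟨u, v, rfl⟩ := (mem_aQ h).1 hx
    refine ⟨val μ u v, mul_left_cancel₀ (pow_ne_zero 2 (nm_pos b').ne') ?_⟩
    have q := qf_ev h μ u v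
    have : α'.norm ^ 2 * qf ((g : R e) * ev e Q0 μ0) (-bil μ Q * (Q0.1 * g)) y =
        α.norm ^ 2 * qf (ev e Q μ) (-bil μ Q * Q.1) (el e Q u v) := by
      refine Int.cast_injective (α := R e) ?_
      have n := congrArg (Int.cast (R := R e)) n
      have c' := congrArg star c
      have e3 := congrArg star e2
      simp only [Int.cast_mul, Int.cast_pow, nm_cast, qf_cast, star_mul', star_pow] at n c' e3 ⊢
      generalize el e Q u v = x, (g : R e) * ev e Q0 μ0 = ζ0, ev e Q μ = ζ at c c' e2 e3 ⊢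
      generalize star (g : R e) * star (ev e Q0 μ0) = ζ1 at e3 ⊢
      linear_combination (α' ^ 2 * ζ0 * (star α' * star y + star α * star x)) * c' -
        (star α * star x) ^ 2 * e2 + (star α' ^ 2 * ζ1 * (α' * y + α * x)) * c - (α * x) ^ 2 * e3 +
        (((-bil μ Q : ℤ) : R e) * (α' * star α' * (Q0.1 * g))) * (α' * y * c' + star α * star x * c) -
        (((-bil μ Q : ℤ) : R e) * (α * x * (star α * star x))) * n
    linear_combination this + α.norm ^ 2 * q +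
      (1 - 4 * e) * val μ u v * (α.norm * Q.1 + α'.norm * (Q0.1 * g)) * n
  have k : ∀ u v, 4 * e - 1 ∣ g * (bil μ Q - bil μ0 Q0) * val Q0 u v ∧
      g ∣ (bil μ Q + bil μ0 Q0) * val Q0 u v := fun u v => by
    obtain ⟨w, c⟩ := key _ (mul_mem_mul (el_mem u v) (subset_span (Set.mem_insert _ _)))
    obtain ⟨w', c'⟩ := key _ (mul_mem_mul (el_mem u v)
      (subset_span (Set.mem_insert_of_mem _ (Set.mem_singleton _))))
    have q := qf_ev h0 μ0 u v
    have s := nm_el h0 u v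
    have i : qf ((g : R e) * ev e Q0 μ0) (-bil μ Q * (Q0.1 * g)) (el e Q0 u v * (g : R e)) =
        g ^ 3 *
        (qf (ev e Q0 μ0) (-bil μ0 Q0 * Q0.1) (el e Q0 u v) -
          (bil μ Q - bil μ0 Q0) * Q0.1 * (el e Q0 u v).norm) := by
      refine Int.cast_injective (α := R e) ?_
      simp only [Int.cast_mul, Int.cast_pow, Int.cast_sub, Int.cast_neg, nm_cast, qf_cast,
        star_mul', star_intCast]
      ring
    have i' : qf ((g : R e) * ev e Q0 μ0) (-bil μ Q * (Q0.1 * g)) (el e Q0 u v * dl e) =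
        g * (1 - 4 * e) *
        (qf (ev e Q0 μ0) (-bil μ0 Q0 * Q0.1) (el e Q0 u v) +
          (bil μ Q + bil μ0 Q0) * Q0.1 * (el e Q0 u v).norm) := by
      refine Int.cast_injective (α := R e) ?_
      simp only [Int.cast_mul, Int.cast_add, Int.cast_neg, nm_cast, qf_cast, star_mul',
        star_intCast, star_dl, ← dl_sq]
      ring
    rw [c, q, s] at i
    rw [c', q, s] at i'
    obtain ⟨g', j⟩ := j
    have := he.out
    exact ⟨⟨w - g * val μ0 u v, mul_left_cancel₀ (pow_ne_zero 2 (mul_pos a0 p).ne')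
      (by linear_combination i)⟩, w' + g' * val μ0 u v, mul_left_cancel₀
      (mul_ne_zero (pow_ne_zero 2 a0.ne') (mul_ne_zero p.ne' (by omega : 1 - 4 * e ≠ 0)))
      (by linear_combination -i' + Q0.1 ^ 2 * g * (1 - 4 * e) * val μ0 u v * j)⟩
  obtain ⟨x, y, z, u⟩ := prim hs h0
  have : ∀ D N : ℤ, (∀ u v, D ∣ N * val Q0 u v) → D ∣ N := fun D N k => by
    refine (dvd_add (dvd_add ((k 1 0).mul_left (x - y)) ((k 1 1).mul_left y))
      ((k 0 1).mul_left (z - y))).trans (dvd_of_eq ?_)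
    simp only [Hd.val]
    linear_combination N * u
  exact ⟨this _ _ fun u v => (k u v).1, this _ _ fun u v => (k u v).2⟩

theorem fib (hd : (d : ℤ) = 4 * e - 1) (hs : Squarefree d) (T : Rp e t) {b : Ideal (R e)} {m : ℕ}
    (m0 : m ≠ 0) (nb : Nm b m) {n : ℤ} (hn : (d : ℤ) ∣ n ^ 2 - 4 * m) :
    ∃ Y : Finset (Fm × Fm), (∀ x, x ∈ Y ↔ x.1 ∈ t ∧ bil x.2 x.1 = -n ∧ Fb b x) ∧
      (#Y : ℤ) = ∏ q ∈ d.primeFactors, ((if q ∣ m then 1 else 0) * ep d q m + 1) := by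
  have hs' := sqf hd hs
  have mp : (0 : ℤ) < m := by omega
  have ho : Odd d := Nat.odd_iff.2 (by omega)
  have pr : ∀ q ∈ d.primeFactors, Prime (q : ℤ) := fun q h =>
    Nat.prime_iff_prime_int.1 (Nat.prime_of_mem_primeFactors h)
  have dv : ∀ q ∈ d.primeFactors, (q : ℤ) ∣ d := fun q h =>
    Int.natCast_dvd_natCast.2 (Nat.dvd_of_mem_primeFactors h)
  have loc : ∀ x : Fm × Fm, x.1 ∈ t → Fb b x → ∀ q ∈ d.primeFactors, ep d q m = 1 :=
    fun x hx k q hq => by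
      obtain ⟨h, a⟩ := T.mem _ hx
      obtain ⟨A, hA⟩ := Int.eq_ofNat_of_zero_le a.le
      have A0 : A ≠ 0 := by omega
      have p := Nat.prime_of_mem_primeFactors hq
      have := ep_norm hd hs p (Nat.dvd_of_mem_primeFactors hq) _ _ (m * (A * A)) (by positivity)
        (by rw [(nm_fb hs' mp nb h a k).1, hA]; push_cast; ring) le_rfl
      rwa [map_mul, map_mul, ep_sq hs p (Nat.dvd_of_mem_primeFactors hq) A A0, mul_one] at this
  by_cases al : ∀ q ∈ d.primeFactors, ep d q m = 1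
  swap
  · refine ⟨∅, fun x => iff_of_false (notMem_empty x) fun k => al (loc x k.1 k.2.2), ?_⟩
    push Not at al
    obtain ⟨q, hq, a⟩ := al
    have p := Nat.prime_of_mem_primeFactors hq
    rw [prod_eq_zero hq, card_empty, Nat.cast_zero]
    rw [(Int.eq_one_or_neg_one_of_mul_eq_one
      (ep_sq hs p (Nat.dvd_of_mem_primeFactors hq) m m0)).resolve_left a, if_pos]
    · rfl
    by_contra k
    exact a ((ep_nd k).trans (J_one p (ne_two ho hq) ((dv q hq).trans hn)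
      fun j => k (Int.natCast_dvd_natCast.1 j)))
  obtain ⟨a, ζ, a0, ea⟩ := pgt hd hs m0 nb al
  obtain ⟨⟨Q0, μ0⟩, t0, f0, -⟩ := ex_pair T a0 ea
  obtain ⟨h0, p0⟩ := T.mem _ t0
  obtain ⟨n1, n2⟩ := nm_fb hs' mp nb h0 p0 f0
  have z0 : ev e Q0 μ0 ≠ 0 := fun k => by
    rw [k, QuadraticAlgebra.norm_zero] at n1
    exact (mul_pos mp (pow_pos p0 2)).ne n1
  have gp : ∀ S ⊆ d.primeFactors, (0 : ℤ) < (∏ q ∈ S, q : ℕ) ∧ ((∏ q ∈ S, q : ℕ) : ℤ) ∣ 4 * e - 1 :=
    fun S h => ⟨Int.natCast_pos.2 (prod_pos fun q k => (Nat.prime_of_mem_primeFactors (h k)).pos),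
      hd ▸ Int.natCast_dvd_natCast.2 ((prod_dvd_prod_of_subset _ _ _ h).trans
        (Nat.prod_primeFactors_dvd d))⟩
  have pf : ∀ S ⊆ d.primeFactors, (∏ q ∈ S, q).primeFactors = S := fun S h =>
    Nat.primeFactors_prod fun q k => Nat.prime_of_mem_primeFactors (h k)
  have ok : ∀ S ⊆ d.primeFactors, ∀ x : Fm × Fm, x.1 ∈ t → Eq' (aQ e Q0 * am e (∏ q ∈ S, q : ℕ))
      (((∏ q ∈ S, q : ℕ) : ℤ) * ev e Q0 μ0) x → (∀ q ∈ S, (q : ℤ) ∣ bil x.2 x.1 + bil μ0 Q0) ∧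
      ∀ q ∈ d.primeFactors \ S, (q : ℤ) ∣ bil x.2 x.1 - bil μ0 Q0 := fun S h x hx E => by
    obtain ⟨c1, c2⟩ := sgn hs' (T.mem _ hx).1 (T.mem _ hx).2 h0 p0 (gp S h).1 (gp S h).2 E
    refine ⟨fun q k => (Int.natCast_dvd_natCast.2 (dvd_prod_of_mem _ k)).trans c2, fun q k => ?_⟩
    obtain ⟨k1, k2⟩ := mem_sdiff.1 k
    exact ((pr q k1).dvd_or_dvd ((dv q k1).trans (hd ▸ c1))).resolve_left fun j => k2 (pf S h ▸
      Nat.mem_primeFactors.2 ⟨Nat.prime_of_mem_primeFactors k1, Int.natCast_dvd_natCast.1 j,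
        (Int.natCast_pos.1 (gp S h).1).ne'⟩)
  obtain ⟨Y, y1, y2⟩ := rel_card (d.primeFactors.powerset.filter fun S : Finset ℕ =>
      (∀ q ∈ S, (q : ℤ) ∣ -n + bil μ0 Q0) ∧ ∀ q ∈ d.primeFactors \ S, (q : ℤ) ∣ -n - bil μ0 Q0)
    (fun x : Fm × Fm => x.1 ∈ t ∧ bil x.2 x.1 = -n ∧ Fb b x) (fun S x =>
      Eq' (aQ e Q0 * am e (∏ q ∈ S, q : ℕ)) (((∏ q ∈ S, q : ℕ) : ℤ) * ev e Q0 μ0) x)
    (fun S hS => by
      obtain ⟨h, c1, c2⟩ := mem_filter.1 hS
      rw [mem_powerset] at h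
      obtain ⟨g1, g2⟩ := nm_am hs' (gp S h).2
      obtain ⟨⟨Q, μ⟩, x1, x2, x3⟩ := ex_pair T (b := b)
        (ζ := ((∏ q ∈ S, q : ℕ) : ℤ) * ev e Q0 μ0)
        (((nm_aQ hs' h0).mul g1).ne (mul_pos p0 (gp S h).1).ne') (by
          rw [mul_mul_mul_comm, g2, mul_right_comm, f0, span_singleton_mul_span_singleton, mul_comm])
      obtain ⟨c3, c4⟩ := ok S h _ x1 x3
      obtain ⟨k, hk⟩ : (d : ℤ) ∣ -n - bil μ Q := by
        rw [← Nat.prod_primeFactors_of_squarefree hs, Nat.cast_prod]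
        refine prod_dvd_of_coprime (fun q i r j l => Nat.isCoprime_iff_coprime.2
          ((Nat.coprime_primes (Nat.prime_of_mem_primeFactors i)
            (Nat.prime_of_mem_primeFactors j)).2 l)) fun q i => ?_
        by_cases j : q ∈ S
        · simpa using dvd_sub (c1 q j) (c3 q j)
        · simpa using dvd_sub (c2 q (mem_sdiff.2 ⟨i, j⟩)) (c4 q (mem_sdiff.2 ⟨i, j⟩))
      obtain ⟨ν, v1, v2⟩ := ev_shift (T.mem _ x1).1 μ k
      have v3 : bil ν Q = -n := by linear_combination v2 - hk - k * hd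
      have x4 : Eq' (aQ e Q0 * am e (∏ q ∈ S, q : ℕ)) (((∏ q ∈ S, q : ℕ) : ℤ) * ev e Q0 μ0)
        (Q, ν) := by simpa only [Eq', v1] using x3
      refine ⟨(Q, ν), ⟨⟨x1, v3, by simpa only [Fb, v1] using x2⟩, x4⟩, fun y hy => ?_⟩
      obtain ⟨u1, u2⟩ := pair_uq T (y := (Q, ν)) hy.1.1 x1 hs' hy.2 x4
      obtain ⟨Q', μ'⟩ := y
      obtain rfl : Q' = Q := u1
      exact Prod.ext rfl (ev_inj (T.mem _ x1).1 (T.mem _ x1).2 u2 (hy.1.2.1.trans v3.symm)))
    (fun x hx => by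
      obtain ⟨g, g0, g1, E⟩ := ex_g hs' mp nb (T.mem _ hx.1).1 (T.mem _ hx.1).2 hx.2.2 h0 p0 f0
      obtain ⟨g, rfl⟩ := Int.eq_ofNat_of_zero_le g0.le
      have g2 := Int.natCast_dvd_natCast.1 (hd ▸ g1)
      have h := Nat.primeFactors_mono g2 hs.ne_zero
      rw [← Nat.prod_primeFactors_of_squarefree (hs.squarefree_of_dvd g2)] at E
      refine ⟨g.primeFactors, ⟨mem_filter.2 ⟨mem_powerset.2 h, hx.2.1 ▸ ok _ h x hx.1 E⟩, E⟩,
        fun S hS => ?_⟩
      have h' := mem_powerset.1 (mem_filter.1 hS.1).1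
      rw [← pf S h', Int.natCast_inj.1
        (g_uq hs' z0 (gp S h').1 (gp _ h).1 (gp S h').2 (gp _ h).2 hS.2 E), pf _ h])
  refine ⟨Y, y1, ?_⟩
  have : ∀ q ∈ d.primeFactors, (if q ∣ m then 1 else 0) * ep d q m + 1 =
      (if (q : ℤ) ∣ -n + bil μ0 Q0 then 1 else 0) + if (q : ℤ) ∣ -n - bil μ0 Q0 then 1 else 0 :=
    fun q h => by
      have n4 : ¬ (q : ℤ) ∣ 2 := fun k => ne_two ho h ((Nat.prime_dvd_prime_iff_eq
        (Nat.prime_of_mem_primeFactors h) Nat.prime_two).1 (by exact_mod_cast k))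
      have c1 := (dv q h).trans hn
      have c2 : (q : ℤ) ∣ bil μ0 Q0 ^ 2 - 4 * m :=
        ((dv q h).mul_right (-disc μ0)).trans (dvd_of_eq (by rw [hd]; linear_combination -n2))
      rw [al q h, mul_one]
      by_cases k : q ∣ m
      · have k' := (Int.natCast_dvd_natCast.2 k).mul_left 4
        have c1 := dvd_neg.2 ((pr q h).dvd_of_dvd_pow ((dvd_sub_left k').1 c1))
        have c2 := (pr q h).dvd_of_dvd_pow ((dvd_sub_left k').1 c2)
        rw [if_pos k, if_pos (dvd_add c1 c2), if_pos (dvd_sub c1 c2)]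
      · have c3 := (pr q h).dvd_or_dvd (a := -n + bil μ0 Q0) (b := -n - bil μ0 Q0)
          ((dvd_sub c1 c2).trans (dvd_of_eq (by ring)))
        have c4 : ¬ ((q : ℤ) ∣ -n + bil μ0 Q0 ∧ (q : ℤ) ∣ -n - bil μ0 Q0) := fun j => by
          have c5 := ((pr q h).dvd_or_dvd (a := 2) (b := bil μ0 Q0)
            ((dvd_sub j.1 j.2).trans (dvd_of_eq (by ring)))).resolve_left n4
          exact ((pr q h).dvd_or_dvd ((dvd_sub_right (dvd_pow c5 two_ne_zero)).1 c2)).elim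
            (fun i => n4 ((pr q h).dvd_of_dvd_pow (n := 2) i))
            fun i => k (Int.natCast_dvd_natCast.1 i)
        rw [if_neg k]
        by_cases i : (q : ℤ) ∣ -n + bil μ0 Q0 <;> by_cases j : (q : ℤ) ∣ -n - bil μ0 Q0 <;>
          simp [i, j] at c3 c4 ⊢
  rw [y2, prod_congr rfl this, prod_add, card_filter, Nat.cast_sum]
  refine sum_congr rfl fun S _ => ?_
  simp only [prod_boole, mul_ite, mul_one, mul_zero, ite_and]
  split_ifs <;> rfl

theorem ex_b (hs : Squarefree (4 * e - 1)) (h : disc Q = 1 - 4 * e) (a : 0 < Q.1) {m : ℤ}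
    (k : bil μ Q ^ 2 + (4 * e - 1) * disc μ = 4 * m) : ∃! b : Ideal (R e), Nm b m ∧ Fb b (Q, μ) := by
  have n := (nm_aQ hs h).mul (nm_aQ hs h)
  have n0 := (mul_pos a a).ne'
  obtain ⟨b, c⟩ := n.fac n0 ((span_singleton_le_iff_mem _).2 (ev_mem μ))
  refine ⟨b, ⟨n.div n0 ?_, c.symm⟩, fun b' j => n.cancel n0 (j.2.trans c)⟩
  rw [← c, show Q.1 * Q.1 * m = (ev e Q μ).norm by nlinarith [nm_ev h μ]]
  exact nm_span _

theorem gen_fb (hs : Squarefree (4 * e - 1)) {A : Type} [CommRing A] {ι : R e →+* A}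
    {b : Ideal (R e)} {m : ℤ} (m0 : 0 < m) (n : Nm b m) (h : disc Q = 1 - 4 * e) (a : 0 < Q.1)
    (k : Fb b (Q, μ)) {β : A} (u : IsUnit β) (c1 : (Q.1 : A) = 0) (c2 : (Q.2.2 : A) = 0)
    (c3 : ι (star (th e Q)) = -β) : Gen ι b m (β * μ.1) (β * μ.2.2) := by
  have A0 : (Q.1 * Q.1 : R e) ≠ 0 := mul_self_ne_zero.2 (Int.cast_ne_zero.2 a.ne')
  have e1 : Q.1 * Q.1 * (μ.1 * Q.2.2 ^ 2 + μ.2.1 * Q.2.2 * star (th e Q) +
      μ.2.2 * star (th e Q) ^ 2) = ev e Q μ * (star (th e Q) * star (th e Q)) := by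
    rw [ev]
    linear_combination -(μ.1 * (th e Q * star (th e Q) + Q.1 * Q.2.2) +
      μ.2.1 * Q.1 * star (th e Q)) * th_mul h
  have e2 := congrArg (Int.cast (R := R e)) (nm_fb hs m0 n h a k).1
  rw [nm_cast, Int.cast_mul, Int.cast_pow] at e2
  have t : star (th e Q) ∈ cj (aQ e Q) := mem_cj.2 (by rw [star_star]; exact subset_span (by simp))
  have e3 : span {ev e Q μ} * (cj (aQ e Q) * cj (aQ e Q)) = span {(Q.1 * Q.1 : R e)} * b := by
    rw [← span_singleton_mul_span_singleton, ← nm_aQ hs h, ← show _ = span {ev e Q μ} from k]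
    ring
  obtain ⟨η, c, e4⟩ := mem_span_singleton_mul.1
    (e3.le (mul_mem_mul (mem_span_singleton_self _) (mul_mem_mul t t)))
  have e5 := mul_left_cancel₀ A0 (e4.trans e1.symm)
  refine ⟨η, c, star (ev e Q μ), mem_cj.2 (by
    rw [star_star]; exact mul_le_right (k.ge (mem_span_singleton_self _))), -star (th e Q),
    -star (th e Q), by simpa [c3] using u, by simpa [c3] using u, mul_left_cancel₀ A0 (by
      linear_combination star (ev e Q μ) * e4 + star (th e Q) ^ 2 * e2), ?_, ?_⟩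
  · simp only [ev, star_add, star_mul', star_pow, star_intCast, map_add, map_mul, map_pow, map_neg,
      map_intCast, c1, c3]
    ring
  · simp only [e5, map_add, map_mul, map_pow, map_neg, map_intCast, c2, c3]
    ring

theorem tor_congr {M : ℕ} {ψ : Fm → ℤ} (h : Tor M ψ) {a b c a' b' c' : ℤ} (i : (M : ℤ) ∣ a - a')
    (j : (2 * M : ℤ) ∣ b - b') (k : (M : ℤ) ∣ c - c') : ψ (a, b, c) = ψ (a', b', c') := by
  obtain ⟨x, i⟩ := i
  obtain ⟨y, j⟩ := j
  obtain ⟨z, k⟩ := k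
  rw [← h.per (a', b', c') (x, y, z), sub_eq_iff_eq_add'.1 i, sub_eq_iff_eq_add'.1 j,
    sub_eq_iff_eq_add'.1 k]

end Cn

open Cn Hd in
/-- **row CNT** -/
theorem cnt : CNT := by
  intro M d β t ψ S hT ht hu n m m0 hn
  obtain ⟨e, hd⟩ : ∃ e : ℤ, (d : ℤ) = 4 * e - 1 := ⟨(d + 1) / 4, by have := S.m4; omega⟩
  haveI he : Fact (1 < e) := ⟨by have := S.big; omega⟩
  haveI := NeZero.mk S.pos.ne'
  have hs := sqf hd S.sq
  have ho : Odd d := Nat.odd_iff.2 (by omega)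
  have T : Rp e t := ⟨fun Q h => ⟨by rw [(ht Q h).1]; omega, (ht Q h).2.1⟩,
    fun Q h => hu Q (by omega)⟩
  obtain ⟨w, hw⟩ := S.rt
  obtain ⟨r, rfl⟩ : ∃ r, β = 2 * r - 1 := by
    rcases Int.even_or_odd' β with ⟨k, a | a⟩
    · have : 4 * (M * w - k ^ 2) = d := by rw [a] at hw; linear_combination -hw
      omega
    · exact ⟨k + 1, by omega⟩
  obtain ⟨ι, hι⟩ : ∃ ι : R e →+* ZMod M, ∀ z, ι z = (z.re + z.im * r : ℤ) :=
    ⟨(lift ⟨(r : ZMod M), by
      simpa using cast_eq (n := M) (a := r * r) (b := -e + r) ⟨w, by nlinarith⟩⟩).toRingHom,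
      fun z => by simp⟩
  have ub : IsUnit (((2 * r - 1 : ℤ)) : ZMod M) := by
    refine isUnit_of_mul_isUnit_left (y := ((2 * r - 1 : ℤ) : ZMod M)) ?_
    rw [← Int.cast_mul, cast_eq (b := -d) ⟨4 * w, by linear_combination hw⟩]
    simpa using (ZMod.isUnit_iff_coprime d M).2 S.cop.symm
  have st : ∀ Q : Fm, disc Q = 1 - 4 * e → (2 * M : ℤ) ∣ Q.2.1 - (2 * r - 1) →
      ι (star (th e Q)) = -((2 * r - 1 : ℤ) : ZMod M) := fun Q h ⟨k, a⟩ => by
    obtain ⟨s, b, c, -⟩ := ex_s h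
    rw [hι, c, ← Int.cast_neg]
    exact cast_eq ⟨-k, by simp only [re_star, im_star]; linarith⟩
  have L : Loc ι d := fun p hp => by
    by_cases k : p ∣ M
    · obtain ⟨c, rfl⟩ := k
      have h : disc ((p : ℤ), 2 * r - 1, c * w) = 1 - 4 * e := by
        simp only [disc]
        push_cast at hw
        linear_combination hw - hd
      exact Or.inr ⟨hp.coprime_iff_not_dvd.1 S.cop.coprime_mul_right, _, rfl, h,
        by rw [st _ h (by simp)]; exact ub.neg⟩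
    · exact Or.inl (by simpa using (ZMod.isUnit_iff_coprime p M).2 (hp.coprime_iff_not_dvd.2 k))
  obtain ⟨F, hF⟩ : ∃ F : ZMod M → ZMod M → ℤ, ∀ a c : ℤ, F a c = ψ (a, n, c) :=
    ⟨fun x y => ψ (x.val, n, y.val), fun a c => by
      simp only [ZMod.val_intCast]
      exact tor_congr hT (Int.dvd_emod_sub_self) (by simp) Int.dvd_emod_sub_self⟩
  have tF : TI F := fun u u' x y k => by
    obtain ⟨u, rfl⟩ := ZMod.intCast_surjective u
    obtain ⟨u', rfl⟩ := ZMod.intCast_surjective u'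
    obtain ⟨x, rfl⟩ := ZMod.intCast_surjective x
    obtain ⟨y, rfl⟩ := ZMod.intCast_surjective y
    rw [← Int.cast_mul, ← Int.cast_mul, hF, hF]
    exact hT.tor u u' ((ZMod.intCast_eq_intCast_iff_dvd_sub 1 _ M).1 (by simp [k])) (x, n, y)
  choose! Y y1 y2 using fun b (hb : b ∈ BB e m) => fib hd S.sq T m0.ne' ((mem_BB m0.ne').1 hb) hn
  have key : ∀ Q ∈ t, ∀ μ, (if bil μ Q = -n ∧ n ^ 2 + d * disc μ = 4 * m then
      ψ ((2 * r - 1) • μ) else 0) = ∑ b ∈ BB e m, if (Q, μ) ∈ Y b then W ι F b m else 0 :=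
    fun Q hQ μ => by
      obtain ⟨h, a⟩ := T.mem Q hQ
      obtain ⟨-, -, ⟨x, c1⟩, ⟨y, c2⟩, z, c3⟩ := ht Q hQ
      split_ifs with k
      · obtain ⟨b, ⟨b1, b2⟩, b3⟩ := ex_b hs h a (μ := μ) (m := m) (by rw [k.1, ← hd, ← k.2]; ring)
        have hb := (mem_BB m0.ne').2 b1
        rw [sum_eq_single_of_mem b hb fun b' j i => if_neg fun l =>
          i (b3 b' ⟨(mem_BB m0.ne').1 j, ((y1 b' j _).1 l).2.2⟩), if_pos ((y1 b hb _).2 ⟨hQ, k.1, b2⟩),
          W_eq b1 (by omega) (gen_fb hs (by omega) b1 h a b2 ub (by simp [c1]) (by simp [c3])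
            (st Q h ⟨y, c2⟩)) tF, ← Int.cast_mul, ← Int.cast_mul, hF]
        refine tor_congr hT (by simp) ⟨μ.1 * z + x * μ.2.2 - μ.2.1 * y, ?_⟩ (by simp)
        have := k.1
        rw [bil] at this
        change (2 * r - 1) * μ.2.1 - n = _
        linear_combination -this - μ.2.1 * c2 + 2 * μ.1 * c3 + 2 * μ.2.2 * c1
      · refine (sum_eq_zero fun b j => if_neg fun l => k ?_).symm
        obtain ⟨-, l1, l2⟩ := (y1 b j _).1 l
        refine ⟨l1, ?_⟩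
        rw [← (nm_fb hs (by omega) ((mem_BB m0.ne').1 j) h a l2).2, show bil μ Q = -n from l1, hd]
        ring
  have gq : ∀ i ∈ m.divisorsAntidiagonal, gc d (i.1, n, i.2) = ∏ q ∈ d.primeFactors,
      ((if q ∣ m then 1 else 0) * jq q i.1 + jq q i.2) := fun i hi => prod_congr rfl fun q h => by
    have p := Nat.prime_of_mem_primeFactors h
    have c := (Int.natCast_dvd_natCast.2 (Nat.dvd_of_mem_primeFactors h)).trans hn
    rw [← (Nat.mem_divisorsAntidiagonal.1 hi).1] at c ⊢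
    simp only [jq_ap, Int.natCast_dvd_natCast, p.dvd_mul]
    by_cases a : q ∣ i.1
    · simp [a, J_dvd p.one_lt (Int.natCast_dvd_natCast.2 a)]
    by_cases b : q ∣ i.2
    · simp [a, b, J_dvd p.one_lt (Int.natCast_dvd_natCast.2 b)]
    have := J_one p (ne_two ho h) c fun j =>
      (p.dvd_mul.1 (Int.natCast_dvd_natCast.1 j)).elim a b
    rw [Nat.cast_mul, jacobiSym.mul_left] at this
    simp [a, b, Int.eq_of_mul_eq_one this]
  calc _ = ∑ Q ∈ t, ∑ μ ∈ (BB e m).biUnion fun b => (Y b).image Prod.snd, ∑ b ∈ BB e m,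
        if (Q, μ) ∈ Y b then W ι F b m else 0 := sum_congr rfl fun Q hQ => by
          simp only [key Q hQ]
          refine finsum_eq_sum_of_support_subset _ fun μ k => ?_
          obtain ⟨b, j, l⟩ := exists_ne_zero_of_sum_ne_zero (Function.mem_support.1 k)
          exact mem_biUnion.2 ⟨b, j, mem_image_of_mem _ (by_contra fun i => l (if_neg i))⟩
    _ = ∑ b ∈ BB e m, #(Y b) * W ι F b m := by
      rw [← sum_product', sum_comm]
      refine sum_congr rfl fun b j => ?_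
      rw [sum_ite_mem, inter_eq_right.2 fun x k => mem_product.2 ⟨((y1 b j x).1 k).1,
        mem_biUnion.2 ⟨b, j, mem_image_of_mem _ k⟩⟩, sum_const, nsmul_eq_mul]
    _ = ∑ U ∈ d.primeFactors.powerset, (∏ q ∈ U, if q ∣ m then 1 else 0) *
        Dv (∏ q ∈ U, jq q) (∏ q ∈ d.primeFactors \ U, jq q) m F := by
      rw [sum_congr rfl fun b j => by rw [y2 b j], ← mul_sum, prod_add_one, sum_mul]
      refine sum_congr rfl fun U k => ?_
      rw [D_eq hd hs L (gch S.sq (mem_powerset.1 k)) m m0.ne' F tF, prod_mul_distrib,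
        MonoidHom.finset_prod_apply, mul_assoc, Gv]
    _ = _ := by
      simp only [Dv, mul_sum, hF, MonoidHom.finset_prod_apply]
      rw [sum_comm]
      refine sum_congr rfl fun i hi => ?_
      rw [gq i hi, prod_add, mul_sum]
      refine sum_congr rfl fun U _ => ?_
      rw [prod_mul_distrib]
      ring

end Vale.Agent.P004Z.Kf
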