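import Vale.Agent.P004Z.Kf.Da
import Vale.Agent.P004Z.Kf.Cnt

/-! # P004Z, block G5: the lowered kernel is the theta function at the CM points -/

open Complex MeasureTheory Filter Topology Set
open scoped Real ComplexConjugate NumberTheorySymbols UpperHalfPlane

noncomputable section

namespace Vale.Agent.P004Z.Kf

open Du

variable {N : ℕ} [NeZero N] {δ d M : ℕ} {β β' : ℤ} {t : Finset Fm} {w : Fm → ℍ}

/-- the CM points -/
structure Cm (d M : ℕ) (β' : ℤ) (t : Finset Fm) (w : Fm → ℍ) : Prop where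
  t1 : ∀ Q ∈ t, disc Q = -d ∧ 0 < Q.1 ∧ (M : ℤ) ∣ Q.1 ∧ (2 * M : ℤ) ∣ Q.2.1 - β' ∧
    (M : ℤ) ∣ Q.2.2 ∧ evq Q (w Q) = 0
  t2 : ∀ Q, disc Q = -d → 0 < Q.1 → ∃! Q', Q' ∈ t ∧ ∃ γ, fa Q γ = Q'

/-- the index of a term -/
def ix (d : ℕ) (Q l : Fm) : ℤ × ℤ := (-bil l Q, (bil l Q ^ 2 + d * disc l) / 4)

theorem Dd.th (h : Dd N δ d M β β') (k : Cm d M β' t w) {τ : ℂ} (hτ : 0 < τ.im) (r : ZMod (2 * N))
    {Q : Fm} (hQ : Q ∈ t) : HasSum (fun l => twi δ (-β') (ph N δ r) l *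
      EE (N * (δ * d) * δ ^ 2) τ (ix d Q l))
      (th0 (N * δ * δ ^ 2) (fun l => twi δ (-β') (ph N δ r) l) τ (w Q) / τ.im) := by
  have n : 0 < N * δ * δ ^ 2 := by
    have := h.d0
    have := NeZero.pos N
    positivity
  rw [th0, mul_div_cancel_left₀ _ (ofReal_ne_zero.2 hτ.ne')]
  refine (bsum (twi_bd _ (ph_bd N δ r)) (gsum n hτ (w Q).im_pos).1).of_norm.hasSum.congr_fun
    fun l => ?_
  obtain ⟨m, e1, e2⟩ := gau_cm (τ := τ) n h.d1 (k.t1 Q hQ).1 (k.t1 Q hQ).2.2.2.2.2 l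
  rw [e2, ix, e1, Int.mul_ediv_cancel_left _ four_ne_zero, mul_right_comm (N * δ), mul_assoc N δ d]

theorem Dd.mt (h : Dd N δ d M β β') (k : Cm d M β' t w) (r : ZMod (2 * N)) (n : ℤ) {m : ℤ}
    (hm : m ≠ 0) : (∑' l : Fm, if (l.2.1, l.1 * l.2.2) = (n, m) then (aa (pf δ d β r) l : ℂ) else 0) =
      ∑ Q ∈ t, ∑' l, if ix d Q l = (n, m) then (twi δ (-β') (ph N δ r) l : ℂ) else 0 := by
  have c : ∀ Q ∈ t, ∀ l, (ix d Q l = (n, m) ↔ bil l Q = -n ∧ n ^ 2 + d * disc l = 4 * m) ∧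
      0 ≤ (ix d Q l).2 := fun Q hQ l => by
    obtain ⟨j, e1, -⟩ := gau_cm (τ := I) one_pos h.d1 (k.t1 Q hQ).1 (k.t1 Q hQ).2.2.2.2.2 l
    rw [ix, e1, Int.mul_ediv_cancel_left _ four_ne_zero, Prod.mk.injEq, neg_eq_iff_eq_neg]
    refine ⟨and_congr_right fun e => ?_, by simp⟩
    rw [e, neg_sq] at e1
    omega
  rcases hm.lt_or_gt with m0 | m0
  · rw [Finset.sum_eq_zero fun Q hQ => (tsum_congr fun l => if_neg fun e => by
      have := (c Q hQ l).2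
      rw [e] at this
      omega).trans tsum_zero]
    refine (tsum_congr fun l => ite_eq_right_iff.2 fun e => ?_).trans tsum_zero
    have e := (Prod.mk.inj e).2
    rw [aa, if_neg fun j => by rw [j.1] at e; omega, if_neg (by omega), ofReal_zero]
  lift m to ℕ using m0.le
  obtain ⟨a1, a2, -⟩ := ari N δ d M β β' r h.dat h.dv h.sp h.cg
  have := sum_pm (f := fun l => aa (pf δ d β r) l) (fun l => by
    simp [aa, h.odd, neg_div]) n (Int.natCast_pos.1 m0) (.inl rfl)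
  simp only [one_mul] at this
  rw [this.tsum_eq, Finset.mul_sum, Finset.sum_congr (g := fun i => if (d : ℤ) ∣ n ^ 2 - 4 * m then
    ((twi δ (-1) (ph N δ (β * r)) (i.1, n, i.2) * gc d (i.1, n, i.2) : ℤ) : ℂ) else 0) rfl
      fun i hi => ?_]
  · split_ifs with e
    · rw [← Int.cast_sum, ← cnt M d β' t _ h.sp a1 (fun Q hQ => by
        obtain ⟨b1, b2, b3, b4, b5, -⟩ := k.t1 Q hQ
        exact ⟨b1, b2, b3, b4, b5⟩) k.t2 n m (Int.natCast_pos.1 m0) e, Int.cast_sum]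
      refine Finset.sum_congr rfl fun Q hQ => ?_
      simp only [← (c Q hQ _).1, ← a2]
      rw [← int_fin (((h.th k (τ := I) (by simp) r hQ).summable.indicator
        {l | ix d Q l = (n, (m : ℤ))}).mul_right (EE (N * (δ * d) * δ ^ 2) I (n, m))⁻¹ |>.congr fun l => ?_)]
      · simp
      · by_cases j : ix d Q l = (n, (m : ℤ)) <;> simp [j, EE, ee_ne]
    · rw [Finset.sum_const_zero, Finset.sum_eq_zero fun Q hQ => (tsum_congr fun l => if_neg fun j =>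
        e ⟨-disc l, by linear_combination ((c Q hQ l).1.1 j).2⟩).trans tsum_zero]
  · obtain ⟨e, -⟩ := Nat.mem_divisorsAntidiagonal.1 hi
    have e' : (i.1 : ℤ) * i.2 = m := by exact_mod_cast e
    have i2 : (i.2 : ℝ) ≠ 0 := Nat.cast_ne_zero.2 fun j => by rw [j] at e'; omega
    rw [aa, if_neg fun j => by rw [show (i.1 : ℤ) = 0 from j.1] at e'; omega, if_pos (e' ▸ m0), h.ar,
      disc, mul_assoc 4, e']
    split_ifs <;> simp [i2, mul_div_cancel₀]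

theorem Dd.lo (h : Dd N δ d M β β') (k : Cm d M β' t w) {τ : ℂ} (hτ : 0 < τ.im)
    (r : ZMod (2 * N)) : Lo (FK δ d β r) τ = TH δ β' t w r τ / τ.im ^ 2 := by
  let a : ZMod (2 * N) → ℤ × ℤ → ℂ := fun r j =>
    (∑' l : Fm, if (l.2.1, l.1 * l.2.2) = j then (aa (pf δ d β r) l : ℂ) else 0) -
      ∑ Q ∈ t, ∑' l, if ix d Q l = j then (twi δ (-β') (ph N δ r) l : ℂ) else 0
  have S : ∀ τ : ℂ, 0 < τ.im → ∀ r, HasSum (fun j : ℤ × ℤ => a r j *
      ee ((j.1 ^ 2 / (4 * (N * (δ * d) * δ ^ 2 : ℕ)) : ℝ) * τ))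
      (τ.im * Lo (FK δ d β r) τ - TH δ β' t w r τ / τ.im) := fun τ hτ r => by
    rw [TH, Finset.sum_div]
    refine ((fib _ ((h.tf r).lo hτ)).sub (hasSum_sum fun Q hQ => fib _ (h.th k hτ r hQ))).congr_fun
      fun j => ?_
    rw [← Finset.sum_mul, ← sub_mul]
    by_cases e : j.2 = 0
    · rw [EE, e]
      congr 2
      push_cast
      ring
    · simp only [a, h.mt k r j.1 e, sub_self, zero_mul]
  refine soft (fun r => (h.tf r).ser.main.1) (fun r => hol fun τ hτ =>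
    summable_norm_iff.2 (S τ hτ r).summable) (fun τ hτ => h.law hτ)
    (fun τ hτ => TH_law h.dat.ok t w hτ) (fun τ hτ r => ?_) hτ r
  have v' : (τ.im : ℂ) ≠ 0 := ofReal_ne_zero.2 hτ.ne'
  rw [(S τ hτ r).tsum_eq]
  field_simp

end Vale.Agent.P004Z.Kf
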