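import Vale.Agent.P004Z.Kf.Fu
import Vale.Agent.P004Z.Kf.Mt
import Vale.Agent.P004Z.Hd.Kl
import Vale.Agent.P004Z.Hd.Fta

/-! # P004Z, block G5: the row `KER` -/

open Complex MeasureTheory Filter Topology Set
open scoped Real ComplexConjugate NumberTheorySymbols UpperHalfPlane

noncomputable section

namespace Vale.Agent.P004Z

open Kf Du Du.Pe

theorem ker : KER := fun N _ δ d β s h hs => by
  obtain ⟨β', t, w, k1, k2, k3, k4⟩ := kl N δ d _ 3 β h (dvd_pow_self _ three_ne_zero) dvd_rfl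
  have N0 := NeZero.pos N
  have d0 : 0 < δ := zero_lt_one.trans h.ok.one
  have m8 := h.m8
  have D : Dd N δ d ((2 * N * δ) ^ 3) β β' := by
    obtain ⟨Q, ⟨hQ, -⟩, -⟩ := k3 (1, 1, (d + 1) / 4) (by simp only [disc]; omega) one_pos
    obtain ⟨e, -, ⟨a, ha⟩, ⟨b, hb⟩, ⟨c, hc⟩, -⟩ := k2 Q hQ
    refine ⟨h, ⟨(2 * N) ^ 2, by ring⟩, ⟨by positivity, h.sq, by omega, by omega,
      (Nat.isCoprime_iff_coprime.1 (by exact_mod_cast Hd.cop_d h)).pow_left 3,
      a * Q.2.2 - b * Q.2.1 + ((2 * N * δ) ^ 3 : ℕ) * b ^ 2, ?_⟩, k1⟩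
    rw [disc] at e
    generalize (((2 * N * δ) ^ 3 : ℕ) : ℤ) = M at *
    linear_combination e + 4 * Q.2.2 * ha - (β' + Q.2.1 - 2 * M * b) * hb
  refine ⟨ka δ d β, fun x => -pet (FK δ d β) (fn x), D.lgs, fun a x c Φ H o hΦ => ?_,
    by simp [pet, fn], fun x hx G a k e V hk => neg_eq_zero.2 (D.fu hx e.qe V hk)⟩
  refine tendsto_nhds_unique (tendsto_finsetSum _ fun z hz => (hΦ z hz).const_mul _)
    ((by_lim (kp phi h.ok) (fun r => (D.tf r).ser) (fun r l v k => ?_) (fun τ => D.law) H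
      (D.lim H o)).congr fun v => ?_)
  · obtain ⟨n, e, i, -⟩ := D.sup r l v k
    simpa only [(D.ex e).1, (D.ex e).2, true_and] using i
  have n : 0 < N * δ := mul_pos N0 d0
  obtain ⟨p1, -, -, -, p5, -⟩ := phi N δ h.ok
  simp only [reg, ← integral_const_mul]
  refine Eq.trans (setIntegral_congr_fun (Sk.compact_FT v).measurableSet fun τ k => ?_)
    (integral_finsetSum _ fun z _ => Integrable.const_mul (ContinuousOn.integrableOn_compact
    (Sk.compact_FT v) (ContinuousOn.mono (s := UH) ((continuousOn_finsetSum _ fun r _ =>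
      ((qs_diff (k := id) (H.sum r)).continuousOn.add (nh_c1 H.s r).continuousOn).mul
        (th0_cont n z.im_pos (ph_bd N δ r))).div (by fun_prop) fun τ hτ =>
          pow_ne_zero 2 (ofReal_ne_zero.2 (ne_of_gt hτ))) fun τ k => k.1.2.2)) _)
  have p : 0 < τ.im := k.1.2.2
  simp only [D.lo ⟨k2, k3⟩ p, Finset.sum_div, Finset.mul_sum]
  rw [Finset.sum_comm]
  refine Finset.sum_congr rfl fun r _ => ?_
  have := k4 s hs ℂ (fun z => th0 (N * δ) (fun l => ph N δ r l) τ z) fun γ hγ z => by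
    simpa only [p5 r _ γ hγ] using (((fta γ).2.2.2.2.2 _ _ n (p1 r)).2.2 τ z).1
  simp only [zsmul_eq_mul] at this
  simp only [mul_div_assoc, mul_left_comm _ (hf a x r τ), ← Finset.mul_sum]
  simp only [← mul_div_assoc, ← Finset.sum_div, this, TH, th_twi n d0 p (w _).im_pos _ (ph_bd N δ r)]
  congr 2
  refine Finset.sum_congr rfl fun Q _ => Finset.sum_congr rfl fun j _ => ?_
  rw [UpperHalfPlane.ofComplex_apply_of_im_pos (by
    simpa using div_pos (w Q).im_pos (Nat.cast_pos.2 d0))]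

end Vale.Agent.P004Z
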