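import Vale.Agent.P004Z.Kf.St
import Vale.Agent.P004Z.Th.Gau

/-!
# P004Z, block G5: the twisted test functions
-/

set_option autoImplicit false
set_option linter.all false

open Finset
open scoped NumberTheorySymbols Classical

noncomputable section

namespace Vale.Agent.P004Z.Kf

open Hd Gq

namespace Ar

variable {N δ : ℕ} {j j' x : ℤ} {l l' : Fm} {φ φ' : Fm → ℤ}

theorem up_inj (h : δ ≠ 0) (j : ℤ) : Function.Injective (up δ j) := by
  rintro ⟨a, b, c⟩ ⟨a', b', c'⟩ e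
  have h0 : (δ : ℤ) ≠ 0 := Int.natCast_ne_zero.2 h
  simp only [up, Prod.mk.injEq] at e
  obtain ⟨rfl, e1, e2⟩ := e
  obtain rfl : b = b' := mul_right_cancel₀ h0 (by linarith)
  obtain rfl : c = c' := mul_right_cancel₀ (pow_ne_zero 2 h0) (by linarith)
  rfl

theorem mem_up : (∃ m, up δ j m = l) ↔
    (δ : ℤ) ∣ l.2.1 - 2 * l.1 * j ∧ (δ : ℤ) ^ 2 ∣ l.2.2 - l.2.1 * j + l.1 * j ^ 2 := by
  constructor
  · rintro ⟨m, rfl⟩
    exact ⟨⟨m.2.1, by simp only [up]; ring⟩, ⟨m.2.2, by simp only [up]; ring⟩⟩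
  · rintro ⟨⟨b, h1⟩, c, h2⟩
    refine ⟨(l.1, b, c), Prod.ext rfl (Prod.ext ?_ ?_)⟩ <;> simp only [up]
    · linear_combination -h1
    · linear_combination -h2 - j * h1

theorem disc_up (m : Fm) : disc (up δ j m) = δ ^ 2 * disc m := by
  simp only [disc, up]
  ring

theorem ext_of (h0 : δ ≠ 0) (h : ∀ m', up δ j' m' = l' → ∃ m, up δ j m = l ∧ φ m = x * φ' m')
    (h' : (∃ m, up δ j m = l) → ∃ m', up δ j' m' = l') :
    Function.extend (up δ j) φ 0 l = x * Function.extend (up δ j') φ' 0 l' := by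
  by_cases k : ∃ m', up δ j' m' = l'
  · obtain ⟨m', rfl⟩ := k
    obtain ⟨m, rfl, e⟩ := h m' rfl
    rw [(up_inj h0 j).extend_apply, (up_inj h0 j').extend_apply, e]
  · rw [Function.extend_apply' _ _ _ k, Function.extend_apply' _ _ _ fun c => k (h' c)]
    simp

theorem ph_of {r r' : ZMod (2 * N)} (h1 : (N : ℤ) ∣ l.1 ↔ (N : ℤ) ∣ l'.1)
    (h2 : (N : ℤ) ∣ l'.1 → ((l.2.1 : ZMod (2 * N)) = r ↔ (l'.2.1 : ZMod (2 * N)) = r'))
    (h3 : (δ : ℤ) ∣ disc l ↔ (δ : ℤ) ∣ disc l') (h4 : gc δ l = x * gc δ l') :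
    ph N δ r l = x * ph N δ r' l' := by
  rw [ph, ph, h4, mul_ite, mul_zero]
  exact if_congr (by rw [h1, h3]; exact and_congr_right fun k => by rw [h2 k]) rfl rfl

theorem J_inv {n : ℕ} {u u' : ℤ} (h : (n : ℤ) ∣ u * u' - 1) : J(u | n) * J(u' | n) = 1 := by
  rw [← jacobiSym.mul_left, J_congr h, jacobiSym.one_left]

theorem gc_of (hs : Squarefree δ) {u u' : ℤ} (h : (δ : ℤ) ∣ u * u' - 1)
    (h1 : (δ : ℤ) ∣ l.1 - u * l'.1) (h2 : (δ : ℤ) ∣ l.2.2 - u' * l'.2.2) :
    gc δ l = J(u | δ) * gc δ l' := by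
  rw [J_prod hs, gc_def, gc_def, ← prod_mul_distrib]
  refine prod_congr rfl fun p hp => ?_
  have pd := Int.natCast_dvd_natCast.2 (Nat.dvd_of_mem_primeFactors hp)
  have pp := Nat.prime_of_mem_primeFactors hp
  have e := J_inv (pd.trans h)
  have nu : ¬ (p : ℤ) ∣ u := fun k => by simp [J_dvd pp.one_lt k] at e
  have e1 : (p : ℤ) ∣ l.1 ↔ (p : ℤ) ∣ l'.1 := by
    rw [dvd_iff_dvd_of_dvd_sub (pd.trans h1), (Nat.prime_iff_prime_int.1 pp).dvd_mul]
    exact or_iff_right nu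
  rw [gp, gp, J_congr (pd.trans h1), J_congr (pd.trans h2), jacobiSym.mul_left,
    jacobiSym.mul_left, Int.eq_of_mul_eq_one e, mul_ite]
  exact if_congr e1 rfl rfl

theorem sum_unit {n : ℕ} (h0 : n ≠ 0) {f : ℤ → ℤ} (h : P1 n f) {u u' : ℤ}
    (hu : (n : ℤ) ∣ u * u' - 1) : ∑ x ∈ range n, f (u' * x) = ∑ x ∈ range n, f x := by
  have : NeZero n := ⟨h0⟩
  have h' : P1 n fun x => f (u' * x) := fun x y k => h _ _ (by rw [← mul_sub]; exact k.mul_left _)
  have e : (u : ZMod n) * u' = 1 := by exact_mod_cast cast_eq hu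
  rw [h'.zmod, h.zmod]
  refine Fintype.sum_equiv (Units.mulLeft (Units.mkOfMulEqOne (u' : ZMod n) u
    (by rw [mul_comm, e]))) _ _ fun y => h _ _ ?_
  rw [← ZMod.intCast_zmod_eq_zero_iff_dvd]
  simp

theorem per_j (ho : Odd δ) (r : ZMod (2 * N)) (σ : ℤ) (l : Fm) :
    P1 δ fun j => J(σ * j | δ) * Function.extend (up δ j) (ph N δ r) 0 l := by
  rintro j j' ⟨t, ht⟩
  obtain rfl : j = j' + δ * t := by linarith
  simp only
  rw [J_congr (n := δ) (a := σ * (j' + δ * t)) (b := σ * j') ⟨σ * t, by ring⟩,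
    ext_of (x := 1) (j' := j') (l' := l) (φ' := ph N δ r) ho.pos.ne' (fun m' e => ?_) fun k => ?_,
    one_mul]
  · refine ⟨fa m' (mk 1 (-t) 0 1 (by ring)), ?_, ?_⟩
    · rw [← e, fa_mk]
      simp only [up, Hd.val]
      refine Prod.ext ?_ (Prod.ext ?_ ?_) <;> simp only <;> ring
    · rw [ph_fa ho r m' (g0_dvd.2 (dvd_zero _)), one_mul]
  · obtain ⟨⟨a, b, c⟩, rfl⟩ := k
    refine ⟨(a, b + 2 * a * t, a * t ^ 2 + b * t + c), ?_⟩
    simp only [up]
    refine Prod.ext ?_ (Prod.ext ?_ ?_) <;> simp only <;> ring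

theorem tor {M : ℕ} (h : Ok N δ) (hM : 2 * N * δ ^ 3 ∣ M) (r : ZMod (2 * N)) (σ : ℤ) :
    Tor M (twi δ σ (ph N δ r)) := by
  have h0 := h.odd.pos.ne'
  obtain ⟨k, rfl⟩ := hM
  refine ⟨fun l m => sum_congr rfl fun j _ => ?_, fun u u' ⟨t, ht⟩ l => ?_⟩
  · rw [ext_of (x := 1) (j' := j) (l' := l) (φ' := ph N δ r) h0 (fun m' e => ?_) fun c => ?_,
      one_mul]
    · obtain ⟨a, b, c⟩ := m'
      refine ⟨(a + 2 * N * δ ^ 3 * k * m.1, b + 4 * N * δ ^ 2 * k * (m.2.1 - m.1 * j),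
        c + 2 * N * δ * k * (m.2.2 - 2 * m.2.1 * j + m.1 * j ^ 2)), ?_, ?_⟩
      · rw [← e]
        simp only [up]
        refine Prod.ext ?_ (Prod.ext ?_ ?_) <;> simp only <;> push_cast <;> ring
      · refine ph_of (dvd_iff_dvd_of_dvd_sub ⟨2 * δ ^ 3 * k * m.1, by ring⟩) (fun _ => ?_)
          (dvd_iff_dvd_of_dvd_sub ?_) ?_
        · rw [cast_eq (b := b) ⟨2 * δ ^ 2 * k * (m.2.1 - m.1 * j), by push_cast; ring⟩]
        · generalize m.2.1 - m.1 * j = X
          generalize m.2.2 - 2 * m.2.1 * j + m.1 * j ^ 2 = Y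
          exact ⟨8 * b * N * δ * k * X + 16 * N ^ 2 * δ ^ 3 * k ^ 2 * X ^ 2 - 8 * a * N * k * Y -
            8 * N * δ ^ 2 * k * m.1 * (c + 2 * N * δ * k * Y), by simp only [disc]; ring⟩
        · rw [gc_of h.sq (u := 1) (u' := 1) (l' := (a, b, c)) (by simp)
            ⟨2 * N * δ ^ 2 * k * m.1, by ring⟩
            ⟨2 * N * k * (m.2.2 - 2 * m.2.1 * j + m.1 * j ^ 2), by ring⟩, jacobiSym.one_left]
    · obtain ⟨⟨b, h1⟩, c, h2⟩ := mem_up.1 c
      push_cast at h1 h2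
      exact mem_up.2 ⟨⟨b - 4 * N * δ ^ 2 * k * (m.2.1 - m.1 * j), by linear_combination h1⟩,
        c - 2 * N * δ * k * (m.2.2 - 2 * m.2.1 * j + m.1 * j ^ 2), by linear_combination h2⟩
  · push_cast at ht
    have hu : (δ : ℤ) ∣ u * u' - 1 := ⟨2 * N * δ ^ 2 * k * t, by linear_combination ht⟩
    rw [twi, twi, ← sum_unit h0 (per_j h.odd r σ _) hu]
    refine sum_congr rfl fun j _ => ?_
    rw [ext_of (x := J(u | δ)) (j' := j) (l' := l) (φ' := ph N δ r) h0 (fun m' e => ?_) fun c => ?_,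
      mul_left_comm σ, jacobiSym.mul_left u']
    · linear_combination (J(σ * j | δ) * Function.extend (up δ j) (ph N δ r) 0 l) * J_inv hu
    · obtain ⟨a, b, c⟩ := m'
      refine ⟨(u * a, b - 4 * N * δ ^ 2 * k * t * a * j, u' * (c + 2 * N * δ * k * t * a * j ^ 2)),
        ?_, ?_⟩
      · rw [← e]
        simp only [up]
        refine Prod.ext rfl (Prod.ext ?_ ?_) <;> simp only
        · linear_combination (2 * a * j) * ht
        · linear_combination (u' * a * j ^ 2) * ht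
      · refine ph_of ⟨fun d => ?_, fun d => d.mul_left _⟩ (fun _ => ?_)
          (dvd_iff_dvd_of_dvd_sub ?_) (gc_of h.sq hu (by simp) ⟨u' * (2 * N * k * t * a * j ^ 2),
            by ring⟩)
        · obtain ⟨s, hs⟩ := d
          exact ⟨u' * s - 2 * δ ^ 3 * k * t * a, by linear_combination u' * hs - a * ht⟩
        · rw [cast_eq (b := b) ⟨-(2 * δ ^ 2 * k * t * a * j), by push_cast; ring⟩]
        · exact ⟨-(8 * b * N * δ * k * t * a * j) + 16 * N ^ 2 * δ ^ 3 * (k * t * a * j) ^ 2 -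
            8 * N * δ ^ 2 * k * t * a * c - 8 * u * u' * N * k * t * a ^ 2 * j ^ 2, by
              simp only [disc]
              linear_combination (-4 * a * c) * ht⟩
    · obtain ⟨⟨b, h1⟩, c, h2⟩ := mem_up.1 c
      simp only at h1 h2
      refine mem_up.2 ⟨⟨b + 4 * N * δ ^ 2 * k * t * l.1 * j, by
        linear_combination h1 + (2 * l.1 * j) * ht⟩, u * c - 2 * N * δ * k * t *
          (l.2.2 - l.2.1 * j + l.1 * j ^ 2 + u * u' * l.1 * j ^ 2), ?_⟩
      linear_combination u * h2 - (l.2.2 - l.2.1 * j + l.1 * j ^ 2 + u * u' * l.1 * j ^ 2) * ht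

theorem gc_up {d : ℕ} (hc : δ.Coprime d) {m : Fm} (hd : (d : ℤ) ∣ disc m) :
    gc d (up δ j m) = gc d m := by
  refine prod_congr rfl fun p hp => ?_
  have pd := Int.natCast_dvd_natCast.2 (Nat.dvd_of_mem_primeFactors hp)
  have pp := Nat.prime_of_mem_primeFactors hp
  refine if_ctx_congr Iff.rfl (fun k => ?_) fun _ => rfl
  simp only [up] at k ⊢
  · have e : (p : ℤ) ∣ m.1 * j ^ 2 + m.2.1 * j * δ + m.2.2 * δ ^ 2 - m.2.2 * δ ^ 2 := by
      rw [add_sub_cancel_right]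
      exact dvd_add (k.mul_right _) (((dvd_b pp (pd.trans hd) k).mul_right _).mul_right _)
    rw [J_congr e, jacobiSym.mul_left,
      jacobiSym.sq_one' (gcd_one pp (ndvd hp (Nat.isCoprime_iff_coprime.2 hc))), mul_one]

theorem sum_neg (h : Ok N δ) (X : ℤ) : ∑ j ∈ range δ, J(-1 * j | δ) * X = 0 := by
  simp only [jacobiSym.mul_left, ← sum_mul, ← mul_sum, sum_J h.odd h.sq h.one, mul_zero, zero_mul]

end Ar

open Ar in
theorem ari : ARI := by
  intro N _ δ d M β β' r h hM hS hβ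
  have ok := h.ok
  have h0 := ok.odd.pos.ne'
  have cM : IsCoprime (d : ℤ) M := (Nat.isCoprime_iff_coprime.2 hS.cop).symm
  have dM : (2 * N * δ ^ 3 : ℤ) ∣ M := by exact_mod_cast hM
  have d1 : (δ : ℤ) ∣ M := (Dvd.intro_left (2 * N * δ ^ 2 : ℤ) (by ring)).trans dM
  have d2 : (2 * N : ℤ) ∣ M := (dvd_mul_right _ _).trans dM
  have cβ : IsCoprime β' M := by
    obtain ⟨s, hs⟩ := hS.rt
    obtain ⟨a, b, e⟩ := cM
    exact ⟨-a * β', b + 4 * a * s, by linear_combination e - a * hs⟩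
  have c1 : IsCoprime β' δ := cβ.of_isCoprime_of_dvd_right d1
  have c2 : IsCoprime β' (2 * N) := cβ.of_isCoprime_of_dvd_right d2
  have c3 : IsCoprime (d : ℤ) δ := cM.of_isCoprime_of_dvd_right d1
  have c4 : δ.Coprime d := Nat.isCoprime_iff_coprime.1 c3.symm
  refine ⟨tor ok hM _ _, fun l => sum_congr rfl fun j _ => ?_, fun l => ?_, fun l hl => ?_,
    fun k => ⟨?_, ?_⟩⟩
  · rw [ext_of (x := J(β' | δ)) (j := j) (j' := j) (l := β' • l) (l' := l) (φ' := ph N δ r) h0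
      (fun m' e => ⟨β' • m', ?_, ?_⟩) fun c => ?_, show -β' * j = β' * (-1 * j) by ring,
      jacobiSym.mul_left β']
    · ring
    · rw [← e]
      simp only [up, Prod.smul_mk, Prod.smul_fst, Prod.smul_snd, smul_eq_mul]
      refine Prod.ext rfl (Prod.ext ?_ ?_) <;> simp only <;> ring
    · refine ph_of ⟨fun c => c2.of_mul_right_right.symm.dvd_of_dvd_mul_left c,
        fun c => c.mul_left _⟩ (fun _ => ?_) ?_ (gc_smul ok.sq c1 _)
      · obtain ⟨a, b, e⟩ := c2
        have e1 : (a : ZMod (2 * N)) * β' = 1 := by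
          exact_mod_cast cast_eq (n := 2 * N) (a := a * β') (b := 1) ⟨-b, by
            push_cast; linear_combination e⟩
        rw [← cast_eq (n := 2 * N) (a := β') (b := β) (by exact_mod_cast hβ)]
        simp only [Prod.smul_fst, Prod.smul_snd, smul_eq_mul, Int.cast_mul]
        exact (IsUnit.of_mul_eq_one_right _ e1).mul_right_inj
      · rw [show disc (β' • m') = β' ^ 2 * disc m' by
          simp only [disc, Prod.smul_fst, Prod.smul_snd, smul_eq_mul]; ring]
        exact ⟨fun c => c1.pow_left.symm.dvd_of_dvd_mul_left c, fun c => c.mul_left _⟩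
    · obtain ⟨a, b⟩ := mem_up.1 c
      simp only [Prod.smul_fst, Prod.smul_snd, smul_eq_mul] at a b
      exact mem_up.2 ⟨c1.symm.dvd_of_dvd_mul_left (a.trans (dvd_of_eq (by ring))),
        c1.pow_right.symm.dvd_of_dvd_mul_left (b.trans (dvd_of_eq (by ring)))⟩
  · have key : ∀ j : ℤ, Function.extend (up δ j) (ph N (δ * d) (β * r)) 0 l =
        (if (d : ℤ) ∣ disc l then gc d l else 0) * Function.extend (up δ j) (ph N δ (β * r)) 0 l :=
      fun j => ext_of h0 (fun m e => ⟨m, e, by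
        have e1 : (d : ℤ) ∣ disc l ↔ (d : ℤ) ∣ disc m := by
          rw [← e, disc_up]
          exact ⟨fun c => c3.pow_right.dvd_of_dvd_mul_left c, fun c => c.mul_left _⟩
        have e2 : ((δ * d : ℕ) : ℤ) ∣ disc m ↔ (δ : ℤ) ∣ disc m ∧ (d : ℤ) ∣ disc m := by
          rw [Nat.cast_mul]
          exact ⟨fun c => ⟨(dvd_mul_right _ _).trans c, (dvd_mul_left _ _).trans c⟩,
            fun c => c3.symm.mul_dvd c.1 c.2⟩
        simp only [ph, e1, e2]
        by_cases k : (d : ℤ) ∣ disc m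
        · rw [if_pos k, ← e, gc_up c4 k, gc_def (δ * d), c4.primeFactors_mul,
            prod_union c4.disjoint_primeFactors, ← gc_def, ← gc_def]
          simp only [k, and_true, ite_mul, zero_mul, mul_comm (gc d m)]
        · simp [k]⟩) id
    simp only [twi, key, sum_mul]
    split_ifs
    · exact sum_congr rfl fun j _ => by ring
    · simp
  · obtain ⟨j, -, hj⟩ := exists_ne_zero_of_sum_ne_zero hl
    have h1 := right_ne_zero_of_mul hj
    by_cases k : ∃ m, up δ j m = l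
    · obtain ⟨m, rfl⟩ := k
      rw [(up_inj h0 _).extend_apply] at h1
      obtain ⟨⟨a, ha⟩, hb, ⟨n, hn⟩, -⟩ := ph_ne h1
      refine ⟨n, by rw [disc_up, hn]; push_cast; ring, ?_⟩
      have e1 : (2 * N : ℤ) ∣ m.2.1 - β * r.val := by
        have := (ZMod.intCast_eq_intCast_iff_dvd_sub (β * r.val) m.2.1 (2 * N)).1 (by simp [hb])
        exact_mod_cast this
      obtain ⟨s, hs⟩ := sq_dvd e1
      obtain ⟨t, ht⟩ := h.rt
      have c5 : IsCoprime (4 * N : ℤ) d := by
        have c6 := (cM.of_isCoprime_of_dvd_right d2).symm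
        rw [show (4 * N : ℤ) = 2 * (2 * N) by ring]
        exact c6.of_mul_left_left.mul_left c6
      refine c5.dvd_of_dvd_mul_left ⟨s + 4 * t * r.val ^ 2 - a * m.2.2, ?_⟩
      rw [disc, ha] at hn
      push_cast at hn
      linear_combination hs + (r.val : ℤ) ^ 2 * ht - hn
    · rw [Function.extend_apply' _ _ _ k] at h1
      exact (h1 rfl).elim
  · refine (sum_congr rfl fun j _ => ?_).trans
      (sum_neg ok (Function.extend (up δ 0) (ph N δ (β * r)) 0 (0, 0, k)))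
    rw [ext_of (x := 1) (j' := 0) (l' := (0, 0, k)) (φ' := ph N δ (β * r)) h0
      (fun m e => ⟨m, ?_, (one_mul _).symm⟩) fun c => ?_, one_mul]
    · obtain ⟨a, b, c⟩ := m
      simp only [up, Prod.mk.injEq] at e ⊢
      obtain ⟨rfl, e1, e2⟩ := e
      exact ⟨rfl, by linear_combination e1, by linear_combination e2 + j * e1⟩
    · rw [mem_up] at c ⊢
      simpa using c
  · refine (sum_congr rfl fun j _ => ?_).trans
      (sum_neg ok (if (δ : ℤ) ^ 2 ∣ k then ph N δ (β * r) (k, 0, k / δ ^ 2) else 0))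
    by_cases c : IsCoprime (j : ℤ) δ
    · congr 1
      split_ifs with c'
      · obtain ⟨s, rfl⟩ := c'
        have e : ((δ : ℤ) ^ 2 * s, (0 : ℤ), (0 : ℤ)) =
            up δ j (δ ^ 2 * s, -(2 * δ * s * j), s * j ^ 2) := by
          simp only [up]
          refine Prod.ext rfl (Prod.ext ?_ ?_) <;> simp only <;> ring
        obtain ⟨u, v, uv⟩ := c.pow_left (m := 2)
        have hu : (δ : ℤ) ∣ u * j ^ 2 - 1 := ⟨-v, by linear_combination uv⟩
        have e1 := J_inv hu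
        rw [jacobiSym.sq_one' (Int.isCoprime_iff_gcd_eq_one.1 c), mul_one] at e1
        rw [e, (up_inj h0 _).extend_apply,
          Int.mul_ediv_cancel_left _ (pow_ne_zero 2 (Int.natCast_ne_zero.2 h0)),
          ← one_mul (ph N δ (β * r) (_, 0, s))]
        refine ph_of Iff.rfl (fun c' => ?_) (iff_of_true ⟨0, by simp only [disc]; ring⟩
          ⟨-(4 * δ * s ^ 2), by simp only [disc]; ring⟩) ?_
        · obtain ⟨w, rfl⟩ := (Nat.isCoprime_iff_coprime.2 ok.cop).pow_right.dvd_of_dvd_mul_left c'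
          rw [cast_eq (b := 0) ⟨-(δ * w * j), by push_cast; ring⟩]
        · rw [← e1]
          exact gc_of ok.sq hu ⟨δ * s * (1 - u), by ring⟩ ⟨0, by ring⟩
      · refine Function.extend_apply' _ _ _ fun e => c' ?_
        have := (mem_up.1 e).2
        simp only [zero_mul, sub_zero, zero_add] at this
        exact c.pow.symm.dvd_of_dvd_mul_right this
    · have : J(-1 * j | δ) = 0 := by
        rw [jacobiSym.mul_left, (jacobiSym.eq_zero_iff (a := j)).2
          ⟨h0, fun e => c (Int.isCoprime_iff_gcd_eq_one.2 e)⟩, mul_zero]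
      rw [this, zero_mul, zero_mul]

end Vale.Agent.P004Z.Kf
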