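import Vale.Agent.P004Z.Kf.Se
import Vale.Agent.P004Z.Du.Pets

/-! # P004Z, block G5: Stokes for a series of weight `3/2` -/

open Complex MeasureTheory Filter Topology Set
open scoped Real ComplexConjugate

noncomputable section

namespace Vale.Agent.P004Z.Kf

open Du Du.Pe

variable {N : ℕ} [NeZero N] {δ : ℕ} {X : Fm → ℝ} {e : Fm → ℤ} {T T' : Fm → ℝ → ℂ}
  {r : ZMod (2 * N)}

theorem Ser.le' (h : Ser X T T') : ∃ C, 0 ≤ C ∧ ∀ τ : ℂ, 1 / 2 ≤ τ.im →
    ‖sF X T τ‖ ≤ C * (1 + τ.im) := by
  obtain ⟨u, hu, b⟩ := h.le one_half_pos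
  refine ⟨∑' l, |u l|, tsum_nonneg fun _ => abs_nonneg _, fun τ hτ => ?_⟩
  rw [← tsum_mul_right]
  exact tsum_of_norm_bounded (hu.abs.mul_right _).hasSum fun l =>
    (b l τ hτ).trans (by gcongr; exact le_abs_self _)

theorem Ser.ct (h : Ser X T T') (ok : Ok N δ)
    (sup : ∀ l v, T l v ≠ 0 → X l = e l / (4 * N) ∧ In N δ (e l) r) {a : ℤ → ℂ}
    (ha : ∀ n, a n ≠ 0 → In N δ (-n) r) {v : ℝ} (hv : 0 < v)
    (hs : Summable fun n : ℤ => ‖a n * ee (n * (I * v) / (4 * N))‖) :
    ∫ u in (-(1 / 2) : ℝ)..(1 / 2), (∑' n : ℤ, a n * ee (n * (u + I * v) / (4 * N))) *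
      sF X T (u + I * v) = ∑' l, a (-e l) * T l v := by
  obtain ⟨w, hw, b⟩ := h.le hv
  have s : ∀ u : ℝ, Summable fun l => ‖ee (X l * (u + I * v)) * T l (u + I * v).im‖ := fun u =>
    (hw.mul_right _).of_nonneg_of_le (fun _ => norm_nonneg _) fun l => b l _ (by simp)
  have n0 := N_ne (N := N)
  have key : ∀ l n, a n * T l v ≠ 0 → (X l : ℂ) = e l / (4 * N) ∧
      ((((n + e l) / (4 * N) : ℤ) : ℂ)) = (n + e l) / (4 * N) := fun l n h => by
    obtain ⟨h1, h2⟩ := sup l v (right_ne_zero_of_mul h)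
    obtain ⟨k, hk⟩ := In.dvd ok h2 (ha n (left_ne_zero_of_mul h))
    refine ⟨by rw [h1]; push_cast; rfl, ?_⟩
    have : n + e l = 4 * N * k := by linarith
    rw [this, Int.mul_ediv_cancel_left _ (by simp [NeZero.ne]), ← Int.cast_add, this]
    push_cast
    field_simp
  have s0 := s 0
  simp only [ofReal_zero, zero_add, mul_im, I_re, ofReal_im, mul_zero, I_im, ofReal_re,
    one_mul] at s0
  have S := Pe.ct (k := fun i : Fm × ℤ => (i.2 + e i.1) / (4 * N))
    (summable_mul_of_summable_norm s0 hs).norm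
  refine Eq.trans (intervalIntegral.integral_congr fun u _ => ?_)
    (S.prod_fiberwise fun l => (hasSum_single (-e l) fun n hn => ?_).congr_fun
      fun _ => rfl).tsum_eq.symm |>.trans (tsum_congr fun l => ?_)
  · rw [mul_comm, sF, tsum_mul_tsum_of_summable_norm (s u) (hs.congr fun n => by rw [nt, nt]; simp)]
    refine tsum_congr fun i => ?_
    by_cases h : a i.2 * T i.1 v = 0
    · rcases mul_eq_zero.1 h with h | h <;> simp [h]
    obtain ⟨h1, h2⟩ := key _ _ h
    simp only [h1, h2, add_im, ofReal_im, mul_im, I_re, mul_zero, I_im, ofReal_re, one_mul,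
      zero_add]
    have : ee (e i.1 / (4 * N) * (u + I * v)) * ee (i.2 * (u + I * v) / (4 * N)) =
        ee (e i.1 / (4 * N) * (I * v)) * ee (i.2 * (I * v) / (4 * N)) *
          ee ((i.2 + e i.1) / (4 * N) * u) := by
      simp only [← ee_add]
      congr 1
      ring
    linear_combination a i.2 * T i.1 v * this
  · by_cases h : a n * T l v = 0
    · rcases mul_eq_zero.1 h with h | h <;> simp [h]
    refine if_neg fun k => hn ?_
    have := (key _ _ h).2
    rw [k, Int.cast_zero, eq_comm, div_eq_zero_iff, or_iff_left (by simp [n0])] at this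
    exact eq_neg_of_add_eq_zero_left (by exact_mod_cast this)
  · by_cases h : a (-e l) * T l v = 0
    · rcases mul_eq_zero.1 h with h | h <;> simp [h]
    have : ee (e l / (4 * N) * (I * v)) * ee ((-e l : ℤ) * (I * v) / (4 * N)) = 1 := by
      rw [← ee_add, ← ee_zero]
      congr 1
      push_cast
      ring
    rw [if_pos (by simp), (key _ _ h).1]
    linear_combination a (-e l) * T l v * this

theorem lin_exp {c v : ℝ} (hc : 0 < c) (hv : 0 ≤ v) :
    Real.exp (-c * v) * (1 + v) ≤ (1 + 2 / c) * Real.exp (-(c / 2) * v) := by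
  have h : 1 + v ≤ (1 + 2 / c) * Real.exp (c / 2 * v) :=
    le_trans (by
      have : 2 / c * (c / 2 * v) = v := by field_simp
      nlinarith [div_pos two_pos hc, mul_nonneg hc.le hv])
      (mul_le_mul_of_nonneg_left (Real.add_one_le_exp (c / 2 * v)) (by positivity))
  refine (mul_le_mul_of_nonneg_left h (Real.exp_pos _).le).trans_eq ?_
  rw [mul_left_comm, ← Real.exp_add]
  ring_nf

theorem by_lim (K : Kp N δ) {T T' : ZMod (2 * N) → Fm → ℝ → ℂ} (h : ∀ r, Ser X (T r) (T' r))
    (sup : ∀ r l v, T r l v ≠ 0 → X l = e l / (4 * N) ∧ In N δ (e l) r)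
    (law : ∀ τ : ℂ, 0 < τ.im → ∀ r,
      sF X (T r) (-1 / τ) = τ ^ 2 / hw τ * ∑ s, sm N δ r s * sF X (T s) τ)
    {a : ℤ → ZMod (2 * N) → ℂ} {x : Cf N} {c : PP N} (H : Harm δ a x c) {L : ℂ}
    (hL : Tendsto (fun v => ∑ r, ∑' l, a (-e l) r * T r l v) atTop (𝓝 L)) :
    Tendsto (fun v => ∫ τ in FT v, ∑ r, hf a x r τ * Lo (sF X (T r)) τ) atTop
      (𝓝 (L - pet (fun r => sF X (T r)) (fn x))) := by
  have dp : ∀ r, DifferentiableOn ℂ (fun τ => ∑' n : ℤ, a n r * ee (n * τ / (4 * N))) UH :=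
    fun r => qs_diff (k := id) (H.sum r)
  have cp := fun r => ((dp r).contDiffOn (n := 1) opn).restrict_scalars ℝ
  have cf : ∀ r, ContDiffOn ℝ 1 (hf a x r) UH := fun r => (cp r).add (nh_c1 H.s r)
  have ch : ContDiffOn ℝ 1 (fun τ => ∑ r, hf a x r τ * sF X (T r) τ) UH :=
    ContDiffOn.sum fun r _ => (cf r).mul (h r).main.1
  have df : ∀ {g : ℂ → ℂ}, ContDiffOn ℝ 1 g UH → ∀ τ : ℂ, 0 < τ.im → DifferentiableAt ℝ g τ :=
    fun k τ hτ => (k.contDiffAt (opn.mem_nhds hτ)).differentiableAt one_ne_zero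
  have st := stk _ ch fun τ hτ => ⟨Finset.sum_congr rfl fun r _ => by
      have e1 : sF X (T r) (τ + 1) = tm N δ r * sF X (T r) τ := by
        rw [sF, sF, ← tsum_mul_left, add_im, one_im, add_zero]
        refine tsum_congr fun l => ?_
        by_cases k : T r l τ.im = 0
        · simp [k]
        rw [← (tm_iff K.ok _ r).2 (sup r l _ k).2, ← mul_assoc, ← ee_add, (sup r l _ k).1]
        congr 2
        push_cast
        ring
      have e2 : hf a x r (τ + 1) = conj (tm N δ r) * hf a x r τ := by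
        rw [hf, hf, nh_T K.ok H.s, mul_add, ← tsum_mul_left]
        refine congrArg (· + _) (tsum_congr fun n => ?_)
        by_cases k : a n r = 0
        · simp [k]
        rw [← (tm_iff' K.ok n r).2 (H.sup n r k), mul_left_comm, ← ee_add]
        congr 2
        ring
      rw [e1, e2, mul_mul_mul_comm, mul_comm (conj _), tm_conj, one_mul], by
      have := hw_ne hτ
      simp only [H.law τ hτ, law τ hτ, mul_mul_mul_comm (hw τ), ← Finset.mul_sum,
        mul_comm (∑ s, conj (sm N δ _ s) * _), K.pair, mul_comm (hf a x _ τ)]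
      field_simp⟩
  obtain ⟨C, C0, b⟩ := all_le (c := π / (2 * N) / 2) (g := fun r τ => nh x r τ * sF X (T r) τ)
    fun r => by
      obtain ⟨A, A0, a1⟩ := nh_le H.s
      obtain ⟨B, B0, b1⟩ := (h r).le'
      have := c_pos (N := N)
      refine ⟨A * B * (1 + 2 / (π / (2 * N))), by positivity, fun τ hτ => ?_⟩
      rw [norm_mul, mul_assoc]
      refine (mul_le_mul (a1 r τ hτ) (b1 τ hτ) (norm_nonneg _) (by positivity)).trans ?_
      rw [mul_mul_mul_comm]
      exact mul_le_mul_of_nonneg_left (lin_exp this (by linarith)) (by positivity)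
  let G : ℂ → ℂ := fun τ => (∑ r, sF X (T r) τ * conj (fn x r τ)) * (τ.im ^ (-(1 / 2) : ℝ) : ℝ)
  have iG : IntegrableOn G FD := by
    obtain ⟨D, D0, d⟩ := all_le (c := π / (2 * N) / 2)
      (g := fun r τ => sF X (T r) τ * conj (fn x r τ)) fun r => by
        obtain ⟨A, A0, a1⟩ := fn_le H.s
        obtain ⟨B, B0, b1⟩ := (h r).le'
        have := c_pos (N := N)
        refine ⟨A * B * (1 + 2 / (π / (2 * N))), by positivity, fun τ hτ => ?_⟩
        rw [norm_mul, mul_assoc, norm_conj, mul_comm]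
        refine (mul_le_mul (a1 r τ hτ) (b1 τ hτ) (norm_nonneg _) (by positivity)).trans ?_
        rw [mul_mul_mul_comm]
        exact mul_le_mul_of_nonneg_left (lin_exp this (by linarith)) (by positivity)
    refine int_FD (half_pos (c_pos (N := N))) ((continuousOn_finsetSum _ fun r _ =>
      (h r).main.1.continuousOn.mul (continuous_conj.comp_continuousOn
        (fn_dec H.s r).diff.continuousOn)).mul (pw_cont _))
      (C := (1 / 2) ^ (-(1 / 2) : ℝ) * ∑ _r : ZMod (2 * N), D) fun τ hτ => ?_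
    rw [norm_mul, mul_comm, mul_assoc, Finset.sum_mul, norm_real,
      Real.norm_of_nonneg (Real.rpow_nonneg (by linarith) _)]
    exact mul_le_mul (Real.rpow_le_rpow_of_nonpos one_half_pos hτ (by norm_num))
      (norm_sum_le_of_le _ fun r _ => d r τ hτ) (norm_nonneg _) (by positivity)
  have t1 : Tendsto (fun v => ∫ τ in FT v, G τ) atTop (𝓝 (∫ τ in FD, G τ)) := by
    have u : ⋃ v, FT v = FD := subset_antisymm (iUnion_subset fun _ => inter_subset_left)
      fun τ hτ => mem_iUnion.2 ⟨τ.im, hτ, le_refl τ.im⟩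
    exact u ▸ tendsto_setIntegral_of_monotone (fun v => (Sk.compact_FT v).measurableSet)
      (fun v w hv => inter_subset_inter_right _ fun τ hτ => le_trans hτ hv) (u.symm ▸ iG)
  have t2 : Tendsto (fun v : ℝ => ∑ r, ∫ u in (-(1 / 2) : ℝ)..(1 / 2),
      nh x r (u + I * v) * sF X (T r) (u + I * v)) atTop (𝓝 (∑ _r : ZMod (2 * N), 0)) :=
    tendsto_finsetSum _ fun r _ => squeeze_zero_norm' ((eventually_ge_atTop (1 / 2)).mono
      fun v hv => intervalIntegral.norm_integral_le_of_norm_le_const (C := C * Real.exp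
        (-(π / (2 * N) / 2) * v)) fun u _ => by simpa using b r (u + I * v) (by simpa using hv))
      (by simpa using ((Real.tendsto_exp_atBot.comp (tendsto_id.const_mul_atTop_of_neg
        (neg_neg_of_pos (half_pos (c_pos (N := N)))))).const_mul C).mul_const _)
  rw [Finset.sum_const_zero] at t2
  refine (add_zero L ▸ (hL.add t2).sub t1).congr' ((eventually_ge_atTop 1).mono fun v hv => ?_)
  have v0 : 0 < v := by linarith
  have ci : ∀ {g : ℂ → ℂ}, ContinuousOn g UH →
      IntervalIntegrable (fun u : ℝ => g (u + I * v)) volume (-(1 / 2)) (1 / 2) := fun k =>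
    (k.comp_continuous (by fun_prop) fun u => by simpa using v0).intervalIntegrable _ _
  have iL : IntegrableOn (Lo fun τ => ∑ r, hf a x r τ * sF X (T r) τ) (FT v) := by
    have := (ch.continuousOn_fderiv_of_isOpen opn le_rfl).mono fun τ (k : τ ∈ FT v) => k.1.2.2
    exact ((this.clm_apply continuousOn_const).sub (continuousOn_const.mul
      (this.clm_apply continuousOn_const))).integrableOn_compact (Sk.compact_FT v)
  have e1 : _ = ∫ u in (-(1 / 2) : ℝ)..(1 / 2), ∑ r, hf a x r (u + I * v) *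
      sF X (T r) (u + I * v) := st v hv
  rw [intervalIntegral.integral_finsetSum fun r _ => ci ((cf r).mul (h r).main.1).continuousOn]
    at e1
  simp only [← fun r => (h r).ct K.ok (sup r) (fun n => H.sup n r) v0 (H.sum r _ (by simpa))]
  rw [← Finset.sum_add_distrib, ← Finset.sum_congr rfl fun r _ => intervalIntegral.integral_add
    (ci ((cp r).mul (h r).main.1).continuousOn) (ci ((nh_c1 H.s r).mul (h r).main.1).continuousOn)]
  simp only [← add_mul]
  refine (congrArg (· - _) e1.symm).trans ((integral_sub iL (iG.mono_set inter_subset_left)).symm.trans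
    (setIntegral_congr_fun (Sk.compact_FT v).measurableSet fun τ k => ?_))
  have p : 0 < τ.im := k.1.2.2
  simp only [G]
  rw [Lo_sum _ fun r _ => df ((cf r).mul (h r).main.1) τ p, Finset.sum_mul, ← Finset.sum_sub_distrib]
  refine Finset.sum_congr rfl fun r _ => ?_
  rw [Lo_mul (df (cf r) τ p) (df (h r).main.1 τ p), show Lo (hf a x r) τ = _ from
    Lo_add (df (cp r) τ p) (df (nh_c1 H.s r) τ p), Lo_hol ((dp r).differentiableAt
      (opn.mem_nhds p)), ((hfb N δ K.ok x H.s r).2.1 τ p).1]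
  ring

end Vale.Agent.P004Z.Kf
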