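import Vale.Agent.P004Z.Hd.Bas

/-!
# P004Z, block G5, the count: ideals of `ℤ[(1 + √-d)/2]` and forms
-/

set_option autoImplicit false
set_option linter.all false

open QuadraticAlgebra Ideal
open scoped MatrixGroups

noncomputable section

namespace Vale.Agent.P004Z.Kf.Cn

open Hd

/-- the maximal order of discriminant `1 - 4 e` -/
abbrev R (e : ℤ) : Type := QuadraticAlgebra ℤ (-e) 1

variable {e : ℤ}

theorem nm_cast (z : R e) : ((z.norm : ℤ) : R e) = z * star z := algebraMap_norm_eq_mul_star z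

theorem nm4 (z : R e) : 4 * z.norm = (2 * z.re + z.im) ^ 2 + (4 * e - 1) * z.im ^ 2 := by
  rw [norm_def]
  ring

theorem cast_dvd {k : ℤ} {z : R e} : (k : R e) ∣ z ↔ k ∣ z.re ∧ k ∣ z.im := algebraMap_dvd_iff

/-- `√-d` -/
def dl (e : ℤ) : R e := ⟨-1, 2⟩

theorem dl_sq : dl e * dl e = ((1 - 4 * e : ℤ) : R e) := by
  ext <;> simp only [dl, re_mul, im_mul, re_intCast, im_intCast, Int.cast_id] <;> ring

theorem star_dl : star (dl e) = -dl e := by ext <;> simp [dl]

theorem nm_dl : (dl e).norm = 4 * e - 1 := by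
  simp only [norm_def, dl]
  ring

/-- the conjugate ideal -/
def cj (I : Ideal (R e)) : Ideal (R e) := I.map (starRingEnd (R e))

theorem mem_cj {I : Ideal (R e)} {x : R e} : x ∈ cj I ↔ star x ∈ I := by
  rw [cj, mem_map_iff_of_surjective (starRingEnd (R e)) star_involutive.surjective]
  exact ⟨fun ⟨y, h, k⟩ => by rw [← k, starRingEnd_apply, star_star]; exact h,
    fun h => ⟨_, h, star_star x⟩⟩

theorem cj_cj (I : Ideal (R e)) : cj (cj I) = I := by
  ext x
  rw [mem_cj, mem_cj, star_star]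

theorem cj_mul (I J : Ideal (R e)) : cj (I * J) = cj I * cj J := Ideal.map_mul _ _ _

theorem cj_sup (I J : Ideal (R e)) : cj (I ⊔ J) = cj I ⊔ cj J := Ideal.map_sup _ _ _

theorem cj_span (x : R e) : cj (span {x}) = span {star x} := by
  rw [cj, map_span, Set.image_singleton, starRingEnd_apply]

theorem cj_int (k : ℤ) : cj (span {(k : R e)}) = span {(k : R e)} := by rw [cj_span, star_intCast]

theorem cj_le {I J : Ideal (R e)} (h : I ≤ J) : cj I ≤ cj J := map_mono h

/-- `I` has norm `m` -/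
def Nm (I : Ideal (R e)) (m : ℤ) : Prop := I * cj I = span {(m : R e)}

theorem Nm.mul {I J : Ideal (R e)} {m n : ℤ} (h : Nm I m) (k : Nm J n) : Nm (I * J) (m * n) := by
  rw [Nm, cj_mul, mul_mul_mul_comm, h, k, span_singleton_mul_span_singleton, Int.cast_mul]

theorem nm_span (x : R e) : Nm (span {x}) x.norm := by
  rw [Nm, cj_span, span_singleton_mul_span_singleton, nm_cast]

theorem Nm.st {I : Ideal (R e)} {m : ℤ} (h : Nm I m) : Nm (cj I) m := by
  rw [Nm, cj_cj, mul_comm, h]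

theorem Nm.mem {I : Ideal (R e)} {m : ℤ} (h : Nm I m) {x y : R e} (hx : x ∈ I) (hy : y ∈ I) :
    (m : R e) ∣ x * star y := by
  rw [← mem_span_singleton, ← h]
  exact mul_mem_mul hx (mem_cj.2 (by rwa [star_star]))

theorem Nm.dvd {I : Ideal (R e)} {m : ℤ} (h : Nm I m) {x : R e} (hx : x ∈ I) : m ∣ x.norm := by
  have := h.mem hx hx
  rw [← nm_cast] at this
  exact (cast_dvd.1 this).1

theorem Nm.self {I : Ideal (R e)} {m : ℤ} (h : Nm I m) : (m : R e) ∈ I :=
  (Ideal.mul_le_left : I * cj I ≤ I) (h.ge (mem_span_singleton_self _))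

theorem ex_div {I : Ideal (R e)} {x : R e} (h : I ≤ span {x}) : ∃ J, I = span {x} * J := by
  refine ⟨Submodule.comap (LinearMap.mulLeft (R e) x) I, le_antisymm (fun y hy => ?_) ?_⟩
  · obtain ⟨z, rfl⟩ := mem_span_singleton.1 (h hy)
    exact mul_mem_mul (mem_span_singleton_self x) hy
  · exact span_singleton_mul_le_iff.2 fun z hz => hz

/-! ### the ideal of a form -/

/-- `(-b + √-d)/2` -/
def th (e : ℤ) (Q : Fm) : R e := ⟨-((Q.2.1 + 1) / 2), 1⟩

def aQ (e : ℤ) (Q : Fm) : Ideal (R e) := span {(Q.1 : R e), th e Q}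

def el (e : ℤ) (Q : Fm) (u v : ℤ) : R e := u * Q.1 - v * th e Q

section form

variable {Q : Fm}

theorem ex_s (h : disc Q = 1 - 4 * e) :
    ∃ s, Q.2.1 = 2 * s - 1 ∧ th e Q = ⟨-s, 1⟩ ∧ e = Q.1 * Q.2.2 - s ^ 2 + s := by
  rcases Int.even_or_odd' Q.2.1 with ⟨k, a | a⟩ <;> rw [disc, a] at h
  · have : 4 * (k ^ 2 - Q.1 * Q.2.2 + e) = 1 := by linear_combination h
    omega
  · refine ⟨k + 1, by omega, ?_, by nlinarith⟩
    rw [th]
    congr 2
    omega

theorem th_add (h : disc Q = 1 - 4 * e) : th e Q + star (th e Q) = -(Q.2.1 : R e) := by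
  obtain ⟨s, a, b, c⟩ := ex_s h
  ext <;> simp [a, b]
  ring

theorem th_mul (h : disc Q = 1 - 4 * e) : th e Q * star (th e Q) = Q.1 * Q.2.2 := by
  obtain ⟨s, a, b, c⟩ := ex_s h
  ext <;> simp [b]
  linear_combination c

theorem th_dl (h : disc Q = 1 - 4 * e) : 2 * th e Q + Q.2.1 = dl e := by
  obtain ⟨s, a, b, c⟩ := ex_s h
  ext <;> simp [a, b, dl]
  ring

theorem th_sq (h : disc Q = 1 - 4 * e) : th e Q ^ 2 = -Q.2.1 * th e Q - Q.1 * Q.2.2 := by
  linear_combination th e Q * th_add h - th_mul h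

theorem star_el (u v : ℤ) : star (el e Q u v) = u * Q.1 - v * star (th e Q) := by
  simp only [el, star_sub, star_mul', star_intCast]

theorem nm_el (h : disc Q = 1 - 4 * e) (u v : ℤ) : (el e Q u v).norm = Q.1 * val Q u v := by
  refine Int.cast_injective (α := R e) ?_
  rw [nm_cast, star_el, el, val]
  push_cast
  linear_combination (-(u * v * Q.1 : R e)) * th_add h + (v : R e) ^ 2 * th_mul h

theorem el_mem (u v : ℤ) : el e Q u v ∈ aQ e Q :=
  sub_mem (mul_mem_left _ _ (subset_span (by simp))) (mul_mem_left _ _ (subset_span (by simp)))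

theorem dec (Q : Fm) (r : R e) : ∃ u v : ℤ, r = u + v * th e Q :=
  ⟨r.re + (Q.2.1 + 1) / 2 * r.im, r.im, by ext <;> simp [th]; ring⟩

theorem mem_aQ (h : disc Q = 1 - 4 * e) {x : R e} : x ∈ aQ e Q ↔ ∃ u v, x = el e Q u v := by
  refine ⟨fun hx => ?_, fun ⟨u, v, a⟩ => a ▸ el_mem u v⟩
  obtain ⟨r, r', rfl⟩ := mem_span_pair.1 hx
  obtain ⟨a, b, rfl⟩ := dec Q r
  obtain ⟨c, d, rfl⟩ := dec Q r'
  refine ⟨a - d * Q.2.2, d * Q.2.1 - c - b * Q.1, ?_⟩
  rw [el]
  push_cast
  linear_combination (d : R e) * th_sq h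

theorem prim (hs : Squarefree (4 * e - 1)) (h : disc Q = 1 - 4 * e) :
    ∃ x y z : ℤ, x * Q.1 + y * Q.2.1 + z * Q.2.2 = 1 := by
  have a : IsCoprime (Int.gcd Q.1 Q.2.1 : ℤ) Q.2.2 := cop_of fun p hp a b => by
    obtain ⟨x, hx⟩ := a.trans (Int.gcd_dvd_left _ _)
    obtain ⟨y, hy⟩ := a.trans (Int.gcd_dvd_right _ _)
    obtain ⟨z, hz⟩ := b
    rw [disc, hx, hy, hz] at h
    exact (Nat.prime_iff_prime_int.1 hp).not_unit (hs p ⟨4 * x * z - y ^ 2, by
      linear_combination h⟩)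
  obtain ⟨u, v, a⟩ := a
  rw [Int.gcd_eq_gcd_ab] at a
  exact ⟨u * Q.1.gcdA Q.2.1, u * Q.1.gcdB Q.2.1, v, by linear_combination a⟩

theorem nm_aQ (hs : Squarefree (4 * e - 1)) (h : disc Q = 1 - 4 * e) : Nm (aQ e Q) Q.1 := by
  refine le_antisymm (mul_le.2 fun x hx y hy => mem_span_singleton.2 ?_)
    ((span_singleton_le_iff_mem _).2 ?_)
  · obtain ⟨a, b, rfl⟩ := (mem_aQ h).1 hx
    obtain ⟨c, d, k⟩ := (mem_aQ h).1 (mem_cj.1 hy)
    rw [← star_star y, k, star_el, el]
    exact ⟨a * c * Q.1 - a * d * star (th e Q) - b * c * th e Q + b * d * Q.2.2, by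
      linear_combination (b * d : R e) * th_mul h⟩
  · obtain ⟨x, y, z, k⟩ := prim hs h
    have a : (Q.1 : R e) ∈ aQ e Q := subset_span (by simp)
    have b : th e Q ∈ aQ e Q := subset_span (by simp)
    have a' : (Q.1 : R e) ∈ cj (aQ e Q) := mem_cj.2 (by rwa [star_intCast])
    have b' : star (th e Q) ∈ cj (aQ e Q) := mem_cj.2 (by rwa [star_star])
    have k' := congrArg (Int.cast (R := R e)) k
    push_cast at k'
    convert add_mem (sub_mem (mul_mem_left _ (x : R e) (mul_mem_mul a a')) (mul_mem_left _ (y : R e)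
      (add_mem (mul_mem_mul a b') (mul_mem_mul b a')))) (mul_mem_left _ (z : R e)
      (mul_mem_mul b b')) using 1
    linear_combination (-(Q.1 : R e)) * k' + (y * Q.1 : R e) * th_add h - (z : R e) * th_mul h

theorem two_can {x y : R e} (h : 2 * x = 2 * y) : x = y := by
  have a := congrArg QuadraticAlgebra.re h
  have b := congrArg QuadraticAlgebra.im h
  simp at a b
  ext <;> assumption

theorem el_el (h : disc Q = 1 - 4 * e) (γ : SL(2, ℤ)) :
    star (el e Q (γ 0 0) (γ 1 0)) * el e Q (γ 0 1) (γ 1 1) = -Q.1 * th e (fa Q γ) := by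
  have a := th_dl ((disc_fa Q γ).trans h)
  have k := congrArg (Int.cast (R := R e)) (det' γ)
  have : 2 * (star (el e Q (γ 0 0) (γ 1 0)) * el e Q (γ 0 1) (γ 1 1)) =
      2 * (-Q.1 * th e (fa Q γ)) := by
    simp only [fa] at a ⊢
    rw [star_el, el]
    push_cast at a k
    linear_combination (Q.1 : R e) * a - (Q.1 : R e) * th_dl h -
      (2 * γ 0 1 * γ 1 0 * Q.1 : R e) * th_add h + (2 * γ 1 0 * γ 1 1 : R e) * th_mul h -
      (2 * Q.1 * th e Q + Q.1 * Q.2.1) * k
  exact two_can this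

/-- equivalent forms have equivalent ideals -/
theorem aQ_fa (h : disc Q = 1 - 4 * e) (γ : SL(2, ℤ)) :
    span {(Q.1 : R e)} * aQ e (fa Q γ) = span {star (el e Q (γ 0 0) (γ 1 0))} * aQ e Q := by
  have h' := (disc_fa Q γ).trans h
  have a := el_el h γ
  have b := nm_cast (el e Q (γ 0 0) (γ 1 0))
  rw [nm_el h, show val Q (γ 0 0) (γ 1 0) = (fa Q γ).1 from rfl] at b
  have k := congrArg (Int.cast (R := R e)) (det' γ)
  push_cast at b k
  refine le_antisymm (span_singleton_mul_le_span_singleton_mul.2 fun x hx => ?_)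
    (span_singleton_mul_le_span_singleton_mul.2 fun x hx => ?_)
  · obtain ⟨u, v, rfl⟩ := (mem_aQ h').1 hx
    refine ⟨_, add_mem (mul_mem_left _ (u : R e) (el_mem (γ 0 0) (γ 1 0)))
      (mul_mem_left _ (v : R e) (el_mem (γ 0 1) (γ 1 1))), ?_⟩
    rw [el]
    linear_combination (u : R e) * b - (v : R e) * a
  · obtain ⟨u, v, rfl⟩ := (mem_aQ h).1 hx
    refine ⟨_, el_mem (γ 1 1 * u - γ 0 1 * v) (γ 0 0 * v - γ 1 0 * u), ?_⟩
    generalize star (el e Q (γ 0 0) (γ 1 0)) = y at a b ⊢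
    simp only [el] at a b ⊢
    push_cast
    linear_combination (γ 0 0 * v - γ 1 0 * u : R e) * a - (γ 1 1 * u - γ 0 1 * v : R e) * b -
      y * (u * Q.1 - v * th e Q) * k

end form

theorem gen (S : Ideal ℤ) {x : ℤ} (h : x ∈ S) (h0 : x ≠ 0) : ∃ a, 0 < a ∧ ∀ y, y ∈ S ↔ a ∣ y := by
  obtain ⟨a, rfl⟩ := (IsPrincipalIdealRing.principal S).1
  refine ⟨|a|, abs_pos.2 fun k => h0 ?_, fun y => by rw [abs_dvd]; exact mem_span_singleton⟩
  simpa [k] using h

variable [he : Fact (1 < e)]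

theorem nm_pos {z : R e} (h : z ≠ 0) : 0 < z.norm := by
  have := nm4 z
  have := he.out
  by_cases k : z.im = 0
  · have : z.re ≠ 0 := fun j => h (by ext <;> simp [j, k])
    rw [norm_def, k]
    simpa using this
  · nlinarith [sq_nonneg (2 * z.re + z.im), sq_pos_of_ne_zero k]

instance : IsDomain (R e) := @NoZeroDivisors.to_isDomain _ _ _ ⟨fun {a b} h => by
  by_contra k
  rw [not_or] at k
  have := mul_pos (nm_pos k.1) (nm_pos k.2)
  rw [← map_mul, h, QuadraticAlgebra.norm_zero] at this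
  exact lt_irrefl _ this⟩

theorem span_pm {x y : R e} (h : span {x} = span {y}) : x = y ∨ x = -y := by
  obtain ⟨u, rfl⟩ := (span_singleton_eq_span_singleton.1 h).symm
  have a := Int.isUnit_iff.1 (isUnit_iff_norm_isUnit.1 u.isUnit)
  have b := nm_pos u.ne_zero
  have c := nm4 (u : R e)
  have := he.out
  rw [a.resolve_right (by omega)] at c
  have k : (u : R e).im = 0 := by
    by_contra k
    nlinarith [sq_nonneg (2 * (u : R e).re + (u : R e).im), sq_pos_of_ne_zero k]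
  have j : (u : R e).re * (u : R e).re = 1 := by
    rw [k] at c
    linarith
  rcases Int.eq_one_or_neg_one_of_mul_eq_one j with j | j
  · left
    ext <;> simp [j, k]
  · right
    ext <;> simp [j, k]

theorem Nm.uniq {I : Ideal (R e)} {m n : ℤ} (h : Nm I m) (k : Nm I n) (a : 0 < m) (b : 0 < n) :
    m = n := by
  rcases span_pm (h.symm.trans k) with j | j
  · exact_mod_cast j
  · have : m = -n := by exact_mod_cast j
    omega

theorem Nm.ne {I : Ideal (R e)} {m : ℤ} (h : Nm I m) (a : m ≠ 0) : I ≠ ⊥ := fun k =>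
  a (by simpa [k] using h.self)

theorem Nm.cancel {I J J' : Ideal (R e)} {m : ℤ} (h : Nm I m) (a : m ≠ 0) (k : I * J = I * J') :
    J = J' := by
  have : cj I * (I * J) = cj I * (I * J') := by rw [k]
  rw [← mul_assoc, ← mul_assoc, mul_comm (cj I), h] at this
  exact (span_singleton_mul_right_inj (Int.cast_ne_zero.2 a)).1 this

theorem Nm.div {I J : Ideal (R e)} {k m : ℤ} (h : Nm I k) (a : k ≠ 0) (b : Nm (I * J) (k * m)) :
    Nm J m := by
  rw [Nm, cj_mul, mul_mul_mul_comm, h, Int.cast_mul, ← span_singleton_mul_span_singleton] at b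
  exact (span_singleton_mul_right_inj (Int.cast_ne_zero.2 a)).1 b

/-- to contain is to divide -/
theorem Nm.fac {I J : Ideal (R e)} {k : ℤ} (h : Nm I k) (a : k ≠ 0) (b : J ≤ I) :
    ∃ J', J = I * J' := by
  obtain ⟨J', c⟩ := ex_div ((mul_mono_left b : J * cj I ≤ _).trans (le_of_eq h))
  refine ⟨J', h.st.cancel a ?_⟩
  rw [mul_comm, c, ← mul_assoc, mul_comm (cj I), h]

theorem pr_div {I : Ideal (R e)} {x y : R e} (a : x ≠ 0) (h : span {x} * I = span {y}) :
    ∃ z, I = span {z} ∧ x * z = y := by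
  obtain ⟨z, rfl⟩ := mem_span_singleton.1 ((Ideal.mul_le_left : span {x} * I ≤ _)
    (h.ge (mem_span_singleton_self y)))
  exact ⟨z, (span_singleton_mul_right_inj a).1 (by rw [h, span_singleton_mul_span_singleton]), rfl⟩

/-- Hermite normal form -/
theorem hnf {I : Ideal (R e)} (h : I ≠ ⊥) : ∃ (c : ℤ) (Q : Fm), 0 < c ∧ 0 < Q.1 ∧
    disc Q = 1 - 4 * e ∧ I = span {(c : R e)} * aQ e Q := by
  obtain ⟨x, hx, x0⟩ := (Submodule.ne_bot_iff _).1 h
  have n1 : ((x.norm : ℤ) : R e) ∈ I := nm_cast x ▸ mul_mem_right _ _ hx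
  obtain ⟨a, a0, ha⟩ := gen (I.comap (Int.castRingHom (R e))) n1 (nm_pos x0).ne'
  have ha : ∀ y : ℤ, (y : R e) ∈ I ↔ a ∣ y := ha
  have im : ∀ y ∈ I, y.im ∈ (I.restrictScalars ℤ).map (imₗ (-e) 1) := fun y hy => ⟨y, hy, rfl⟩
  have w := im _ (mul_mem_right ω _ ((ha a).2 dvd_rfl))
  obtain ⟨c, c0, hc⟩ := gen _ w (by simpa using a0.ne')
  obtain ⟨y, hy, ey⟩ := (hc c).2 dvd_rfl
  have ey : y.im = c := ey
  have hy : y ∈ I := hy
  obtain ⟨A, rfl⟩ : c ∣ a := by simpa using (hc _).1 w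
  obtain ⟨s, es⟩ : c ∣ -y.re := by simpa [ey] using (hc _).1 (im _ (mul_mem_right ω _ hy))
  have e1 : y = c * (⟨-s, 1⟩ : R e) := by ext <;> simp [ey, ← es]
  obtain ⟨C, eC⟩ : A ∣ (⟨-s, 1⟩ : R e).norm := by
    rw [← mul_dvd_mul_iff_left c0.ne', ← ha, Int.cast_mul, nm_cast, ← mul_assoc, ← e1]
    exact mul_mem_right _ _ hy
  have e2 : th e (A, 2 * s - 1, C) = ⟨-s, 1⟩ := by simp [th]
  have e3 : disc (A, 2 * s - 1, C) = 1 - 4 * e := by
    simp only [norm_def, disc] at eC ⊢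
    linear_combination 4 * eC
  refine ⟨c, (A, 2 * s - 1, C), c0, (mul_pos_iff_of_pos_left c0).1 a0, e3,
    le_antisymm (fun z hz => ?_) (span_singleton_mul_le_iff.2 fun z hz => ?_)⟩
  · obtain ⟨v, ev⟩ := (hc _).1 (im z hz)
    have e4 : z - v * y = (z.re - v * y.re : ℤ) := by ext <;> simp [ev, ey, mul_comm]
    obtain ⟨u, eu⟩ := (ha _).1 (e4 ▸ sub_mem hz (mul_mem_left _ _ hy))
    refine mem_span_singleton_mul.2 ⟨_, el_mem u (-v), ?_⟩
    rw [eu, e1] at e4
    rw [el, e2]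
    push_cast at e4 ⊢
    linear_combination -e4
  · obtain ⟨u, v, rfl⟩ := (mem_aQ e3).1 hz
    convert sub_mem (mul_mem_left _ (u : R e) ((ha _).2 dvd_rfl)) (mul_mem_left _ (v : R e) hy)
      using 1
    rw [el, e2, e1]
    push_cast
    ring

theorem half {Q Q' : Fm} {α α' : R e} (h : disc Q = 1 - 4 * e) (h' : disc Q' = 1 - 4 * e)
    (k : span {α'} * aQ e Q' ≤ span {α} * aQ e Q) : ∃ p q r s : ℤ,
    α' * Q'.1 = α * el e Q p r ∧ -(α' * th e Q') = α * el e Q q s ∧
    α.norm * Q.1 * (p * s - q * r) = α'.norm * Q'.1 := by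
  obtain ⟨x, hx, a⟩ := span_singleton_mul_le_span_singleton_mul.1 k _ (el_mem 1 0)
  obtain ⟨y, hy, b⟩ := span_singleton_mul_le_span_singleton_mul.1 k _ (el_mem 0 1)
  obtain ⟨p, r, rfl⟩ := (mem_aQ h).1 hx
  obtain ⟨q, s, rfl⟩ := (mem_aQ h).1 hy
  have a : α' * Q'.1 = α * el e Q p r := by simpa [el] using a
  have b : -(α' * th e Q') = α * el e Q q s := by simpa [el] using b
  refine ⟨p, q, r, s, a, b, ?_⟩
  have c : (α.norm : ℤ) * (star (el e Q p r) * el e Q q s) =
      -((α'.norm : ℤ) * Q'.1 * th e Q') := by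
    have a' := congrArg star a
    simp only [star_mul', star_intCast] at a'
    rw [nm_cast, nm_cast]
    linear_combination (-(α * el e Q q s)) * a' - (star α' * Q'.1) * b
  have := congrArg QuadraticAlgebra.im c
  simp [el, th] at this
  linear_combination -this

/-- equivalent ideals come from equivalent forms -/
theorem fa_of {Q Q' : Fm} {α α' : R e} (h : disc Q = 1 - 4 * e) (h' : disc Q' = 1 - 4 * e)
    (p0 : 0 < Q.1) (p0' : 0 < Q'.1) (a0 : α ≠ 0) (a0' : α' ≠ 0)
    (k : span {α} * aQ e Q = span {α'} * aQ e Q') : ∃ γ, fa Q γ = Q' := by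
  obtain ⟨p, q, r, s, a, b, c⟩ := half h h' k.ge
  obtain ⟨p', q', r', s', -, -, c'⟩ := half h' h k.le
  have n := mul_pos (nm_pos a0) p0
  have n' := mul_pos (nm_pos a0') p0'
  have d1 : p * s - q * r = 1 := by
    have : (p * s - q * r) * (p' * s' - q' * r') = 1 := mul_left_cancel₀ n.ne' (by
      linear_combination (p' * s' - q' * r') * c + c')
    rcases Int.eq_one_or_neg_one_of_mul_eq_one this with j | j
    · exact j
    · rw [j] at c
      omega
  rw [d1, mul_one] at c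
  refine ⟨mk p q r s d1, ?_⟩
  have e1 : (fa Q (mk p q r s d1)).1 = Q'.1 := by
    have := congrArg QuadraticAlgebra.norm a
    rw [map_mul, map_mul, nm_el h, norm_intCast] at this
    exact mul_left_cancel₀ n.ne' (by
      change _ * val Q p r = _
      simp only [Int.cast_id] at this
      linear_combination -Q'.1 * c - this)
  have e2 : th e (fa Q (mk p q r s d1)) = th e Q' := by
    have j : star (el e Q p r) * el e Q q s = _ := el_el h (mk p q r s d1)
    have a' := congrArg star a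
    have c := congrArg (Int.cast (R := R e)) c
    simp only [star_mul', star_intCast] at a'
    simp only [Int.cast_mul, nm_cast] at c
    refine mul_left_cancel₀ (Int.cast_ne_zero.2 n.ne') ?_
    simp only [Int.cast_mul, nm_cast]
    linear_combination (α * star α) * j + (α * el e Q q s) * a' + (star α' * Q'.1) * b -
      th e Q' * c
  have h1 := (disc_fa Q (mk p q r s d1)).trans h
  have e3 : (fa Q (mk p q r s d1)).2.1 = Q'.2.1 := by
    have := th_dl h1
    rw [e2, ← th_dl h'] at this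
    exact_mod_cast add_left_cancel this
  refine Prod.ext e1 (Prod.ext e3 (mul_left_cancel₀ p0'.ne' ?_))
  rw [disc, e1, e3] at h1
  rw [disc] at h'
  linarith

end Vale.Agent.P004Z.Kf.Cn
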