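import Vale.Agent.P004Z.Kf.Lw
import Vale.Agent.P004Z.Kf.Ari
import Vale.Agent.P004Z.Th.Ths
import Vale.Agent.P004Z.Th.Phi
import Vale.Agent.P004Z.Th.Gau

/-! # P004Z, block G5: the data and the inversion laws -/

open Complex MeasureTheory Filter Topology Set
open scoped Real ComplexConjugate NumberTheorySymbols UpperHalfPlane

noncomputable section

namespace Vale.Agent.P004Z.Kf

open Du

variable {N : ℕ} [NeZero N] {δ d M : ℕ} {β β' : ℤ} {τ z : ℂ}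

theorem th_lin {ν : ℕ} (hν : 0 < ν) (hτ : 0 < τ.im) (hz : 0 < z.im) (g : ZMod (2 * N) → ℂ)
    {φ : ZMod (2 * N) → Fm → ℂ} (h : ∀ r l, ‖φ r l‖ ≤ 1) :
    th0 ν (fun l => ∑ r, g r * φ r l) τ z = ∑ r, g r * th0 ν (φ r) τ z ∧
    th1 ν (fun l => ∑ r, g r * φ r l) τ z = ∑ r, g r * th1 ν (φ r) τ z := by
  have k : ∀ G : Fm → ℂ, (Summable fun l => ‖G l‖) →
      ∑' l, (∑ r, g r * φ r l) * G l = ∑ r, g r * ∑' l, φ r l * G l := fun G hG =>
    ((hasSum_sum fun r _ => (bsum (h r) hG).of_norm.hasSum.mul_left (g r)).congr_fun fun l => by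
      simp only [Finset.sum_mul, mul_assoc]).tsum_eq
  have s := gsum hν hτ hz
  simp only [th0, th1, mul_assoc, k _ s.1, k _ s.2]
  simp only [Finset.mul_sum, mul_left_comm (g _), and_self]

theorem th_law {e : ℕ} (o : Ok N e) (hδ : 0 < δ) (hτ : 0 < τ.im) (hz : 0 < z.im) (σ : ℤ)
    (r : ZMod (2 * N)) :
    th0 (N * e * δ ^ 2) (fun l => twi δ σ (ph N e r) l) (-1 / τ) z = (hw τ)⁻¹ *
      ∑ s, sm N e r s * th0 (N * e * δ ^ 2) (fun l => twi δ σ (ph N e s) l) τ z ∧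
    th1 (N * e * δ ^ 2) (fun l => twi δ σ (ph N e r) l) (-1 / τ) z = -(τ * hw τ)⁻¹ *
      ∑ s, sm N e r s * th1 (N * e * δ ^ 2) (fun l => twi δ σ (ph N e s) l) τ z := by
  have n : 0 < N * e := mul_pos (NeZero.pos N) (zero_lt_one.trans o.one)
  obtain ⟨p1, p2, -⟩ := phi N e o
  have y : ∀ j : ℕ, 0 < ((j + z) / δ : ℂ).im := fun j => by
    simpa using div_pos hz (Nat.cast_pos.2 hδ)
  simp only [th_twi n hδ (S_pos hτ) hz σ (ph_bd N e _), th_twi n hδ hτ hz σ (ph_bd N e _),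
    ths _ _ n (p1 r) τ _ hτ (y _), funext (p2 r), th_lin n hτ (y _) _ (ph_bd N e),
    Finset.mul_sum, mul_left_comm]
  exact ⟨Finset.sum_comm, Finset.sum_comm⟩

theorem sm_dual {e : ℕ} {ρ : ZMod (2 * N)} (h : Dual δ e ρ) (r s : ZMod (2 * N)) :
    conj (sm N e (ρ * r) (ρ * s)) = -I * sm N δ r s := by
  have u := ZMod.coe_mul_inv_eq_one δ (cop2 h.ok)
  have u1 := ZMod.coe_mul_inv_eq_one e (cop2 h.ok1)
  have k : ρ ^ 2 * δ + e = 0 := by
    simpa using (ZMod.intCast_zmod_eq_zero_iff_dvd _ (2 * N)).2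
      (Dvd.dvd.trans ⟨2, by push_cast; ring⟩ h.sq)
  rw [sm, sm, map_mul, conj_std, show - -((e : ZMod (2 * N))⁻¹ * (ρ * r) * (ρ * s)) =
      -((δ : ZMod (2 * N))⁻¹ * r * s) by
    linear_combination (e : ZMod (2 * N))⁻¹ * (δ : ZMod (2 * N))⁻¹ * r * s * k -
      (e : ZMod (2 * N))⁻¹ * ρ ^ 2 * r * s * u - (δ : ZMod (2 * N))⁻¹ * r * s * u1, ← mul_assoc]
  congr 1
  linear_combination I * conj (kap N e) * h.kp - I * kap N δ * (kp phi h.ok1).nm +
    conj (kap N e) * I_mul_I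

/-- the data -/
structure Dd (N δ d M : ℕ) (β β' : ℤ) : Prop where
  dat : Dat N δ d β
  dv : 2 * N * δ ^ 3 ∣ M
  sp : Sp M d β'
  cg : (2 * N : ℤ) ∣ β' - β

variable (δ d β) in
/-- the test function -/
def pf (r : ZMod (2 * N)) (l : Fm) : ℝ := twi δ (-1) (ph N (δ * d) (β * r)) l

variable (δ d β) in
/-- the coefficients -/
abbrev TK (r : ZMod (2 * N)) (l : Fm) (v : ℝ) : ℂ := Tl (N * (δ * d) * δ ^ 2) δ (pf δ d β r) l v

variable (δ d β) in
/-- the kernel function -/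
abbrev FK (r : ZMod (2 * N)) : ℂ → ℂ := sF (xx (N * (δ * d) * δ ^ 2)) (TK δ d β r)

variable (δ β') in
/-- the theta function at the CM points -/
def TH (t : Finset Fm) (w : Fm → ℍ) (r : ZMod (2 * N)) (τ : ℂ) : ℂ :=
  ∑ Q ∈ t, th0 (N * δ * δ ^ 2) (fun l => twi δ (-β') (ph N δ r) l) τ (w Q)

theorem TH_law (o : Ok N δ) (t : Finset Fm) (w : Fm → ℍ) (hτ : 0 < τ.im) (r : ZMod (2 * N)) :
    TH δ β' t w r (-1 / τ) = (hw τ)⁻¹ * ∑ s, sm N δ r s * TH δ β' t w s τ := by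
  simp only [TH, (th_law o (zero_lt_one.trans o.one) hτ (w _).im_pos _ _).1, Finset.mul_sum]
  exact Finset.sum_comm

omit [NeZero N] in
theorem pf_bd (r : ZMod (2 * N)) (l : Fm) : |pf δ d β r l| ≤ δ := by
  simpa [pf] using twi_bd (-1) (ph_bd N (δ * d) (β * r)) l

namespace Dd

variable (h : Dd N δ d M β β')
include h

omit [NeZero N] in
theorem d0 : 0 < δ := zero_lt_one.trans h.dat.ok.one

omit [NeZero N] in
theorem d1 : 0 < d := (by decide : 0 < 3).trans h.sp.big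

theorem n0 : 0 < N * (δ * d) * δ ^ 2 := by
  have := h.d0
  have := h.d1
  have := NeZero.pos N
  positivity

theorem ar (r : ZMod (2 * N)) (l : Fm) : pf δ d β r l = (if (d : ℤ) ∣ disc l then
    twi δ (-1) (ph N δ (β * r)) l * gc d l else 0 : ℤ) :=
  congrArg _ ((ari N δ d M β β' r h.dat h.dv h.sp h.cg).2.2.1 l)

theorem ev (r : ZMod (2 * N)) (l : Fm) :
    twi δ (-1) (ph N δ (β * r)) (-l.1, l.2.1, -l.2.2) = twi δ (-1) (ph N δ (β * r)) l := by
  simpa using (ari N δ d M β β' r h.dat h.dv h.sp h.cg).1.tor (-1) (-1) (by simp) l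

theorem odd (r : ZMod (2 * N)) (l : Fm) : pf δ d β r (-l.1, l.2.1, -l.2.2) = -pf δ d β r l := by
  rw [h.ar, h.ar, h.ev, show gc d (-l.1, l.2.1, -l.2.2) = gc d (-l) from rfl, Hd.gc_neg h.sp.sq,
    (gau_row N δ d β h.dat).2.2.2.1, show disc (-l.1, l.2.1, -l.2.2) = disc l by simp [disc]]
  split_ifs <;> simp

theorem kk (hτ : 0 < τ.im) (r : ZMod (2 * N)) (s : ℝ) :
    HasSum (fun l => ee (xx (N * (δ * d) * δ ^ 2) l * τ) *
      tt (N * (δ * d) * δ ^ 2) δ (pf δ d β r) l τ.im s)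
      (conj (th1 (N * (δ * d) * δ ^ 2) (fun l => twi δ (-1) (ph N (δ * d) (β * r)) l) τ
        (I * (δ * Real.exp s : ℝ))) *
        (δ * Real.exp s * √(τ.im / (N * (δ * d) * δ ^ 2 : ℕ)) / τ.im ^ 2 : ℝ)) := by
  simpa only [pf, ofReal_intCast] using
    kk_th h.n0 hτ (Nat.cast_pos.2 h.d0) (pf_bd r) (h.odd r) s

theorem tf (r : ZMod (2 * N)) : Tf (N * (δ * d) * δ ^ 2) δ (pf δ d β r) := by
  refine ⟨h.n0, Nat.cast_pos.2 h.d0, ⟨_, pf_bd r⟩, ⟨M * d, mul_pos h.sp.pos h.d1, fun n k m => ?_⟩,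
    fun τ hτ s => (h.kk hτ r s).summable⟩
  have p := (ari N δ d M β β' r h.dat h.dv h.sp h.cg).1.per
  have j : ∀ p ∈ d.primeFactors, (p : ℤ) ∣ (M * d : ℕ) * m := fun p hp =>
    (Int.natCast_dvd_natCast.2 ((Nat.dvd_of_mem_primeFactors hp).mul_left M)).mul_right m
  have p1 := p (0, n, k) (0, 0, d * m)
  have p2 := p (k, n, 0) (d * m, 0, 0)
  simp only [mul_zero, add_zero, ← mul_assoc, ← Nat.cast_mul] at p1 p2
  have g1 : gc d (0, n, k + (M * d : ℕ) * m) = gc d (0, n, k) := Finset.prod_congr rfl fun p hp => by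
    simpa using Hd.J_congr (by simpa using j p hp)
  have g2 : gc d (k + (M * d : ℕ) * m, n, 0) = gc d (k, n, 0) := Finset.prod_congr rfl fun p hp => by
    simp only [dvd_add_left (j p hp), Hd.J_congr (n := p) (a := k + (M * d : ℕ) * m) (b := k)
      (by simpa using j p hp)]
  simp only [h.ar, p1, p2, g1, g2, disc, mul_zero, zero_mul, and_self]

theorem law (hτ : 0 < τ.im) (r : ZMod (2 * N)) :
    FK δ d β r (-1 / τ) = τ ^ 2 / hw τ * ∑ s, sm N δ r s * FK δ d β s τ := by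
  have D := (gau_row N δ d β h.dat).1
  obtain ⟨u, hu⟩ := D.un
  have i := fun s => ((h.tf s).int hτ).choose_spec τ le_rfl
  simp only [FK, ← (((h.tf r).int (S_pos hτ)).choose_spec _ le_rfl).2.2, ← fun s => (i s).2.2, FF,
    ← integral_const_mul]
  rw [← integral_finsetSum _ fun s _ => (i s).1.const_mul _, ← integral_const_mul]
  refine integral_congr_ae (.of_forall fun s => ?_)
  have d0 : (0 : ℝ) < δ := Nat.cast_pos.2 h.d0
  simp only [KK, (h.kk hτ _ s).tsum_eq, (h.kk (S_pos hτ) _ s).tsum_eq]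
  rw [(th_law D.ok1 h.d0 hτ (by rw [I_mul_im, ofReal_re]; positivity) _ _).2,
    ← Equiv.sum_comp u.mulLeft, S_im,
    normSq_eq_norm_sq, div_right_comm, Real.sqrt_div' _ (sq_nonneg _), Real.sqrt_sq (norm_nonneg _)]
  simp only [Units.mulLeft_apply, hu, map_mul, map_sum, sm_dual D, map_neg, map_inv₀,
    Finset.sum_mul, Finset.mul_sum]
  refine Finset.sum_congr rfl fun i _ => ?_
  have t := ne0 hτ
  have t' : conj τ ≠ 0 := (map_ne_zero _).2 t
  have w := hw_ne hτ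
  have w' : conj (hw τ) ≠ 0 := (map_ne_zero _).2 w
  have v' : (τ.im : ℂ) ≠ 0 := ofReal_ne_zero.2 hτ.ne'
  have n' : (‖τ‖ : ℂ) ≠ 0 := ofReal_ne_zero.2 (norm_ne_zero_iff.2 t)
  have e1 := hw_conj (τ := τ)
  have e2 : I * hw τ ^ 2 = τ := by rw [hw_sq, mul_div_cancel₀ _ I_ne_zero]
  have e3 := mul_conj' τ
  have e : I * hw τ * ‖τ‖ ^ 3 = τ ^ 2 * conj τ * conj (hw τ) := mul_left_cancel₀ w (by
    linear_combination ‖τ‖ ^ 3 * e2 - τ ^ 2 * conj τ * e1 - τ * ‖τ‖ * e3)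
  generalize √(_ / _) = R
  generalize conj (th1 _ _ _ _) = X
  push_cast
  field_simp
  linear_combination sm N δ r i * δ * X * R * s * e

end Dd

end Vale.Agent.P004Z.Kf
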