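import Vale.Agent.P004Z.Kf.Tm

/-! # P004Z, block G5: all signs, and the degenerate terms -/

open MeasureTheory Real Set Filter Topology

noncomputable section

namespace Vale.Agent.P004Z.Kf

theorem ff_gen {A C α : ℝ} (hA : A ≠ 0) (hC : C ≠ 0) (hα : 0 < α) :
    Integrable (fun s => ff A C α s * s) ∧
    ∫ s, |ff A C α s * s| ≤ exp (-(2 * α * (|A * C| + A * C))) *
      (|log (C / A)| + 2 + 1 / (α * |A * C|)) ∧
    ∫ s, ff A C α s * s = C / |C| * if 0 < A * C then -qq (4 * α * (A * C))
      else log (C / A) / 2 := by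
  wlog h : 0 < C generalizing A C
  · have h' : C < 0 := lt_of_le_of_ne (not_lt.1 h) hC
    obtain ⟨h1, h2, h3⟩ := this (neg_ne_zero.2 hA) (neg_ne_zero.2 hC) (neg_pos.2 h')
    rw [neg_div_neg_eq, neg_mul_neg] at h2 h3
    simp only [ff_neg, neg_mul, abs_neg, integral_neg, neg_div] at h1 h2 h3
    exact ⟨by simpa using h1.neg, h2, by linarith⟩
  rw [abs_of_pos h, div_self hC, one_mul]
  rcases lt_or_gt_of_ne hA with h' | h'
  · have := ff_base (neg_pos.2 h') h hα (-1) (.inr rfl)
    have e := mul_neg_of_neg_of_pos h' h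
    rw [if_neg (by norm_num), neg_mul_neg, one_mul, div_neg, log_neg_eq_log] at this
    rwa [abs_of_neg e, if_neg e.le.not_gt, ← neg_mul A]
  · have := ff_base h' h hα 1 (.inl rfl)
    rw [if_pos rfl, one_mul] at this
    rwa [abs_of_pos (mul_pos h' h), if_pos (mul_pos h' h)]

theorem exp_sub {E : Type*} [NormedAddCommGroup E] [NormedSpace ℝ E] (g : ℝ → E) :
    (IntegrableOn g (Ioi 0) ↔ Integrable fun s => exp s • g (exp s)) ∧
      ∫ y in Ioi 0, g y = ∫ s, exp s • g (exp s) := by
  have h1 := integrableOn_image_iff_integrableOn_abs_deriv_smul (f := exp) (f' := exp)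
    MeasurableSet.univ (fun x _ => (hasDerivAt_exp x).hasDerivWithinAt) exp_injective.injOn g
  have h2 := integral_image_eq_integral_abs_deriv_smul (f := exp) (f' := exp)
    MeasurableSet.univ (fun x _ => (hasDerivAt_exp x).hasDerivWithinAt) exp_injective.injOn g
  simp only [image_univ, range_exp, integrableOn_univ, Measure.restrict_univ, abs_exp] at h1 h2
  exact ⟨h1, h2⟩

open HurwitzZeta in
theorem odd_int (a : UnitAddCircle) (L : ℝ) :
    Integrable fun t => |oddKernel a (exp (2 * t + L))| * (exp t * (1 + |t|)) := by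
  have h : ∀ s : ℂ, Integrable fun t =>
      ‖exp (2 * t + L) • ((exp (2 * t + L) : ℝ) : ℂ) ^ (s - 1) •
        (hurwitzOddFEPair a).f (exp (2 * t + L))‖ := fun s =>
    ((((exp_sub _).1.1 ((isStrong_hurwitzOddFEPair a).hasMellin s).1).comp_add_right
      L).comp_mul_left' two_ne_zero).norm
  have h0 := h 0
  have h1 := h 1
  simp only [zero_sub, Complex.cpow_neg_one, sub_self, Complex.cpow_zero, hurwitzOddFEPair_f,
    Function.comp_apply, norm_smul, norm_inv, Complex.norm_real, norm_eq_abs, abs_exp, norm_one,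
    one_mul, mul_inv_cancel_left₀ (exp_pos _).ne'] at h0 h1
  refine (h0.add (h1.const_mul (exp (-L)))).mono' (Continuous.aestronglyMeasurable ?_)
    (ae_of_all _ fun t => ?_)
  · exact ((continuousOn_oddKernel a).comp_continuous (by fun_prop) fun _ => exp_pos _).abs.mul
      (by fun_prop)
  · rw [norm_of_nonneg (by positivity), Pi.add_apply, ← mul_assoc (exp (-L)), ← exp_add,
      ← one_add_mul, mul_comm]
    gcongr
    have e := add_one_le_exp |t|
    calc _ ≤ exp t * exp |t| := by gcongr; linarith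
      _ ≤ _ := by
        rw [← exp_add, show -L + (2 * t + L) = t + t by ring]
        cases abs_cases t with
        | inl h => rw [h.1]; linarith
        | inr h => rw [h.1, add_neg_cancel, exp_zero]; linarith [exp_pos (t + t)]

/-- the odd theta series -/
def hh (ψ : ℤ → ℝ) (t : ℝ) : ℝ := ∑' k : ℤ, ψ k * (k * exp t * exp (-π * (k * exp t) ^ 2))

open HurwitzZeta in
theorem hh_sum {ν : ℕ} (hν : 0 < ν) {ψ : ℤ → ℝ} (h : ∀ k m : ℤ, ψ (k + ν * m) = ψ k) (t : ℝ) :
    HasSum (fun k : ℤ => ψ k * (k * exp t * exp (-π * (k * exp t) ^ 2)))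
      (∑ j ∈ Finset.range ν, ψ j * ν * exp t *
        oddKernel ((j / ν : ℝ) : UnitAddCircle) (exp (2 * t + log (ν ^ 2)))) := by
  have n0 : (0 : ℝ) < ν := Nat.cast_pos.2 hν
  have n1 : (0 : ℤ) < ν := Nat.cast_pos.2 hν
  have key : ∀ j ∈ Finset.range ν, HasSum (fun k : ℤ => if k % ν = j then
      ψ k * (k * exp t * exp (-π * (k * exp t) ^ 2)) else 0) (ψ j * ν * exp t *
        oddKernel ((j / ν : ℝ) : UnitAddCircle) (exp (2 * t + log (ν ^ 2)))) := fun j hj => by
    have hi : Function.Injective fun m : ℤ => (j : ℤ) + ν * m := fun a b e =>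
      mul_left_cancel₀ n1.ne' (add_left_cancel e)
    refine (hi.hasSum_iff fun k hk => if_neg fun e => hk ⟨k / ν, ?_⟩).1
      (((hasSum_int_oddKernel _ (exp_pos _)).mul_left (ψ j * ν * exp t)).congr_fun fun m => ?_)
    · rw [← e]; exact Int.emod_add_mul_ediv k ν
    · have : j < ν := Finset.mem_range.1 hj
      rw [Function.comp_apply, if_pos (by
        rw [Int.add_mul_emod_self_left, Int.emod_eq_of_lt (by positivity) (by exact_mod_cast this)]),
        h, exp_add, exp_log (by positivity), two_mul, exp_add]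
      push_cast
      rw [show ((j : ℝ) + ν * m) = ν * (m + j / ν) by field_simp; ring]
      ring_nf
  refine (hasSum_sum key).congr_fun fun k => ?_
  have := Int.emod_nonneg k n1.ne'
  rw [Finset.sum_eq_single_of_mem (k % ν).toNat (Finset.mem_range.2 (by
    have := Int.emod_lt_of_pos k n1; omega)) fun j _ e => if_neg (by omega), if_pos (by omega)]

theorem hh_int {ν : ℕ} (hν : 0 < ν) (B : ℝ) : ∃ C, ∀ ψ : ℤ → ℝ, (∀ k m : ℤ, ψ (k + ν * m) = ψ k) →
    (∀ k, |ψ k| ≤ B) → Integrable (hh ψ) ∧ Integrable (fun t => hh ψ t * t) ∧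
      ∫ t, |hh ψ t| ≤ C ∧ ∫ t, |hh ψ t * t| ≤ C := by
  let W : ℝ → ℝ := fun t => ∑ j ∈ Finset.range ν, B * ν * (|HurwitzZeta.oddKernel
    ((j / ν : ℝ) : UnitAddCircle) (exp (2 * t + log (ν ^ 2)))| * (exp t * (1 + |t|)))
  have hW : Integrable W := integrable_finsetSum _ fun j _ => (odd_int _ _).const_mul _
  refine ⟨∫ t, W t, fun ψ h hB => ?_⟩
  have c : Continuous (hh ψ) := by
    rw [show hh ψ = _ from funext fun t => (hh_sum hν h t).tsum_eq]
    exact continuous_finsetSum _ fun j _ => Continuous.mul (by fun_prop)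
      ((HurwitzZeta.continuousOn_oddKernel _).comp_continuous (by fun_prop) fun _ => exp_pos _)
  have b : ∀ t, |hh ψ t| * (1 + |t|) ≤ W t := fun t => by
    rw [hh, (hh_sum hν h t).tsum_eq]
    refine (mul_le_mul_of_nonneg_right (Finset.abs_sum_le_sum_abs _ _) (by positivity)).trans ?_
    rw [Finset.sum_mul]
    refine Finset.sum_le_sum fun j _ => ?_
    rw [abs_mul, abs_mul, abs_mul, abs_exp, Nat.abs_cast]
    refine (le_of_eq (by ring)).trans (mul_le_mul_of_nonneg_right
      (mul_le_mul_of_nonneg_right (hB j) ν.cast_nonneg) (by positivity))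
  have b1 : ∀ t, |hh ψ t| ≤ W t := fun t =>
    (le_mul_of_one_le_right (abs_nonneg _) (by linarith [abs_nonneg t])).trans (b t)
  have b2 : ∀ t, |hh ψ t * t| ≤ W t := fun t => by
    rw [abs_mul]; exact (by gcongr; linarith : _ ≤ _ * (1 + |t|)).trans (b t)
  have i1 : Integrable (hh ψ) := hW.mono' c.aestronglyMeasurable (ae_of_all _ b1)
  have i2 : Integrable fun t => hh ψ t * t :=
    hW.mono' (c.mul continuous_id).aestronglyMeasurable (ae_of_all _ b2)
  exact ⟨i1, i2, integral_mono i1.abs hW b1, integral_mono i2.abs hW b2⟩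

/-- a shift of the variable -/
theorem hh_shift {g : ℝ → ℝ} (h1 : Integrable g) (h2 : Integrable fun t => g t * t) (L : ℝ) :
    Integrable (fun s => g (s + L) * s) ∧
    ∫ s, |g (s + L) * s| ≤ (∫ t, |g t * t|) + |L| * ∫ t, |g t| ∧
    ∫ s, g (s + L) * s = (∫ t, g t * t) - L * ∫ t, g t := by
  have i : Integrable fun t => g t * t - L * g t := h2.sub (h1.const_mul L)
  have e : ∀ s, g (s + L) * s = (fun t => g t * t - L * g t) (s + L) := fun s => by ring
  simp only [e]
  refine ⟨i.comp_add_right L, ?_, ?_⟩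
  · rw [integral_add_right_eq_self (fun t => |g t * t - L * g t|), ← integral_const_mul,
      ← integral_add h2.abs (h1.abs.const_mul _)]
    exact integral_mono i.abs (h2.abs.add (h1.abs.const_mul _)) fun t =>
      (abs_sub _ _).trans_eq (by rw [abs_mul L])
  · rw [integral_add_right_eq_self (fun t => g t * t - L * g t), integral_sub h2 (h1.const_mul L),
      integral_const_mul]

theorem ff_zero {α c : ℝ} (hα : 0 < α) (hc : 0 < c) (k s : ℝ) : ff (k * c) 0 α s =
    -(k * exp (s + log (√(α / π) * c)) * exp (-π * (k * exp (s + log (√(α / π) * c))) ^ 2)) := by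
  have := pi_pos
  rw [exp_add, exp_log (by positivity), ff, mul_pow, mul_pow, mul_pow, sq_sqrt (by positivity),
    show -π * (k ^ 2 * (exp s ^ 2 * (α / π * c ^ 2))) = -α * (k * c * exp s + 0 * exp (-s)) ^ 2 by
      field_simp; ring]
  ring

theorem ff_swap (A C α s : ℝ) : ff A C α s = -ff C A α (-s) := by
  rw [ff, ff, neg_neg, add_comm]; ring

end Vale.Agent.P004Z.Kf
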