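import Vale.Agent.P004Z.Kf.Se
import Vale.Agent.P004Z.Kf.Tn

/-! # P004Z, block G5: the expansion of the kernel -/

open MeasureTheory Filter Topology Set Real

noncomputable section

namespace Vale.Agent.P004Z.Kf

theorem int_tsum {ι : Type} [Countable ι] {F : ι → ℝ → ℂ} (h : ∀ i, Integrable (F i))
    (hs : Summable fun i => ∫ a, ‖F i a‖) :
    Integrable (fun a => ∑' i, F i a) ∧ ∫ a, ‖∑' i, F i a‖ ≤ ∑' i, ∫ a, ‖F i a‖ := by
  have m : AEStronglyMeasurable (fun a => ∑' i, F i a) volume :=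
    (AEMeasurable.tsum fun i => (h i).aemeasurable).aestronglyMeasurable
  have b : ∫⁻ a, ‖∑' i, F i a‖ₑ ≤ ENNReal.ofReal (∑' i, ∫ a, ‖F i a‖) := by
    rw [ENNReal.ofReal_tsum_of_nonneg (fun i => integral_nonneg fun _ => norm_nonneg _) hs]
    simp only [ofReal_integral_norm_eq_lintegral_enorm (h _)]
    rw [← lintegral_tsum fun i => (h i).1.enorm]
    exact lintegral_mono fun a => enorm_tsum_le_tsum_enorm
  refine ⟨⟨m, b.trans_lt ENNReal.ofReal_lt_top⟩, ?_⟩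
  rw [integral_norm_eq_lintegral_enorm m]
  exact ENNReal.toReal_le_of_le_ofReal (tsum_nonneg fun i => integral_nonneg fun _ =>
    norm_nonneg _) b

theorem geo_int {a : ℝ} (h : 0 < a) : Summable fun n : ℤ => exp (-a * |(n : ℝ)|) := by
  have : Summable fun n : ℕ => exp (-a * n) := by
    simpa [mul_comm] using summable_exp_nat_mul_iff.2 (neg_neg_of_pos h)
  exact .of_nat_of_neg (by simpa using this) (by simpa using this)

theorem geo_Fm {a : ℝ} (h : 0 < a) :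
    Summable fun l : Fm => exp (-a * (|(l.1 : ℝ)| + |(l.2.1 : ℝ)| + |(l.2.2 : ℝ)|)) := by
  have := (geo_int h).mul_of_nonneg ((geo_int h).mul_of_nonneg (geo_int h)
    (fun _ => (exp_pos _).le) fun _ => (exp_pos _).le) (fun _ => (exp_pos _).le)
    fun _ => by positivity
  exact this.congr fun l => by rw [← exp_add, ← exp_add]; ring_nf

variable (ν : ℕ) (c : ℝ) (φ : Fm → ℝ)

/-- the exponent -/
def xx (l : Fm) : ℝ := disc l / (4 * ν)

/-- one term -/
def tt (l : Fm) (v s : ℝ) : ℝ := φ l * ff (l.1 * c) (l.2.2 * c⁻¹) (π * v / ν) s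

/-- the kernel on the geodesic -/
def KK (τ : ℂ) (s : ℝ) : ℂ := ∑' l, ee (xx ν l * τ) * tt ν c φ l τ.im s

/-- the regrouped terms -/
def RR (l : Fm) (v s : ℝ) : ℝ :=
  if l.1 = 0 ∧ l.2.2 = 0 then
    (∑' k : ℤ, tt ν c φ (0, l.2.1, k) v s) + ∑' k : ℤ, tt ν c φ (k, l.2.1, 0) v s
  else if l.1 = 0 ∨ l.2.2 = 0 then 0 else tt ν c φ l v s

/-- the coefficients -/
def Tl (l : Fm) (v : ℝ) : ℝ := ∫ s, RR ν c φ l v s * s

/-- the coefficient of `log v` -/
def al (n : ℤ) : ℝ := ((∫ t, hh (fun k => φ (0, n, k)) t) + ∫ t, hh (fun k => φ (k, n, 0)) t) / 2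

/-- the derivative -/
def Td (l : Fm) (v : ℝ) : ℝ :=
  if l.1 = 0 ∧ l.2.2 = 0 then al φ l.2.1 / v
  else if 0 < l.1 * l.2.2 then
    φ l * (l.2.2 / |(l.2.2 : ℝ)|) * exp (-(4 * (π * v / ν) * (l.1 * l.2.2))) / (2 * v) else 0

/-- the integral of the kernel -/
def FF (τ : ℂ) : ℂ := ∫ s, KK ν c φ τ s * s

/-- test functions -/
structure Tf : Prop where
  pos : 0 < ν
  cpos : 0 < c
  bd : ∃ B, ∀ l, |φ l| ≤ B
  per : ∃ μ : ℕ, 0 < μ ∧ ∀ n k m : ℤ,
    φ (0, n, k + μ * m) = φ (0, n, k) ∧ φ (k + μ * m, n, 0) = φ (k, n, 0)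
  sum : ∀ τ : ℂ, 0 < τ.im → ∀ s, Summable fun l => ee (xx ν l * τ) * tt ν c φ l τ.im s

variable {ν c φ}

theorem Tf.reg (h : Tf ν c φ) {τ : ℂ} (hτ : 0 < τ.im) (s : ℝ) :
    ∑' l, ee (xx ν l * τ) * RR ν c φ l τ.im s = KK ν c φ τ s := by
  let t : Fm → ℂ := fun l => ee (xx ν l * τ) * tt ν c φ l τ.im s
  have S : Summable t := h.sum τ hτ s
  have key : ∀ (P : Fm → Prop) [DecidablePred P] (g : ℤ × ℤ → Fm), Function.Injective g →
      (∀ l, P l ↔ l ∈ range g) → (∀ n k, xx ν (g (n, k)) = xx ν (0, n, 0)) →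
      HasSum (fun l : Fm => if l.1 = 0 ∧ l.2.2 = 0 then ee (xx ν l * τ) *
        (∑' k, tt ν c φ (g (l.2.1, k)) τ.im s : ℝ) else 0) (∑' l, if P l then t l else 0) := by
    intro P _ g hg hP hx
    have s1 : HasSum (t ∘ g) (∑' l, if P l then t l else 0) :=
      ((hg.hasSum_iff fun l hl => if_neg ((hP l).not.2 hl)).2 ((S.indicator {l | P l}).congr
        fun l => by simp [indicator_apply]).hasSum).congr_fun fun i => by
          simp [(hP _).2 ⟨i, rfl⟩]
    have hi : Function.Injective fun n : ℤ => ((0, n, 0) : Fm) := fun a b e => by simpa using e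
    refine (hi.hasSum_iff fun l hl => if_neg fun e => hl ⟨l.2.1, ?_⟩).1
      ((s1.prod_fiberwise fun n => (s1.summable.prod_factor n).hasSum).congr_fun fun n => ?_)
    · exact Prod.ext e.1.symm (Prod.ext rfl e.2.symm)
    · simp [t, hx, tsum_mul_left, Complex.ofReal_tsum]
  have k1 := key (fun l => l.1 = 0) (fun i => (0, i.1, i.2)) (fun a b e => by simpa using e)
    (fun l => ⟨fun e => ⟨l.2, Prod.ext e.symm rfl⟩, fun ⟨_, e⟩ => e ▸ rfl⟩) fun n k => by
      simp [xx, disc]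
  have k2 := key (fun l => l.2.2 = 0) (fun i => (i.2, i.1, 0))
    (fun a b e => Prod.ext (by simp_all) (by simp_all))
    (fun l => ⟨fun e => ⟨(l.2.1, l.1), Prod.ext rfl (Prod.ext rfl e.symm)⟩,
      fun ⟨_, e⟩ => e ▸ rfl⟩) fun n k => by simp [xx, disc]
  have s : ∀ (P : Fm → Prop) [DecidablePred P], Summable fun l => if P l then t l else 0 :=
    fun P _ => (S.indicator {l | P l}).congr fun l => by simp [indicator_apply]
  have k3 := (s fun l => ¬ (l.1 = 0 ∨ l.2.2 = 0)).hasSum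
  refine (((k1.add k2).add k3).congr_fun fun l => ?_).tsum_eq.trans ?_
  · by_cases h1 : l.1 = 0 <;> by_cases h2 : l.2.2 = 0 <;> simp [RR, h1, h2, t, mul_add]
  · rw [← (s _).tsum_add (s _), ← ((s _).add (s _)).tsum_add (s _)]
    refine tsum_congr fun l => ?_
    by_cases h1 : l.1 = 0 <;> by_cases h2 : l.2.2 = 0 <;> simp [h1, h2, t, tt, ff]

theorem lgv (hν : 0 < ν) {c v : ℝ} (hc : 0 < c) (hv : 0 < v) :
    log (√(π * v / ν / π) * c) = log v / 2 + (log c - log ν / 2) := by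
  have := pi_pos
  rw [show π * v / ν / π = v / ν by field_simp, log_mul (by positivity) hc.ne', log_sqrt
    (by positivity), log_div hv.ne' (by positivity)]
  ring

/-- the degenerate terms -/
theorem Tf.deg (h : Tf ν c φ) : ∃ C, ∀ n : ℤ, |al φ n| ≤ C ∧ ∃ b, ∀ v, 0 < v →
    Integrable (fun s => RR ν c φ (0, n, 0) v s * s) ∧
    ∫ s, |RR ν c φ (0, n, 0) v s * s| ≤ C * (1 + |log v|) ∧
    Tl ν c φ (0, n, 0) v = al φ n * log v + b := by
  obtain ⟨B, hB⟩ := h.bd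
  obtain ⟨μ, hμ, p⟩ := h.per
  obtain ⟨C, hC⟩ := hh_int hμ B
  refine ⟨C * (2 + (|log c⁻¹ - log ν / 2| + |log c - log ν / 2|)), fun n => ?_⟩
  obtain ⟨a1, a2, a3, a4⟩ := hC (fun k => φ (0, n, k)) (fun k m => (p n k m).1) fun k => hB _
  obtain ⟨b1, b2, b3, b4⟩ := hC (fun k => φ (k, n, 0)) (fun k m => (p n k m).2) fun k => hB _
  have C0 : 0 ≤ C := (integral_nonneg fun _ => abs_nonneg _).trans a3
  rw [al]
  refine ⟨?_, (log c⁻¹ - log ν / 2) * (∫ t, hh (fun k => φ (0, n, k)) t) -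
    (∫ t, hh (fun k => φ (0, n, k)) t * t) + ((log c - log ν / 2) *
    (∫ t, hh (fun k => φ (k, n, 0)) t) - ∫ t, hh (fun k => φ (k, n, 0)) t * t), fun v hv => ?_⟩
  · have := (abs_integral_le_integral_abs.trans a3)
    have := (abs_integral_le_integral_abs.trans b3)
    rw [abs_div, abs_two]
    have := abs_add_le (∫ t, hh (fun k => φ (0, n, k)) t) (∫ t, hh (fun k => φ (k, n, 0)) t)
    nlinarith [abs_nonneg (log c⁻¹ - log ν / 2), abs_nonneg (log c - log ν / 2)]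
  have hα : 0 < π * v / ν := div_pos (mul_pos pi_pos hv) (Nat.cast_pos.2 h.pos)
  obtain ⟨i1, n1, e1⟩ := hh_shift a1 a2 (log v / 2 + (log c⁻¹ - log ν / 2))
  obtain ⟨i2, n2, e2⟩ := hh_shift b1 b2 (log v / 2 + (log c - log ν / 2))
  have e : ∀ s, RR ν c φ (0, n, 0) v s * s = -((fun s => hh (fun k => φ (0, n, k))
      (s + (log v / 2 + (log c⁻¹ - log ν / 2))) * s) (-s) +
      hh (fun k => φ (k, n, 0)) (s + (log v / 2 + (log c - log ν / 2))) * s) := fun s => by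
    simp only [RR, and_self, if_true, tt, Int.cast_zero, zero_mul]
    simp only [ff_zero hα h.cpos, show ∀ k : ℤ, ff 0 (k * c⁻¹) (π * v / ν) s = _ from fun k =>
      (ff_swap _ _ _ _).trans (congrArg _ (ff_zero hα (inv_pos.2 h.cpos) _ _)),
      lgv h.pos h.cpos hv, lgv h.pos (inv_pos.2 h.cpos) hv, neg_neg, mul_neg, tsum_neg, hh]
    ring
  simp only [Tl, e, abs_neg, integral_neg]
  refine ⟨(i1.comp_neg.add i2).neg, (integral_mono (i1.comp_neg.add i2).abs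
    (i1.comp_neg.abs.add i2.abs) fun s => abs_add_le _ _).trans ?_, ?_⟩
  · simp only [Pi.add_apply]
    rw [integral_add i1.comp_neg.abs i2.abs, integral_neg_eq_self fun s => |hh (fun k =>
      φ (0, n, k)) (s + (log v / 2 + (log c⁻¹ - log ν / 2))) * s|]
    have := abs_add_le (log v / 2) (log c⁻¹ - log ν / 2)
    have := abs_add_le (log v / 2) (log c - log ν / 2)
    rw [abs_div, abs_two] at *
    calc _ ≤ (C + (|log v| / 2 + |log c⁻¹ - log ν / 2|) * C) +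
          (C + (|log v| / 2 + |log c - log ν / 2|) * C) :=
          add_le_add (n1.trans (by gcongr)) (n2.trans (by gcongr))
      _ ≤ _ := by
        nlinarith [mul_nonneg C0 (abs_nonneg (log v)), mul_nonneg (mul_nonneg C0 (abs_nonneg
          (log v))) (add_nonneg (abs_nonneg (log c⁻¹ - log ν / 2)) (abs_nonneg (log c - log ν / 2)))]
  · rw [integral_add i1.comp_neg i2, integral_neg_eq_self fun s => hh (fun k =>
      φ (0, n, k)) (s + (log v / 2 + (log c⁻¹ - log ν / 2))) * s, e1, e2]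
    ring

/-- the non degenerate terms -/
theorem Tf.gen (h : Tf ν c φ) {l : Fm} (h1 : l.1 ≠ 0) (h2 : l.2.2 ≠ 0) {v : ℝ} (hv : 0 < v) :
    Integrable (fun s => RR ν c φ l v s * s) ∧
    ∫ s, |RR ν c φ l v s * s| ≤ |φ l| * (exp (-(2 * (π * v / ν) * (|(l.1 : ℝ) * l.2.2| +
      l.1 * l.2.2))) * (|log (l.2.2 / (l.1 * c ^ 2))| + 2 + 1 / (π * v / ν * |(l.1 : ℝ) * l.2.2|))) ∧
    Tl ν c φ l v = φ l * (l.2.2 / |(l.2.2 : ℝ)| * if 0 < l.1 * l.2.2 then
      -qq (4 * (π * v / ν) * (l.1 * l.2.2)) else log (l.2.2 / (l.1 * c ^ 2)) / 2) := by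
  have c0 := h.cpos
  obtain ⟨a1, a2, a3⟩ := ff_gen (A := l.1 * c) (C := l.2.2 * c⁻¹) (by positivity) (by positivity)
    (div_pos (mul_pos pi_pos hv) (Nat.cast_pos.2 h.pos))
  rw [show (l.1 : ℝ) * c * (l.2.2 * c⁻¹) = l.1 * l.2.2 by field_simp,
    show (l.2.2 : ℝ) * c⁻¹ / (l.1 * c) = l.2.2 / (l.1 * c ^ 2) by field_simp] at a2 a3
  rw [abs_mul, abs_of_pos (inv_pos.2 c0), mul_div_mul_right _ _ (inv_pos.2 c0).ne'] at a3
  simp only [Tl, RR, h1, h2, and_self, or_self, if_false, tt, mul_assoc (φ l), abs_mul (φ l),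
    integral_const_mul]
  exact ⟨a1.const_mul _, by gcongr, by rw [a3]; norm_cast⟩

end Vale.Agent.P004Z.Kf
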