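import Vale.Agent.P004Z.Kf.Ex

/-! # P004Z, block G5: bounds for the expansion -/

open MeasureTheory Filter Topology Set Real

noncomputable section

namespace Vale.Agent.P004Z.Kf

variable {ν : ℕ} {c : ℝ} {φ : Fm → ℝ}

theorem abs_log_le {v₀ v : ℝ} (h0 : 0 < v₀) (h : v₀ ≤ v) : |log v| ≤ v + 1 / v₀ := by
  have hv := h0.trans_le h
  have h1 := log_le_sub_one_of_pos hv
  have h2 := log_le_sub_one_of_pos (inv_pos.2 hv)
  have h3 : v⁻¹ ≤ 1 / v₀ := by rw [one_div]; gcongr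
  rw [log_inv] at h2
  exact abs_le.2 ⟨by linarith, by linarith [inv_pos.2 hv]⟩

theorem one_le_abs' {k : ℤ} (h : k ≠ 0) : 1 ≤ |(k : ℝ)| := by exact_mod_cast Int.one_le_abs h

theorem log_int {k : ℤ} (h : k ≠ 0) : |log k| ≤ |(k : ℝ)| := by
  have := one_le_abs' h
  rw [← log_abs, abs_of_nonneg (log_nonneg this)]
  linarith [log_le_sub_one_of_pos (one_pos.trans_le this)]

theorem fin_bd {a K S v E I T X w : ℝ} (a0 : 0 < a) (K0 : 0 ≤ K) (v0 : 0 < v) (E0 : 0 < E)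
    (I0 : 0 ≤ I) (hX : |X| ≤ S) (hw : w ≤ S)
    (b : E * (I + |T|) ≤ exp (-(4 * a * S / 2)) * (K * (1 + v) * (1 + S))) :
    E * ((1 + |X|) * I + |T|) ≤ K * (1 + 2 / a) ^ 2 * exp (-a * w) * (1 + v) := by
  have S0 := (abs_nonneg X).trans hX
  have e1 : 1 + S ≤ (1 + 2 / a) * exp (a * S / 2) :=
    le_trans (by
      have : 2 / a * (a * S / 2) = S := by field_simp
      nlinarith [div_pos two_pos a0, mul_nonneg a0.le S0])
      (mul_le_mul_of_nonneg_left (add_one_le_exp (a * S / 2)) (by positivity))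
  calc _ ≤ E * ((1 + S) * (I + |T|)) := by
        gcongr
        nlinarith [abs_nonneg T, abs_nonneg X]
    _ = (1 + S) * (E * (I + |T|)) := by ring
    _ ≤ (1 + 2 / a) * exp (a * S / 2) * (exp (-(4 * a * S / 2)) *
        (K * (1 + v) * ((1 + 2 / a) * exp (a * S / 2)))) := by
        gcongr ?_ * ?_
        exact b.trans (by gcongr)
    _ = K * (1 + 2 / a) ^ 2 * exp (-a * S) * (1 + v) := by
        rw [show -a * S = a * S / 2 + -(4 * a * S / 2) + a * S / 2 by ring, exp_add, exp_add]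
        ring
    _ ≤ _ := by
        gcongr _ * ?_ * _
        exact exp_le_exp.2 (by nlinarith)

/-- the size of a form -/
def sz (l : Fm) : ℝ := l.2.1 ^ 2 + 4 * |(l.1 : ℝ) * l.2.2|

theorem sz_nn (l : Fm) : 0 ≤ sz l := by unfold sz; positivity

theorem xx_le (h : 0 < ν) (l : Fm) : |xx ν l| ≤ sz l := by
  have n1 : (1 : ℝ) ≤ ν := Nat.one_le_cast.2 h
  rw [xx, abs_div, abs_of_pos (by positivity : (0 : ℝ) < 4 * ν), div_le_iff₀ (by positivity),
    disc]
  push_cast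
  refine (abs_sub _ _).trans ?_
  rw [abs_sq, mul_assoc, abs_mul, Nat.abs_ofNat, ← sz]
  nlinarith [sz_nn l]

theorem Tf.bd1 (h : Tf ν c φ) {v₀ : ℝ} (h0 : 0 < v₀) : ∃ K, 0 ≤ K ∧ ∀ (n : ℤ) v, v₀ ≤ v →
    Integrable (fun s => RR ν c φ (0, n, 0) v s * s) ∧
      (∫ s, |RR ν c φ (0, n, 0) v s * s|) + |Td ν φ (0, n, 0) v| ≤ K * (1 + v) := by
  obtain ⟨C, hC⟩ := h.deg
  have C0 : 0 ≤ C := (abs_nonneg _).trans (hC 0).1
  refine ⟨C * (1 + 1 / v₀) + C / v₀, by positivity, fun n v hv => ?_⟩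
  have v0 := h0.trans_le hv
  obtain ⟨b1, b, b2⟩ := hC n
  obtain ⟨b2, b3, -⟩ := b2 v v0
  have := abs_log_le h0 hv
  simp only [Td, and_self, if_true, abs_div, abs_of_pos v0]
  rw [add_mul, mul_assoc]
  exact ⟨b2, add_le_add (b3.trans (by gcongr; nlinarith [one_div_pos.2 h0]))
    ((by gcongr : _ ≤ C / v₀).trans (le_mul_of_one_le_right (by positivity) (by linarith)))⟩

theorem Tf.bd2 (h : Tf ν c φ) {v₀ : ℝ} (h0 : 0 < v₀) : ∃ K, 0 ≤ K ∧ ∀ (l : Fm) v, l.1 ≠ 0 →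
    l.2.2 ≠ 0 → v₀ ≤ v → (∫ s, |RR ν c φ l v s * s|) + |Td ν φ l v| ≤
      exp (-(2 * (π * v / ν) * (|(l.1 : ℝ) * l.2.2| + l.1 * l.2.2))) * (K * (1 + sz l)) := by
  obtain ⟨B, hB⟩ := h.bd
  have B0 : 0 ≤ B := (abs_nonneg _).trans (hB 0)
  have n0 : (0 : ℝ) < ν := Nat.cast_pos.2 h.pos
  have := pi_pos
  refine ⟨B * (2 + 2 * |log c| + 1 / (π * v₀ / ν) + 1 / (2 * v₀)), by positivity,
    fun l v h1 h2 hv => ?_⟩
  have v0 := h0.trans_le hv
  obtain ⟨-, b2, -⟩ := h.gen h1 h2 v0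
  have k1 := one_le_abs' h1
  have k2 := one_le_abs' h2
  have b3 : |Td ν φ l v| ≤ B * (exp (-(2 * (π * v / ν) * (|(l.1 : ℝ) * l.2.2| + l.1 * l.2.2))) *
      (1 / (2 * v₀))) := by
    rw [Td, if_neg fun e => h1 e.1]
    split_ifs with h3
    · rw [abs_div, abs_mul, abs_mul, abs_div, abs_abs, div_self (by positivity), mul_one, abs_exp,
        abs_of_pos (by exact_mod_cast h3 : (0 : ℝ) < l.1 * l.2.2), abs_of_pos (mul_pos two_pos v0),
        mul_one_div, mul_div_assoc, ← two_mul, show 2 * (π * v / ν) * (2 * (l.1 * l.2.2)) =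
          4 * (π * v / ν) * (l.1 * l.2.2) by ring]
      gcongr
      exact hB l
    · rw [abs_zero]; positivity
  have b4 : |log (l.2.2 / (l.1 * c ^ 2))| ≤ sz l + 2 * |log c| := by
    have := h.cpos
    rw [log_div (by simp [h2]) (by simp [h1, this.ne']), log_mul (by simp [h1])
      (by positivity), log_pow, sz, abs_mul (l.1 : ℝ)]
    have := log_int h1
    have := log_int h2
    refine (abs_sub _ _).trans ((add_le_add_right (abs_add_le _ _) _).trans ?_)
    rw [abs_mul, Nat.abs_cast, Nat.cast_ofNat]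
    nlinarith [sq_nonneg (l.2.1 : ℝ)]
  have b5 : 1 / (π * v / ν * |(l.1 : ℝ) * l.2.2|) ≤ 1 / (π * v₀ / ν) := by
    have : 1 ≤ |(l.1 : ℝ) * l.2.2| := by rw [abs_mul]; nlinarith
    exact one_div_le_one_div_of_le (by positivity)
      (le_trans (by gcongr) (le_mul_of_one_le_right (by positivity) this))
  have E0 := exp_pos (-(2 * (π * v / ν) * (|(l.1 : ℝ) * l.2.2| + l.1 * l.2.2)))
  generalize exp (-(2 * (π * v / ν) * (|(l.1 : ℝ) * l.2.2| + l.1 * l.2.2))) = E at *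
  calc _ ≤ B * (E * (sz l + 2 * |log c| + 2 + 1 / (π * v₀ / ν))) + B * (E * (1 / (2 * v₀))) :=
        add_le_add (b2.trans (by gcongr; exact hB l)) b3
    _ = E * (B * (sz l + 2 + 2 * |log c| + 1 / (π * v₀ / ν) + 1 / (2 * v₀))) := by ring
    _ ≤ _ := by
        rw [mul_assoc]
        gcongr
        nlinarith [mul_nonneg (sz_nn l) (by positivity :
          0 ≤ 2 * |log c| + 1 / (π * v₀ / ν) + 1 / (2 * v₀)), sz_nn l]

theorem Tf.maj (h : Tf ν c φ) {v₀ : ℝ} (h0 : 0 < v₀) : ∃ u : Fm → ℝ, Summable u ∧ ∀ l v, v₀ ≤ v →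
    Integrable (fun s => RR ν c φ l v s * s) ∧ exp (-(2 * π * (xx ν l * v))) *
      ((1 + |xx ν l|) * (∫ s, |RR ν c φ l v s * s|) + |Td ν φ l v|) ≤ u l * (1 + v) := by
  obtain ⟨K1, p1, b1⟩ := h.bd1 h0
  obtain ⟨K2, p2, b2⟩ := h.bd2 h0
  have n0 : (0 : ℝ) < ν := Nat.cast_pos.2 h.pos
  have := pi_pos
  have a0 : 0 < π * v₀ / ν / 4 := by positivity
  refine ⟨_, (geo_Fm a0).mul_left ((K1 + K2) * (1 + 2 / (π * v₀ / ν / 4)) ^ 2), fun l v hv => ?_⟩
  have v0 := h0.trans_le hv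
  have S0 := sz_nn l
  have hα : exp (-(π * v / ν * sz l / 2)) ≤ exp (-(4 * (π * v₀ / ν / 4) * sz l / 2)) := by
    rw [mul_div_cancel₀ _ four_ne_zero]; gcongr
  have n2 : |(l.2.1 : ℝ)| ≤ l.2.1 ^ 2 := by
    have := Int.le_self_sq |l.2.1|
    rw [sq_abs] at this
    exact_mod_cast this
  have i0 : 0 ≤ ∫ s, |RR ν c φ l v s * s| := integral_nonneg fun _ => abs_nonneg _
  by_cases h1 : l.1 = 0 ∧ l.2.2 = 0
  · obtain ⟨k', n, k⟩ := l
    obtain ⟨rfl, rfl⟩ : k' = 0 ∧ k = 0 := h1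
    refine ⟨(b1 n v hv).1, fin_bd a0 (by positivity) v0 (exp_pos _) i0 (xx_le h.pos _)
      (by simpa [sz] using n2) ?_⟩
    rw [show 2 * π * (xx ν (0, n, 0) * v) = π * v / ν * sz (0, n, 0) / 2 by
      simp [sz, xx, disc]; ring]
    gcongr ?_ * ?_
    exact (b1 n v hv).2.trans (le_trans (by gcongr; linarith)
      (le_mul_of_one_le_right (by positivity) (by linarith)))
  by_cases h2 : l.1 = 0 ∨ l.2.2 = 0
  · have : ¬ 0 < l.1 * l.2.2 := by rw [mul_eq_zero.2 h2]; exact lt_irrefl _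
    simp only [RR, Td, h1, h2, this, if_false, if_true, zero_mul, abs_zero, integral_zero,
      mul_zero, add_zero]
    exact ⟨integrable_zero _ _ _, mul_nonneg (by positivity) (by positivity)⟩
  rw [not_or] at h2
  have k1 := one_le_abs' h2.1
  have k2 := one_le_abs' h2.2
  refine ⟨(h.gen h2.1 h2.2 v0).1, fin_bd a0 (by positivity) v0 (exp_pos _) i0 (xx_le h.pos _)
    (by rw [sz, abs_mul]; nlinarith) ((mul_le_mul_of_nonneg_left (b2 l v h2.1 h2.2 hv)
      (exp_pos _).le).trans ?_)⟩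
  rw [← mul_assoc, ← exp_add, show -(2 * π * (xx ν l * v)) +
    -(2 * (π * v / ν) * (|(l.1 : ℝ) * l.2.2| + l.1 * l.2.2)) = -(π * v / ν * sz l / 2) by
      simp [sz, xx, disc]; ring]
  gcongr
  nlinarith

theorem Tf.ser (h : Tf ν c φ) :
    Ser (xx ν) (fun l v => Tl ν c φ l v) fun l v => Td ν φ l v where
  der l v hv := by
    refine HasDerivAt.ofReal_comp ?_
    have n := Ioi_mem_nhds hv
    rw [Td]
    split_ifs with h1 h2
    · obtain ⟨k', n', k⟩ := l
      obtain ⟨rfl, rfl⟩ : k' = 0 ∧ k = 0 := h1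
      obtain ⟨C, hC⟩ := h.deg
      obtain ⟨-, b, hb⟩ := hC n'
      exact (((hasDerivAt_log hv.ne').const_mul _).add_const b).congr_of_eventuallyEq
        (mem_of_superset n fun w hw => (hb w hw).2.2)
    · have h3 := mul_ne_zero_iff.1 h2.ne'
      have n0 : (0 : ℝ) < ν := Nat.cast_pos.2 h.pos
      have m0 : (0 : ℝ) < l.1 * l.2.2 := by exact_mod_cast h2
      have := pi_pos
      refine ((((qq_der (by positivity)).comp v (((((hasDerivAt_id v).const_mul π).div_const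
        ν).const_mul 4).mul_const (l.1 * l.2.2 : ℝ))).neg.const_mul
          (l.2.2 / |(l.2.2 : ℝ)|)).const_mul (φ l)).congr_of_eventuallyEq (mem_of_superset n
            fun w hw => by rw [mem_ofPred_eq, (h.gen h3.1 h3.2 hw).2.2, if_pos h2]; rfl)
              |>.congr_deriv ?_
      have := h3.1
      have := h3.2
      simp only [id]
      field_simp
    · by_cases h3 : l.1 = 0 ∨ l.2.2 = 0
      · simpa [show Tl ν c φ l = fun _ => 0 from funext fun v => by simp [Tl, RR, h1, h3]] using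
          hasDerivAt_const v (0 : ℝ)
      · rw [not_or] at h3
        exact (hasDerivAt_const v _).congr_of_eventuallyEq (mem_of_superset n
          fun w hw => by rw [mem_ofPred_eq, (h.gen h3.1 h3.2 hw).2.2, if_neg h2])
  cont l := by
    refine Complex.continuous_ofReal.comp_continuousOn ?_
    unfold Td
    split_ifs
    · exact continuousOn_const.div continuousOn_id fun _ hv => ne_of_gt hv
    · exact ContinuousOn.div (by fun_prop) (by fun_prop) fun _ hv => mul_ne_zero two_ne_zero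
        (ne_of_gt hv)
    · exact continuousOn_const
  bd v₀ h0 := (h.maj h0).imp fun u k => ⟨k.1, fun l v hv => le_trans (by
    simp only [Complex.norm_real, norm_eq_abs]
    gcongr
    exact abs_integral_le_integral_abs) (k.2 l v hv).2⟩

theorem Tf.int (h : Tf ν c φ) {v₀ : ℝ} (h0 : 0 < v₀) : ∃ C, ∀ τ : ℂ, v₀ ≤ τ.im →
    Integrable (fun s => KK ν c φ τ s * s) ∧ ∫ s, ‖KK ν c φ τ s * s‖ ≤ C * (1 + τ.im) ∧
      FF ν c φ τ = sF (xx ν) (fun l v => Tl ν c φ l v) τ := by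
  obtain ⟨u, hu, b⟩ := h.maj h0
  refine ⟨∑' l, u l, fun τ hτ => ?_⟩
  have i : ∀ l, Integrable fun s => ee (xx ν l * τ) * (RR ν c φ l τ.im s * s : ℝ) := fun l =>
    (b l _ hτ).1.ofReal.const_mul _
  have b1 : ∀ l, ∫ s, ‖ee (xx ν l * τ) * (RR ν c φ l τ.im s * s : ℝ)‖ ≤ u l * (1 + τ.im) :=
    fun l => le_trans (by
      simp only [norm_mul (ee _), integral_const_mul, ee_norm, Complex.im_ofReal_mul,
        Complex.norm_real, norm_eq_abs]
      gcongr
      have : 0 ≤ ∫ s, |RR ν c φ l τ.im s * s| := integral_nonneg fun _ => abs_nonneg _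
      nlinarith [abs_nonneg (xx ν l), abs_nonneg (Td ν φ l τ.im)]) (b l _ hτ).2
  have s := (hu.mul_right _).of_nonneg_of_le (fun l => integral_nonneg fun _ => norm_nonneg _) b1
  have e : ∀ s, KK ν c φ τ s * s = ∑' l, ee (xx ν l * τ) * (RR ν c φ l τ.im s * s : ℝ) :=
    fun s => by simp only [← h.reg (h0.trans_le hτ), ← tsum_mul_right, Complex.ofReal_mul,
      mul_assoc]
  simp only [FF, e]
  refine ⟨(int_tsum i s).1, (int_tsum i s).2.trans ?_, ?_⟩
  · rw [← tsum_mul_right]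
    exact s.tsum_le_tsum b1 (hu.mul_right _)
  · rw [← (hasSum_integral_of_summable_integral_norm i s).tsum_eq]
    exact tsum_congr fun l => by rw [integral_const_mul, integral_complex_ofReal]; rfl

end Vale.Agent.P004Z.Kf
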