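import Vale.Agent.P004Z.Kf.Li

/-! # P004Z, block G5: the Petersson product with the kernel -/

open Complex MeasureTheory Filter Topology Set
open scoped Real ComplexConjugate NumberTheorySymbols UpperHalfPlane

noncomputable section

namespace Vale.Agent.P004Z.Kf

open Du Du.Pe

variable {N : ℕ} [NeZero N] {δ d M : ℕ} {β β' : ℤ} {x : Cf N}

theorem th1_int (hx : IsS δ x) {ν : ℕ} (hν : 0 < ν) {z : ℂ} (hz : 0 < z.im) {φ : Fm → ℂ}
    (h : ∀ l, ‖φ l‖ ≤ 1) (r : ZMod (2 * N)) :
    IntegrableOn (fun τ => fn x r τ * th1 ν φ τ z / τ.im ^ 2) FD := by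
  obtain ⟨A, A0, a⟩ := fn_le hx
  have b : ∀ (l : Fm) (τ w : ℂ), τ.im ≤ w.im → ‖φ l * (evq l (conj z) / z.im ^ 2 * gau ν l w z)‖ ≤
      ‖φ l * (evq l (conj z) / z.im ^ 2 * gau ν l τ z)‖ := fun l τ w hw => by
    simp only [norm_mul]
    gcongr
    exact gau_anti hz l hw
  have s := fun τ hτ => bsum h (gsum (τ := τ) hν hτ hz).2
  refine (int_FD (f := fun τ => fn x r τ * ∑' l, φ l * (evq l (conj z) / z.im ^ 2 * gau ν l τ z))
    (C := A * ∑' l, ‖φ l * (evq l (conj z) / z.im ^ 2 * gau ν l (I / 2) z)‖) (c_pos (N := N))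
    ((fn_dec hx r).diff.continuousOn.mul fun τ hτ => ?_) fun τ hτ => ?_).congr_fun
      (fun τ hτ => ?_) Sk.closed_FD.measurableSet
  · exact ((continuousOn_tsum (s := {w : ℂ | (τ / 2).im < w.im}) (fun l => by unfold gau; fun_prop)
      (s (τ / 2) (by simpa using hτ)) fun l w hw => b l _ w (le_of_lt hw)).continuousAt
        (nh_lt (by simpa using hτ))).continuousWithinAt
  · rw [norm_mul, mul_right_comm]
    exact mul_le_mul (a r τ hτ) (tsum_of_norm_bounded (s (I / 2) (by simp)).hasSum fun l =>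
      b l _ τ (by simpa using hτ)) (norm_nonneg _) (by positivity)
  · have v' : (τ.im : ℂ) ≠ 0 := ofReal_ne_zero.2 hτ.2.2.ne'
    simp only [th1, mul_assoc]
    field_simp

theorem Tf.prod {ν : ℕ} {c : ℝ} {φ : Fm → ℝ} (h : Tf ν c φ) (hx : IsS δ x) (r : ZMod (2 * N)) :
    Integrable (fun p : ℂ × ℝ => KK ν c φ p.1 p.2 * p.2 *
      (conj (fn x r p.1) * (p.1.im ^ (-(1 / 2) : ℝ) : ℝ))) ((volume.restrict FD).prod volume) := by
  obtain ⟨A, A0, a⟩ := fn_le hx
  obtain ⟨C, b⟩ := h.int one_half_pos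
  have m := Sk.closed_FD.measurableSet
  have m2 : Measurable fun p : ℂ × ℝ => KK ν c φ p.1 p.2 :=
    Measurable.tsum fun l => Continuous.measurable (by unfold ee tt ff; fun_prop)
  have m3 : Measurable (fn x r) :=
    Measurable.tsum fun n => Continuous.measurable (by unfold ee; fun_prop)
  have m1 : Measurable fun p : ℂ × ℝ => KK ν c φ p.1 p.2 * p.2 *
      (conj (fn x r p.1) * (p.1.im ^ (-(1 / 2) : ℝ) : ℝ)) :=
    (m2.mul (by fun_prop)).mul ((continuous_conj.measurable.comp (m3.comp measurable_fst)).mul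
      (by fun_prop))
  have := c_pos (N := N)
  have i := (int_FD (f := fun τ => Real.exp (-(π / (2 * N) / 2) * τ.im)) (C := 1) (half_pos this)
    (by fun_prop) fun τ _ => by rw [norm_real, Real.norm_eq_abs, Real.abs_exp, one_mul]).norm
  rw [integrable_prod_iff m1.aestronglyMeasurable, ae_restrict_iff' m]
  refine ⟨.of_forall fun τ hτ => by dsimp only; exact (b τ (FD_im hτ)).1.mul_const _,
    (i.const_mul (|C| * A * (1 / 2) ^ (-(1 / 2) : ℝ) * (1 + 2 / (π / (2 * N))))).mono'
    m1.aestronglyMeasurable.norm.integral_prod_right' ((ae_restrict_iff' m).2 (.of_forall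
      fun τ hτ => ?_))⟩
  have v := FD_im hτ
  have v0 := hτ.2.2
  simp only [norm_mul (KK ν c φ τ _ * _), integral_mul_const]
  rw [Real.norm_of_nonneg (by positivity), norm_mul, norm_conj, norm_real, norm_real,
    Real.norm_of_nonneg (by positivity), Real.norm_of_nonneg (by positivity)]
  calc _ ≤ |C| * (1 + τ.im) * (A * Real.exp (-(π / (2 * N)) * τ.im) *
        (1 / 2) ^ (-(1 / 2) : ℝ)) := by
        gcongr ?_ * (?_ * ?_)
        exacts [(b τ v).2.1.trans (by gcongr; exact le_abs_self _), a r τ v,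
          Real.rpow_le_rpow_of_nonpos one_half_pos v (by norm_num)]
    _ = |C| * A * (1 / 2) ^ (-(1 / 2) : ℝ) * (Real.exp (-(π / (2 * N)) * τ.im) * (1 + τ.im)) := by
        ring
    _ ≤ _ := by
        rw [mul_assoc _ (1 + _)]
        gcongr _ * ?_
        exact lin_exp this v0.le

theorem Dd.fu (h : Dd N δ d M β β') (hx : IsS δ x) {G : ℍ → ℂ} {a : ℕ → ℤ} {k : ℂ}
    (e : P004N.QE G fun n => a n) (V : Van2 a δ)
    (hk : ∀ z, shi (δ * d) (β : ZMod (2 * N)) x z = k * G z) : pet (FK δ d β) (fn x) = 0 := by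
  have m := Sk.closed_FD.measurableSet
  have d0 : (0 : ℝ) < δ := Nat.cast_pos.2 h.d0
  have n : 0 < N * (δ * d) := mul_pos (NeZero.pos N) (mul_pos h.d0 h.d1)
  have i := integrable_finsetSum Finset.univ fun r _ => (h.tf r).prod hx r
  rw [pet, setIntegral_congr_fun m (g := fun τ => ∫ s : ℝ, ∑ r, KK (N * (δ * d) * δ ^ 2) δ
    (pf δ d β r) τ s * s * (conj (fn x r τ) * (τ.im ^ (-(1 / 2) : ℝ) : ℝ))) fun τ hτ => ?_,
    integral_integral_swap i]
  · have V2 := V.2
    rw [(exp_sub _).2] at V2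
    rw [integral_congr_ae (g := fun s => conj (δ / √(N * (δ * d) * δ ^ 2 : ℕ) * k *
      (J(-1 | δ) * gs δ) * (Real.exp s • (tw a δ (I * Real.exp s) * Real.log (Real.exp s)))))
      (.of_forall fun s => ?_), integral_conj, integral_const_mul, V2, mul_zero, map_zero]
    have y0 : 0 < (I * (δ * Real.exp s : ℝ)).im := by rw [I_mul_im, ofReal_re]; positivity
    have y : ∀ j : ℕ, 0 < ((j + I * (δ * Real.exp s : ℝ)) / δ : ℂ).im := fun j => by
      rw [div_natCast_im, add_im, natCast_im, zero_add]; positivity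
    have q : ∑ j ∈ Finset.range δ, J(-1 * j | δ) * G ⟨_, y j⟩ =
        J(-1 | δ) * gs δ * tw a δ (I * Real.exp s) := by
      rw [tw, ← tsum_mul_left]
      refine ((hasSum_sum fun (j : ℕ) _ => (e ⟨_, y j⟩).mul_left _).congr_fun fun n => ?_).tsum_eq.symm
      have := twg δ n h.dat.ok.odd h.dat.ok.sq
      have d' : (δ : ℂ) ≠ 0 := Nat.cast_ne_zero.2 h.d0.ne'
      rw [Finset.sum_congr (g := fun j : ℕ => J(j | δ) * ee ((n : ℤ) * j / δ) * (J(-1 | δ) * a n *
        ee (n * (I * Real.exp s)))) rfl fun j _ => ?_, ← Finset.sum_mul, this]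
      · push_cast
        ring
      · rw [jacobiSym.mul_left, show cexp _ = ee ((n : ℤ) * j / δ) * ee (n * (I * Real.exp s)) by
          rw [← Kf.ee_add, ee]
          congr 1
          push_cast
          field_simp]
        push_cast
        ring
    have w : ∑ j ∈ Finset.range δ, J(-1 * j | δ) * shi (δ * d) (β : ZMod (2 * N)) x ⟨_, y j⟩ =
        k * (J(-1 | δ) * gs δ * tw a δ (I * Real.exp s)) := by
      simp only [hk, ← q, Finset.mul_sum, mul_left_comm]
    simp only [shi, Finset.sum_div, ← integral_const_mul] at w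
    rw [← integral_finsetSum _ fun j _ => (integrable_finsetSum _ fun r _ =>
      th1_int hx n (y j) (ph_bd N _ _) r).const_mul _] at w
    beta_reduce
    rw [Real.log_exp, real_smul, show ∀ A B C D E : ℂ, A * k * B * (C * (D * E)) =
      A * C * E * (k * (B * D)) from fun _ _ _ _ _ => by ring, ← w, ← integral_const_mul,
      ← integral_conj]
    refine setIntegral_congr_fun m fun τ hτ => ?_
    have v0 := hτ.2.2
    simp only [KK, (h.kk v0 _ s).tsum_eq, (th_twi n h.d0 v0 y0 _ (ph_bd N _ _)).2,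
      Finset.mul_sum, Finset.sum_mul, map_sum]
    rw [Finset.sum_comm]
    refine Finset.sum_congr rfl fun j _ => Finset.sum_congr rfl fun r _ => ?_
    rw [Real.sqrt_div v0.le, Real.rpow_neg v0.le, ← Real.sqrt_eq_rpow]
    have : (√τ.im : ℂ) ≠ 0 := ofReal_ne_zero.2 (Real.sqrt_pos.2 v0).ne'
    simp only [map_mul, map_div₀, map_pow, conj_ofReal, map_natCast, ofReal_mul, ofReal_div,
      ofReal_pow, ofReal_natCast, ofReal_inv]
    field_simp
  · have j := fun r => ((h.tf r).int hτ.2.2).choose_spec τ le_rfl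
    beta_reduce
    rw [integral_finsetSum _ fun r _ => (j r).1.mul_const _, Finset.sum_mul]
    simp only [FK, ← fun r => (j r).2.2, FF, integral_mul_const, mul_assoc (integral _ _)]

end Vale.Agent.P004Z.Kf
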