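import Vale.Agent.P004Z.Kf.Ey
import Vale.Agent.P004Z.Lf.Po
import Vale.Agent.P004Z.Du.Pets

/-! # P004Z, block G5: the kernel and the theta functions -/

open Complex MeasureTheory Filter Topology Set
open scoped Real ComplexConjugate NumberTheorySymbols UpperHalfPlane Classical

noncomputable section

namespace Vale.Agent.P004Z.Kf

variable {ν : ℕ} {τ z : ℂ}

theorem gsum (hν : 0 < ν) (hτ : 0 < τ.im) (hz : 0 < z.im) :
    (Summable fun l : Fm => ‖gau ν l τ z‖) ∧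
      Summable fun l : Fm => ‖evq l (conj z) / z.im ^ 2 * gau ν l τ z‖ := by
  have t : 0 < π * τ.im / (2 * ν * Lf.wt ⟨z, hz⟩) := by
    have := Lf.wt_pos ⟨z, hz⟩
    have := Real.pi_pos
    positivity
  have b := fun l => Lf.gau_le l ⟨z, hz⟩ ν hτ.le
  refine ⟨(Lf.sum_nq 0 t).of_nonneg_of_le (fun _ => norm_nonneg _) fun l => by simpa using b l,
    ((Lf.sum_nq 1 t).mul_left ((‖z‖ ^ 2 + ‖z‖ + 1) / z.im ^ 2)).of_nonneg_of_le
      (fun _ => norm_nonneg _) fun l => ?_⟩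
  rw [norm_mul, ← mul_assoc, pow_one, norm_div, div_mul_eq_mul_div _ (z.im ^ 2), norm_pow,
    norm_real, Real.norm_eq_abs, sq_abs]
  have := Lf.nq_nonneg l
  gcongr
  · have h : ∀ k : ℝ, k ^ 2 ≤ Lf.nq l → |k| ≤ 1 + Lf.nq l := fun k h => by
      nlinarith [sq_abs k, sq_nonneg (|k| - 1), abs_nonneg k]
    have h1 := h l.1 (by unfold Lf.nq; nlinarith)
    have h2 := h l.2.1 (by unfold Lf.nq; nlinarith)
    have h3 := h l.2.2 (by unfold Lf.nq; nlinarith)
    refine (norm_add₃_le).trans ?_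
    simp only [norm_mul, norm_pow, norm_conj, norm_intCast]
    nlinarith [norm_nonneg z, sq_nonneg ‖z‖]
  · exact b l

theorem gau_anti (hz : 0 < z.im) (l : Fm) {τ' : ℂ} (h : τ.im ≤ τ'.im) :
    ‖gau ν l τ' z‖ ≤ ‖gau ν l τ z‖ := by
  have := Lf.mj_nonneg l ⟨z, hz⟩
  have := Real.pi_pos
  rw [show z = (⟨z, hz⟩ : ℍ) from rfl, Lf.norm_gau, Lf.norm_gau]
  gcongr

theorem bsum {φ G : Fm → ℂ} {B : ℝ} (h : ∀ l, ‖φ l‖ ≤ B) (hG : Summable fun l => ‖G l‖) :
    Summable fun l => ‖φ l * G l‖ :=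
  (hG.mul_left B).of_nonneg_of_le (fun _ => norm_nonneg _) fun l => by
    rw [norm_mul]; gcongr; exact h l

theorem th0_cont (hν : 0 < ν) (hz : 0 < z.im) {φ : Fm → ℂ} {B : ℝ} (h : ∀ l, ‖φ l‖ ≤ B) :
    ContinuousOn (fun τ => th0 ν φ τ z) UH := fun τ hτ => by
  have p : 0 < (τ / 2).im := by simpa using hτ
  refine ContinuousAt.continuousWithinAt (ContinuousAt.mul (by fun_prop)
    ((continuousOn_tsum (s := {w | (τ / 2).im < w.im}) (fun l => ?_) (bsum h (gsum hν p hz).1)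
      fun l w hw => ?_).continuousAt (Du.Pe.nh_lt (by simpa using hτ))))
  · unfold gau; fun_prop
  · rw [norm_mul, norm_mul]
    gcongr
    exact gau_anti hz l (le_of_lt hw)

variable {δ : ℕ}

theorem up_inj (h : 0 < δ) (j : ℤ) : Function.Injective (up δ j) := fun l m e => by
  have d : (δ : ℤ) ≠ 0 := by omega
  simp only [up, Prod.mk.injEq] at e
  obtain ⟨e1, e2, e3⟩ := e
  rw [e1, add_right_inj, mul_left_inj' d] at e2
  rw [e1, e2, add_right_inj, mul_left_inj' (pow_ne_zero 2 d)] at e3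
  exact Prod.ext e1 (Prod.ext e2 e3)

theorem twi_bd (σ : ℤ) {φ : Fm → ℤ} {B : ℝ} (h : ∀ l, ‖(φ l : ℂ)‖ ≤ B) (l : Fm) :
    ‖(twi δ σ φ l : ℂ)‖ ≤ δ * B := by
  rw [twi, Int.cast_sum]
  refine (norm_sum_le _ _).trans ((Finset.sum_le_card_nsmul _ _ B fun j _ => ?_).trans (by simp))
  rw [Int.cast_mul, norm_mul, ← one_mul B]
  gcongr
  · rcases jacobiSym.trichotomy (σ * j) δ with e | e | e <;> simp [e]
  · rw [Function.extend_def]
    split_ifs
    exacts [h _, by simpa using (norm_nonneg _).trans (h 0)]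

theorem twi_sum (hδ : 0 < δ) (σ : ℤ) {φ : Fm → ℤ} {B : ℝ} (h : ∀ l, ‖(φ l : ℂ)‖ ≤ B) {G : Fm → ℂ}
    (hG : Summable fun l => ‖G l‖) : ∑' l, twi δ σ φ l * G l =
      ∑ j ∈ Finset.range δ, J(σ * j | δ) * ∑' l, φ l * G (up δ j l) := by
  have k : ∀ j : ℤ, HasSum (fun l => (Function.extend (up δ j) φ 0 l : ℤ) * G l)
      (∑' l, φ l * G (up δ j l)) := fun j =>
    ((up_inj hδ j).hasSum_iff fun l hl => by simp [Function.extend_apply' _ _ _ hl]).1
      ((bsum h (hG.comp_injective (up_inj hδ j))).of_norm.hasSum.congr_fun fun l => by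
        simp [(up_inj hδ j).extend_apply])
  exact ((hasSum_sum fun (j : ℕ) _ => (k j).mul_left _).congr_fun fun l => by
    simp [twi, Finset.sum_mul, mul_assoc]).tsum_eq

theorem gau_up (hδ : 0 < δ) (hz : 0 < z.im) (j : ℤ) (l : Fm) :
    gau (ν * δ ^ 2) (up δ j l) τ z = gau ν l τ ((j + z) / δ) ∧
    evq (up δ j l) (conj z) / z.im ^ 2 =
      evq l (conj ((j + z) / δ)) / ((j + z) / δ : ℂ).im ^ 2 := by
  have d : (δ : ℝ) ≠ 0 := Nat.cast_ne_zero.2 hδ.ne'
  have d' : (δ : ℂ) ≠ 0 := Nat.cast_ne_zero.2 hδ.ne'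
  have z' : (z.im : ℂ) ≠ 0 := ofReal_ne_zero.2 hz.ne'
  have e : pz (up δ j l) z = δ * pz l ((j + z) / δ) := by
    simp only [pz, up, normSq_apply, div_natCast_re, div_natCast_im, add_re, add_im, intCast_re,
      intCast_im, zero_add]
    push_cast
    field_simp
    ring
  refine ⟨?_, ?_⟩
  · rw [gau, gau, e, show disc (up δ j l) = δ ^ 2 * disc l by simp only [disc, up]; ring]
    push_cast
    congr 2 <;> field_simp
  · simp only [evq, up, div_natCast_im, add_im, intCast_im, zero_add, map_div₀, map_add,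
      map_intCast, map_natCast]
    push_cast
    field_simp
    ring

theorem th_twi (hν : 0 < ν) (hδ : 0 < δ) (hτ : 0 < τ.im) (hz : 0 < z.im) (σ : ℤ) {φ : Fm → ℤ}
    {B : ℝ} (h : ∀ l, ‖(φ l : ℂ)‖ ≤ B) :
    th0 (ν * δ ^ 2) (fun l => twi δ σ φ l) τ z =
      ∑ j ∈ Finset.range δ, J(σ * j | δ) * th0 ν (fun l => φ l) τ ((j + z) / δ) ∧
    th1 (ν * δ ^ 2) (fun l => twi δ σ φ l) τ z =
      ∑ j ∈ Finset.range δ, J(σ * j | δ) * th1 ν (fun l => φ l) τ ((j + z) / δ) := by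
  have s := gsum (ν := ν * δ ^ 2) (by positivity) hτ hz
  simp only [th0, th1, mul_assoc, twi_sum hδ σ h s.1, twi_sum hδ σ h s.2, gau_up hδ hz,
    Finset.mul_sum, mul_left_comm, Int.cast_natCast, and_self, fun j l => (gau_up (ν := ν)
      (τ := τ) hδ hz j l).2]

theorem ph_bd (N δ : ℕ) (r : ZMod (2 * N)) (l : Fm) : ‖(ph N δ r l : ℂ)‖ ≤ 1 := by
  rw [ph]
  split_ifs
  · rw [gc, Int.cast_prod, norm_prod]
    refine Finset.prod_le_one (fun _ _ => norm_nonneg _) fun p _ => ?_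
    split_ifs
    · rcases jacobiSym.trichotomy l.2.2 p with e | e | e <;> simp [e]
    · rcases jacobiSym.trichotomy l.1 p with e | e | e <;> simp [e]
  · simp

/-- the flip -/
def fl : Fm ≃ Fm := (Equiv.neg ℤ).prodCongr ((Equiv.refl ℤ).prodCongr (Equiv.neg ℤ))

theorem kk_th (hν : 0 < ν) (hτ : 0 < τ.im) {c : ℝ} (hc : 0 < c) {φ : Fm → ℝ} {B : ℝ}
    (h : ∀ l, |φ l| ≤ B) (o : ∀ l : Fm, φ (-l.1, l.2.1, -l.2.2) = -φ l) (s : ℝ) :
    HasSum (fun l => ee (xx ν l * τ) * tt ν c φ l τ.im s)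
      (conj (th1 ν (fun l => φ l) τ (I * (c * Real.exp s : ℝ))) *
        (c * Real.exp s * √(τ.im / ν) / τ.im ^ 2 : ℝ)) := by
  obtain ⟨y, hy⟩ : ∃ y, y = c * Real.exp s := ⟨_, rfl⟩
  have y0 : 0 < y := by rw [hy]; positivity
  have y' : (y : ℂ) ≠ 0 := ofReal_ne_zero.2 y0.ne'
  have v' : (τ.im : ℂ) ≠ 0 := ofReal_ne_zero.2 hτ.ne'
  rw [← hy]
  have S := ((bsum (φ := fun l => (φ l : ℂ)) (B := B) (fun l => by simpa using h l)
    (gsum (z := I * y) hν hτ (by simpa using y0)).2).of_norm.hasSum.star).mul_right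
      ((y * √(τ.im / ν) : ℝ) : ℂ)
  have e : ∀ l : Fm, star (φ l * (evq l (conj (I * y)) / (I * y).im ^ 2 * gau ν l τ (I * y))) *
      (y * √(τ.im / ν) : ℝ) = ee (xx ν l * τ) * (tt ν c φ l τ.im s + φ l * l.2.1 * (I *
        (√(τ.im / ν) * Real.exp (-(π * τ.im / ν) * (l.1 * y + l.2.2 * y⁻¹) ^ 2) : ℝ))) := fun l => by
    have := Real.pi_pos
    rw [tt, ff, show π * τ.im / ν / π = τ.im / ν by field_simp, mul_assoc (l.1 : ℝ), ← hy,
      mul_assoc (l.2.2 : ℝ), Real.exp_neg s, ← mul_inv, ← hy, gau, show -π * τ.im *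
        pz l (I * y) ^ 2 / ν = -(π * τ.im / ν) * (l.1 * y + l.2.2 * y⁻¹) ^ 2 by
          simp [pz, normSq_apply]; field_simp]
    generalize Real.exp _ = E
    generalize √(τ.im / ν) = R
    simp [ee_conj, evq, xx, map_ofNat]
    rw [show -(-(disc l * τ) / (4 * ν)) = (disc l / (4 * ν) * τ : ℂ) by ring]
    generalize ee _ = X
    field_simp
    linear_combination (X * φ l * E * R * y ^ 2 * l.1) * I_mul_I
  simp only [e] at S
  refine Eq.mp (congrArg (HasSum _ ·) ?_)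
    (((S.add (fl.hasSum_iff.2 S)).div_const 2).congr_fun fun l => ?_)
  · rw [add_self_div_two, th1, map_mul _ (_ ^ 2), map_pow, conj_ofReal]
    simp only [mul_assoc, star_def]
    push_cast
    field_simp
  · have e1 : xx ν (-l.1, l.2.1, -l.2.2) = xx ν l := by simp [xx, disc]
    have e2 : tt ν c φ (-l.1, l.2.1, -l.2.2) τ.im s = tt ν c φ l τ.im s := by simp [tt, o, ff_neg]
    rw [Function.comp_apply, show fl l = (-l.1, l.2.1, -l.2.2) from rfl, e1, e2, o]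
    simp only [Int.cast_neg, neg_mul, ← neg_add, neg_sq]
    push_cast
    ring

end Vale.Agent.P004Z.Kf
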