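import Vale.Agent.P004Z.Kf.Da
import Vale.Agent.P004Z.Kf.By
import Vale.Agent.P004Z.Kf.Inv

/-! # P004Z, block G5: the constant term at infinity -/

open Complex MeasureTheory Filter Topology Set
open scoped Real ComplexConjugate NumberTheorySymbols UpperHalfPlane

noncomputable section

namespace Vale.Agent.P004Z.Kf

open Du

variable {ν : ℕ} {c : ℝ} {φ : Fm → ℝ}

variable (c φ) in
/-- the limits of the coefficients -/
def lt (l : Fm) : ℝ := φ l * (l.2.2 / |(l.2.2 : ℝ)| * (Real.log (l.2.2 / (l.1 * c ^ 2)) / 2))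

theorem Tf.lim (h : Tf ν c φ) {b : Fm → ℂ} {C : ℝ} (C0 : 0 ≤ C)
    (h0 : ∀ l v, l.1 * l.2.2 = 0 → b l * Tl ν c φ l v = 0)
    (hb : ∀ l, φ l ≠ 0 → ‖b l‖ ≤ C * Real.exp (-(2 * π * xx ν l))) :
    Tendsto (fun v => ∑' l, b l * Tl ν c φ l v) atTop
      (𝓝 (∑' l, if l.1 * l.2.2 < 0 then b l * lt c φ l else 0)) := by
  obtain ⟨K, K0, k⟩ := h.bd2 one_pos
  have n0 : (0 : ℝ) < ν := Nat.cast_pos.2 h.pos
  have := Real.pi_pos
  have a0 : 0 < π / ν / 2 := by positivity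
  have k' : ∀ (l : Fm) v, l.1 ≠ 0 → l.2.2 ≠ 0 → 1 ≤ v → ‖(Tl ν c φ l v : ℂ)‖ ≤
      Real.exp (-(2 * (π / ν) * (|(l.1 : ℝ) * l.2.2| + l.1 * l.2.2)) * v) * (K * (1 + sz l)) :=
    fun l v h1 h2 hv => by
      rw [norm_real]
      refine (abs_integral_le_integral_abs.trans (le_add_of_nonneg_right (abs_nonneg _))).trans
        ((k l v h1 h2 hv).trans_eq ?_)
      ring_nf
  refine tendsto_tsum_of_dominated_convergence ((geo_Fm (half_pos a0)).mul_left
    (C * K * (1 + 2 / (π / ν / 2)))) (fun l => ?_) ((eventually_ge_atTop 1).mono fun v hv l => ?_)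
  · rcases lt_trichotomy (l.1 * l.2.2) 0 with e | e | e
    · have h3 := mul_ne_zero_iff.1 e.ne
      rw [if_pos e]
      exact tendsto_const_nhds.congr' ((eventually_gt_atTop 0).mono fun v hv => by
        simp only [(h.gen h3.1 h3.2 hv).2.2, if_neg e.not_gt, lt])
    · simpa only [h0 l _ e, if_neg e.not_lt] using tendsto_const_nhds
    · have h3 := mul_ne_zero_iff.1 e.ne'
      have m0 : (0 : ℝ) < l.1 * l.2.2 := by exact_mod_cast e
      rw [if_neg e.not_gt, ← mul_zero (b l)]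
      exact (squeeze_zero_norm' ((eventually_ge_atTop 1).mono fun v => k' l v h3.1 h3.2) (by
        simpa using (Real.tendsto_exp_atBot.comp (tendsto_id.const_mul_atTop_of_neg
          (neg_neg_of_pos (by positivity : 0 < 2 * (π / ν) * (|(l.1 : ℝ) * l.2.2| +
            l.1 * l.2.2))))).mul_const (K * (1 + sz l)))).const_mul _
  by_cases e : l.1 * l.2.2 = 0
  · rw [h0 l v e, norm_zero]
    positivity
  have h3 := mul_ne_zero_iff.1 e
  by_cases p : φ l = 0
  · rw [(h.gen h3.1 h3.2 (one_pos.trans_le hv)).2.2, p]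
    simp only [zero_mul, ofReal_zero, mul_zero, norm_zero]
    positivity
  have k1 := one_le_abs' h3.1
  have k2 := one_le_abs' h3.2
  have n2 : |(l.2.1 : ℝ)| ≤ l.2.1 ^ 2 := by
    have := Int.le_self_sq |l.2.1|
    rw [sq_abs] at this
    exact_mod_cast this
  have s0 := sz_nn l
  have p0 : 0 ≤ 2 * (π / ν) * (|(l.1 : ℝ) * l.2.2| + l.1 * l.2.2) :=
    mul_nonneg (by positivity) (by linarith [neg_abs_le ((l.1 : ℝ) * l.2.2)])
  calc _ ≤ C * Real.exp (-(2 * π * xx ν l)) * (Real.exp (-(2 * (π / ν) * (|(l.1 : ℝ) * l.2.2| +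
        l.1 * l.2.2))) * (K * (1 + sz l))) := by
        rw [norm_mul]
        gcongr
        · exact hb l p
        · refine (k' l v h3.1 h3.2 hv).trans ?_
          gcongr
          nlinarith
    _ = C * K * (Real.exp (-(π / ν / 2) * sz l) * (1 + sz l)) := by
        rw [show -(π / ν / 2) * sz l = -(2 * π * xx ν l) + -(2 * (π / ν) * (|(l.1 : ℝ) * l.2.2| +
          l.1 * l.2.2)) by simp [sz, xx, disc]; ring, Real.exp_add]
        ring
    _ ≤ _ := by
        rw [mul_assoc (C * K)]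
        gcongr _ * ?_
        refine (lin_exp a0 s0).trans ?_
        gcongr ?_ * Real.exp ?_
        rw [neg_mul, neg_mul, neg_le_neg_iff]
        gcongr
        rw [sz, abs_mul]
        nlinarith

/-- the pairs `(n, m)` with `n ^ 2 + 4 m = D` -/
def Pm (D : ℕ) : Finset (ℤ × ℕ) :=
  (Finset.Icc (-D : ℤ) D ×ˢ Finset.Icc 1 D).filter fun p => p.1 ^ 2 + 4 * p.2 = D

theorem mem_Pm {D : ℕ} {p : ℤ × ℕ} : p ∈ Pm D ↔ 0 < p.2 ∧ p.1 ^ 2 + 4 * p.2 = D := by
  simp only [Pm, Finset.mem_filter, Finset.mem_product, Finset.mem_Icc]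
  refine and_congr_left fun e => ⟨fun k => k.2.1, fun k => ?_⟩
  have := Int.le_self_sq p.1
  have := Int.le_self_sq (-p.1)
  rw [neg_sq] at this
  have := sq_nonneg p.1
  omega

theorem sum_D {f : Fm → ℂ} (h : ∀ l : Fm, f (-l.1, l.2.1, -l.2.2) = f l) (D : ℕ) :
    HasSum (fun l : Fm => if disc l = D ∧ l.1 * l.2.2 < 0 then f l else 0)
      (∑ p ∈ Pm D, 2 * ∑ i ∈ p.2.divisorsAntidiagonal, f (-i.1, p.1, i.2)) := by
  have := hasSum_sum fun p (hp : p ∈ Pm D) => sum_pm h p.1 (mem_Pm.1 hp).1 (.inr rfl)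
  simp only [neg_one_mul] at this
  refine this.congr_fun fun l => ?_
  rw [disc, mul_assoc]
  split_ifs with e
  · rw [Finset.sum_eq_single_of_mem (l.2.1, (-(l.1 * l.2.2)).toNat) (mem_Pm.2 (by
      simp only; omega)) fun p _ k => if_neg fun j => k (by
        rw [Prod.mk.injEq] at j; exact Prod.ext j.1.symm (by simp only; omega))]
    exact (if_pos (by rw [Int.toNat_of_nonneg (by omega), neg_neg])).symm
  · refine (Finset.sum_eq_zero fun p hp => if_neg fun j => e ?_).symm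
    obtain ⟨p1, p2⟩ := mem_Pm.1 hp
    rw [Prod.mk.injEq] at j
    rw [j.1, j.2]
    omega

variable {N : ℕ} [NeZero N] {δ d M : ℕ} {β β' : ℤ}

variable (δ d β) in
/-- the `log p` parts -/
def ka (p n : ℕ) (r : ZMod (2 * N)) : ℚ := (∑ q ∈ Pm (δ ^ 3 * d * n), 2 *
  ∑ i ∈ q.2.divisorsAntidiagonal, twi δ (-1) (ph N (δ * d) (β * r)) (-i.1, q.1, i.2) *
    i.2.factorization p : ℤ)

omit [NeZero N] in
theorem ka_lt {p n : ℕ} (r : ZMod (2 * N)) (h : δ ^ 3 * d * n < p) : ka δ d β p n r = 0 := by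
  rw [ka, Finset.sum_eq_zero fun q hq => ?_, Int.cast_zero]
  rw [Finset.sum_eq_zero fun i hi => ?_, mul_zero]
  have := Nat.divisor_le (Nat.snd_mem_divisors_of_mem_antidiagonal hi)
  have := (mem_Pm.1 hq).2
  have := sq_nonneg q.1
  rw [Nat.factorization_eq_zero_of_lt (by omega), Nat.cast_zero, mul_zero]

namespace Dd

variable (h : Dd N δ d M β β')
include h

theorem iv (r : ZMod (2 * N)) {n : ℕ} {q : ℤ × ℕ} (hq : q ∈ Pm (δ ^ 3 * d * n)) :
    ∑ i ∈ q.2.divisorsAntidiagonal, twi δ (-1) (ph N (δ * d) (β * r)) (-i.1, q.1, i.2) = 0 ∧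
    ∀ p : ℕ, p.Prime → Spl d p ∨ J(-(δ ^ 3 * n) | p) = 1 → ∑ i ∈ q.2.divisorsAntidiagonal,
      twi δ (-1) (ph N (δ * d) (β * r)) (-i.1, q.1, i.2) * i.2.factorization p = 0 := by
  obtain ⟨a1, -, a3, -⟩ := ari N δ d M β β' r h.dat h.dv h.sp h.cg
  have e : q.1 ^ 2 + 4 * q.2 = d * (δ ^ 3 * n) := by rw [(mem_Pm.1 hq).2]; push_cast; ring
  have k : ∀ i ∈ q.2.divisorsAntidiagonal, twi δ (-1) (ph N (δ * d) (β * r)) (-i.1, q.1, i.2) =
      twi δ (-1) (ph N δ (β * r)) (-i.1, q.1, i.2) * gc d (-i.1, q.1, i.2) := fun i hi => by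
    rw [a3, if_pos ⟨δ ^ 3 * n, by
      rw [← e, ← (Nat.mem_divisorsAntidiagonal.1 hi).1, disc]; push_cast; ring⟩]
  obtain ⟨i1, i2⟩ := inv M d β' _ h.sp h.dat.m8 a1 _ _ _ e
  exact ⟨(Finset.sum_congr rfl k).trans i1, fun p hp j =>
    (Finset.sum_congr rfl fun i hi => by rw [k i hi]).trans (i2 p hp j)⟩

theorem lgs : Lgs δ d (ka (N := N) δ d β) := by
  have k : ∀ (p n : ℕ) (r : ZMod (2 * N)), (p.Prime → Spl d p ∨ J(-(δ ^ 3 * n) | p) = 1) →
      ka δ d β p n r = 0 := fun p n r j => by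
    rw [ka, Finset.sum_eq_zero fun q hq => ?_, Int.cast_zero]
    by_cases hp : p.Prime
    · rw [(h.iv r hq).2 p hp (j hp), mul_zero]
    · simp [Nat.factorization_eq_zero_of_not_prime _ hp]
  refine ⟨fun n r => (Set.finite_le_nat _).subset fun p hp => not_lt.1 fun j => hp (ka_lt r j),
    fun p n r hp => by_contra fun j => hp (k p n r fun i => absurd i j),
    fun p n r j => k p n r fun _ => .inl j, fun p n r j => k p n r fun _ => .inr ?_⟩
  rw [show -((δ : ℤ) ^ 3 * n) = δ * δ * -(δ * n) by ring, jacobiSym.mul_left, j, jacobiSym.mul_left]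
  rw [← mul_neg, jacobiSym.mul_left] at j
  rcases Int.eq_one_or_neg_one_of_mul_eq_one j with e | e <;> simp [e]

theorem lg_eq (n : ℕ) (r : ZMod (2 * N)) : lg (ka δ d β) n r = ∑ q ∈ Pm (δ ^ 3 * d * n), 2 *
    ∑ i ∈ q.2.divisorsAntidiagonal, (lt δ (pf δ d β r) (-i.1, q.1, i.2) : ℂ) := by
  rw [lg, finsum_eq_sum_of_support_subset (s := Finset.range (δ ^ 3 * d * n + 1)) _ fun p hp =>
    Finset.mem_coe.2 (Finset.mem_range_succ_iff.2 (not_lt.1 fun j => hp (by simp [ka_lt r j])))]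
  norm_cast
  simp only [ka, Rat.cast_intCast]
  push_cast
  simp only [Finset.sum_mul, Finset.mul_sum]
  rw [Finset.sum_comm]
  refine Finset.sum_congr rfl fun q hq => ?_
  have z := congrArg (Int.cast (R := ℝ)) (h.iv r hq).1
  have d0 : (δ : ℝ) ≠ 0 := Nat.cast_ne_zero.2 h.d0.ne'
  rw [Finset.sum_comm, ← sub_eq_zero, ← Finset.sum_sub_distrib, Finset.sum_congr (g := fun i =>
    pf δ d β r (-i.1, q.1, i.2) * Real.log (q.2 * δ ^ 2)) rfl fun i hi => ?_, ← Finset.sum_mul]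
  · simp only [pf, ← Int.cast_sum, z, Int.cast_zero, zero_mul]
  obtain ⟨e, m0⟩ := Nat.mem_divisorsAntidiagonal.1 hi
  obtain ⟨i1, i2⟩ := mul_ne_zero_iff.1 (e.trans_ne m0)
  have j1 : (i.1 : ℝ) ≠ 0 := Nat.cast_ne_zero.2 i1
  have j2 : (i.2 : ℝ) ≠ 0 := Nat.cast_ne_zero.2 i2
  have k : ∑ p ∈ Finset.range (δ ^ 3 * d * n + 1), i.2.factorization p * Real.log p =
      Real.log i.2 := by
    rw [Real.log_nat_eq_sum_factorization, Finsupp.sum_of_support_subset _ (fun p hp => ?_) _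
      fun _ _ => by simp]
    have := Nat.divisor_le (Nat.snd_mem_divisors_of_mem_antidiagonal hi)
    have := (mem_Pm.1 hq).2
    have := sq_nonneg q.1
    have := Nat.le_of_mem_primeFactors hp
    exact Finset.mem_range.2 (by omega)
  simp only [mul_assoc, ← Finset.mul_sum] at k ⊢
  simp only [k, lt, pf, ← e, Int.cast_neg, Int.cast_natCast,
    Nat.abs_cast, div_self j2, neg_mul, div_neg, Real.log_neg_eq_log, Nat.cast_mul]
  rw [Real.log_div j2 (by positivity), mul_assoc (i.1 : ℝ), mul_left_comm (i.1 : ℝ),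
    Real.log_mul j2 (by positivity)]
  ring

theorem sup (r : ZMod (2 * N)) (l : Fm) (v : ℝ) (k : TK δ d β r l v ≠ 0) :
    ∃ n : ℤ, disc l = δ ^ 3 * d * n ∧ In N δ n r ∧ (l.1 * l.2.2 = 0 → l.2.1 ≠ 0) := by
  obtain ⟨-, -, -, a4, a5⟩ := ari N δ d M β β' r h.dat h.dv h.sp h.cg
  have a : ∀ l, pf δ d β r l ≠ 0 → ∃ n : ℤ, disc l = δ ^ 3 * d * n ∧ In N δ n r := fun l j =>
    a4 l (Int.cast_ne_zero.1 j)
  by_contra j
  refine k (ofReal_eq_zero.2 ?_)
  simp only [Tl, RR, tt]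
  split_ifs with h1 h2
  · have : ∀ k, pf δ d β r (0, l.2.1, k) = 0 ∧ pf δ d β r (k, l.2.1, 0) = 0 := fun k => by
      by_cases e : l.2.1 = 0
      · simp [e, h.ar, a5]
      · refine ⟨by_contra fun i => ?_, by_contra fun i => ?_⟩ <;>
          exact j ((a _ i).imp fun n u => ⟨by simpa [disc, h1] using u.1, u.2, fun _ => e⟩)
    simp [this]
  · simp
  · simp [show pf δ d β r l = 0 from by_contra fun i =>
      j ((a _ i).imp fun n u => ⟨u.1, u.2, fun e => absurd (mul_eq_zero.1 e) h2⟩)]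

theorem ex {l : Fm} {n : ℤ} (e : disc l = δ ^ 3 * d * n) : disc l / (δ ^ 3 * d) = n ∧
    xx (N * (δ * d) * δ ^ 2) l = n / (4 * N) := by
  have := h.d0
  have := h.d1
  have := NeZero.pos N
  rw [xx, e, Int.mul_ediv_cancel_left _ (by positivity)]
  push_cast
  exact ⟨rfl, by field_simp⟩

theorem lim {a : ℤ → ZMod (2 * N) → ℂ} {x : Cf N} {c : PP N} (H : Harm δ a x c) (o : Off δ d c) :
    Tendsto (fun v => ∑ r, ∑' l, a (-(disc l / (δ ^ 3 * d))) r * TK δ d β r l v) atTop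
      (𝓝 (pr (lg (ka δ d β)) c)) := by
  have d0 := h.d0
  have d1 := h.d1
  rw [pr, Finsupp.sum_of_support_subset _ (s := c.support.image Prod.fst ×ˢ Finset.univ)
    (fun i hi => Finset.mem_product.2 ⟨Finset.mem_image_of_mem _ hi, Finset.mem_univ _⟩) _
    (by simp), Finset.sum_product_right]
  refine tendsto_finsetSum _ fun r _ => ?_
  have a4 := (ari N δ d M β β' r h.dat h.dv h.sp h.cg).2.2.2.1
  have s := H.sum r I (by simp)
  refine Eq.mp (congrArg (fun x => Tendsto _ _ (𝓝 x)) (HasSum.tsum_eq ?_)) ((h.tf r).lim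
    (C := ∑' n : ℤ, ‖a n r * ee (n * I / (4 * N))‖) (tsum_nonneg fun _ => norm_nonneg _)
    (fun l v e => by_contra fun k => ?_) fun l k => ?_)
  · simp only [h.lg_eq]
    refine (hasSum_sum fun n _ => (sum_D (f := fun l => lt δ (pf δ d β r) l) (fun l => by
      simp [lt, h.odd, neg_div, div_neg]) _).mul_left _).congr_fun fun l => ?_
    by_cases p : pf δ d β r l = 0
    · simp [lt, p]
    obtain ⟨n, e, -⟩ := a4 l (Int.cast_ne_zero.1 p)
    split_ifs with j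
    · have n0 : 0 < n := (mul_pos_iff_of_pos_left (a := (δ : ℤ) ^ 3 * d) (by positivity)).1 (by
        rw [← e, disc]; nlinarith [sq_nonneg l.2.1])
      lift n to ℕ using n0.le
      rw [(h.ex e).1, ← H.pp n r (Int.natCast_pos.1 n0), Finset.sum_eq_single n (fun b _ k => ?_)
        fun k => ?_, if_pos ⟨by exact_mod_cast e, j⟩]
      · rw [if_neg fun i => k (mul_left_cancel₀ (a := δ ^ 3 * d) (by positivity)
          (by exact_mod_cast i.1.symm.trans e)), mul_zero]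
      · rw [Finsupp.notMem_support_iff.1 fun i => k (Finset.mem_image_of_mem _ i), zero_mul]
    · simp [j]
  · obtain ⟨k1, k2⟩ := mul_ne_zero_iff.1 k
    obtain ⟨n, e1, -, e2⟩ := h.sup r l v k2
    rw [(h.ex e1).1] at k1
    rw [disc, mul_assoc, e, mul_zero, sub_zero] at e1
    have n0 : 0 < n := (mul_pos_iff_of_pos_left (a := (δ : ℤ) ^ 3 * d) (by positivity)).1
      (e1 ▸ sq_pos_of_ne_zero (e2 e))
    lift n to ℕ using n0.le
    obtain ⟨b, hb⟩ : (δ : ℤ) ∣ l.2.1 := (Int.pow_dvd_pow_iff two_ne_zero).1 ⟨δ * d * n, by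
      rw [e1]; ring⟩
    refine o (n, r) (Finsupp.mem_support_iff.2 (H.pp n r (Int.natCast_pos.1 n0) ▸ k1))
      (Int.isSquare_natCast_iff.1 ⟨b, mul_left_cancel₀ (a := (δ : ℤ) ^ 2) (by positivity) ?_⟩)
    push_cast
    linear_combination (l.2.1 + δ * b) * hb - e1
  · obtain ⟨n, e, -⟩ := a4 l (Int.cast_ne_zero.1 k)
    have := s.le_tsum (-n) fun _ _ => norm_nonneg _
    rw [norm_mul, Kf.ee_norm, ← le_div_iff₀ (Real.exp_pos _), div_eq_mul_inv, ← Real.exp_neg] at this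
    rw [(h.ex e).1, (h.ex e).2]
    refine this.trans_eq ?_
    rw [show ((-n : ℤ) * I / (4 * N) : ℂ) = (-(n / (4 * N)) : ℝ) * I by push_cast; ring, mul_I_im,
      ofReal_re, neg_neg, mul_neg]

end Dd

end Vale.Agent.P004Z.Kf
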