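import Vale.Agent.P004Z.Kf.Kt

/-! # P004Z, block G5: the lowered kernel -/

open Complex MeasureTheory Filter Topology Set
open scoped Real ComplexConjugate NumberTheorySymbols UpperHalfPlane Classical

noncomputable section

namespace Vale.Agent.P004Z.Kf

open Du

theorem fib {ι κ : Type} [DecidableEq κ] (g : ι → κ) {f : ι → ℂ} {E : κ → ℂ} {S : ℂ}
    (h : HasSum (fun i => f i * E (g i)) S) :
    HasSum (fun k => (∑' i, if g i = k then f i else 0) * E k) S :=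
  (h.tsum_fiberwise g).congr_fun fun k => by
    rw [tsum_subtype (g ⁻¹' {k}) fun i => f i * E (g i), ← tsum_mul_right]
    refine tsum_congr fun i => ?_
    by_cases e : g i = k <;> simp [e]

theorem int_fin {ι : Type} {z : ι → ℤ} (h : Summable fun i => (z i : ℂ)) :
    ∑' i, (z i : ℂ) = (∑ᶠ i, z i : ℤ) := by
  have f : (Function.support z).Finite := by
    refine (Filter.eventually_cofinite.1 (h.tendsto_cofinite_zero.norm.eventually_lt_const
      (show ‖(0 : ℂ)‖ < 1 by simp))).subset fun i hi => not_lt.2 ?_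
    rw [norm_intCast]
    exact one_le_abs' hi
  rw [tsum_eq_finsum (f.subset fun i hi e => hi (by simp [e]))]
  exact ((Int.castAddHom ℂ).map_finsum f).symm

theorem sum_pm {f : Fm → ℂ} (h : ∀ l : Fm, f (-l.1, l.2.1, -l.2.2) = f l) (n : ℤ) {m : ℕ}
    (hm : 0 < m) {ε : ℤ} (hε : ε = 1 ∨ ε = -1) :
    HasSum (fun l : Fm => if (l.2.1, l.1 * l.2.2) = (n, ε * m) then f l else 0)
      (2 * ∑ i ∈ m.divisorsAntidiagonal, f (ε * i.1, n, i.2)) := by
  have i : Function.Injective fun i : ℤ × ℤ => ((i.1, n, i.2) : Fm) := fun a b e =>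
    Prod.ext (by simp_all) (by simp_all)
  refine (i.hasSum_iff fun l hl => if_neg fun e => hl ⟨(l.1, l.2.2), by
    rw [← (Prod.mk.inj e).1]⟩).1 (Eq.mp (congrArg (HasSum _ ·) ?_) (hasSum_sum_of_ne_finset_zero
      (s := (ε * m).divisorsAntidiag) fun b hb => if_neg fun e => hb
        (Int.mem_divisorsAntidiag.2 ⟨(Prod.mk.inj e).2, by rcases hε with rfl | rfl <;> omega⟩)))
  refine (Finset.sum_congr (g := fun b : ℤ × ℤ => f (b.1, n, b.2)) rfl fun b hb =>
    if_pos (by rw [← (Int.mem_divisorsAntidiag.1 hb).1])).trans ?_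
  rw [two_mul]
  have k : ∀ a b : ℤ, f (a, n, -b) = f (-a, n, b) := fun a b => by simpa using h (-a, n, b)
  rcases hε with rfl | rfl
  · rw [one_mul, Int.divisorsAntidiag_natCast, Finset.sum_disjUnion, Finset.sum_map,
      Finset.sum_map]
    simp [k]
  · rw [neg_one_mul, Int.divisorsAntidiag_neg_natCast, Finset.sum_disjUnion, Finset.sum_map,
      Finset.sum_map]
    simp [k]

/-- the terms of weight `-1/2` -/
def EE (ν : ℕ) (τ : ℂ) (k : ℤ × ℤ) : ℂ := ee ((k.1 ^ 2 * τ - 4 * k.2 * conj τ) / (4 * ν))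

/-- the coefficients of the lowered kernel -/
def aa (φ : Fm → ℝ) (l : Fm) : ℝ :=
  if l.1 = 0 ∧ l.2.2 = 0 then al φ l.2.1
  else if 0 < l.1 * l.2.2 then φ l * (l.2.2 / |(l.2.2 : ℝ)|) / 2 else 0

variable {ν : ℕ} {c : ℝ} {φ : Fm → ℝ} {τ : ℂ}

theorem im_eq (τ : ℂ) : (τ.im : ℂ) = I * (conj τ - τ) / 2 := by
  simp [Complex.ext_iff]

theorem Tf.lo (h : Tf ν c φ) (hτ : 0 < τ.im) :
    HasSum (fun l : Fm => aa φ l * EE ν τ (l.2.1, l.1 * l.2.2))
      (τ.im * Lo (sF (xx ν) fun l v => Tl ν c φ l v) τ) :=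
  ((h.ser.main.2 τ hτ).mul_left _).congr_fun fun l => by
    have v' : (τ.im : ℂ) ≠ 0 := ofReal_ne_zero.2 hτ.ne'
    have n' : (ν : ℂ) ≠ 0 := Nat.cast_ne_zero.2 h.pos.ne'
    have : (π : ℂ) ≠ 0 := ofReal_ne_zero.2 Real.pi_ne_zero
    rw [aa, Td, EE]
    split_ifs with h1 h2
    · simp only [xx, disc, h1.1, h1.2]
      push_cast
      field_simp
      congr 2
      ring
    · rw [show ee _ = ee (xx ν l * τ) * Real.exp (-(4 * (π * τ.im / ν) * (l.1 * l.2.2))) by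
        rw [ee_real, ← ee_add, xx, disc]
        push_cast
        rw [im_eq]
        congr 1
        field_simp
        linear_combination (-16 * l.1 * l.2.2 * (conj τ - τ)) * I_mul_I]
      simp only [ofReal_div, ofReal_mul, ofReal_ofNat]
      field_simp
    · simp

theorem gau_cm {d : ℕ} (hν : 0 < ν) (hd : 0 < d) {Q : Fm} (hQ : disc Q = -d) {w : ℍ}
    (hw : evq Q w = 0) (l : Fm) : ∃ m : ℕ, bil l Q ^ 2 + d * disc l = 4 * m ∧
      gau ν l τ w = EE (ν * d) τ (-bil l Q, m) := by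
  have e1 : (bil l Q : ℝ) ^ 2 = d * pz l w ^ 2 := by
    have := Hd.root_d hw
    rw [hQ, Int.cast_neg, Int.cast_natCast] at this
    have y := w.im_ne_zero
    rw [show (d : ℝ) = 4 * Q.1 ^ 2 * w.im ^ 2 by linarith, bil]
    push_cast
    rw [Hd.root_b hw, Hd.root_c hw, pz, normSq_apply, UpperHalfPlane.coe_re, UpperHalfPlane.coe_im]
    field_simp
    ring
  have e2 : 0 ≤ bil l Q ^ 2 + d * disc l := by
    have := Lf.pz_sq l w
    have : (0 : ℝ) ≤ bil l Q ^ 2 + d * disc l := by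
      rw [e1, ← mul_add, this]
      have := normSq_nonneg (evq l w)
      positivity
    exact_mod_cast this
  obtain ⟨m, hm⟩ : (4 : ℤ) ∣ bil l Q ^ 2 + d * disc l := ⟨(l.1 * Q.2.2 - l.2.2 * Q.1) ^ 2 -
    (l.1 * Q.2.1 - l.2.1 * Q.1) * (l.2.1 * Q.2.2 - l.2.2 * Q.2.1), by
      rw [← neg_neg (d : ℤ), ← hQ, bil, disc, disc]; ring⟩
  lift m to ℕ using by omega
  refine ⟨m, hm, ?_⟩
  have n' : (ν : ℂ) ≠ 0 := Nat.cast_ne_zero.2 hν.ne'
  have d' : (d : ℂ) ≠ 0 := Nat.cast_ne_zero.2 hd.ne'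
  have : (π : ℂ) ≠ 0 := ofReal_ne_zero.2 Real.pi_ne_zero
  have e3 : (4 * m : ℂ) = bil l Q ^ 2 + d * disc l := by exact_mod_cast hm.symm
  have e4 : (bil l Q : ℂ) ^ 2 = d * pz l w ^ 2 := by exact_mod_cast e1
  rw [gau, ee_real, ← ee_add, EE]
  push_cast
  rw [e3, neg_sq, e4, im_eq]
  congr 1
  field_simp
  linear_combination (4 * (pz l w : ℂ) ^ 2 * (conj τ - τ)) * I_mul_I

variable {N : ℕ} [NeZero N] {δ : ℕ}

/-- the soft argument -/
theorem soft {F Θ D : ZMod (2 * N) → ℂ → ℂ} (hF : ∀ r, ContDiffOn ℝ 1 (F r) UH)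
    (hD : ∀ r, DifferentiableOn ℂ (D r) UH)
    (lF : ∀ τ : ℂ, 0 < τ.im → ∀ r, F r (-1 / τ) = τ ^ 2 / hw τ * ∑ s, sm N δ r s * F s τ)
    (lΘ : ∀ τ : ℂ, 0 < τ.im → ∀ r, Θ r (-1 / τ) = (hw τ)⁻¹ * ∑ s, sm N δ r s * Θ s τ)
    (e : ∀ τ : ℂ, 0 < τ.im → ∀ r, τ.im ^ 2 * Lo (F r) τ - Θ r τ = τ.im * D r τ)
    (hτ : 0 < τ.im) (r : ZMod (2 * N)) : Lo (F r) τ = Θ r τ / τ.im ^ 2 := by
  have df : ∀ r (τ : ℂ), 0 < τ.im → DifferentiableAt ℝ (F r) τ := fun r τ hτ =>
    ((hF r).contDiffAt (opn.mem_nhds hτ)).differentiableAt one_ne_zero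
  have z := two_wt (f := fun τ => D r (-1 / τ) * hw τ / τ) (g := fun τ => ∑ s, sm N δ r s * D s τ)
    (fun τ hτ => (((((hD r).differentiableAt (opn.mem_nhds (S_pos hτ))).comp τ
      (S_der hτ).differentiableAt).mul (hw_diff hτ)).div differentiableAt_id
        (ne0 hτ)).differentiableWithinAt)
    (DifferentiableOn.fun_sum fun s _ => (hD s).const_mul _) (fun τ hτ => by
      have t := ne0 hτ
      have t' : conj τ ≠ 0 := (map_ne_zero _).2 t
      have w := hw_ne hτ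
      have v' : (τ.im : ℂ) ≠ 0 := ofReal_ne_zero.2 hτ.ne'
      have dj : DifferentiableAt ℂ (fun τ => τ ^ 2 / hw τ) τ :=
        (differentiableAt_id.pow 2).div (hw_diff hτ) w
      have dc : ∀ s, DifferentiableAt ℝ (fun τ => sm N δ r s * F s τ) τ := fun s =>
        (df s τ hτ).const_mul _
      have e1 := Lo_comp (df r _ (S_pos hτ)) (S_der hτ)
      rw [show Lo (fun τ => F r (-1 / τ)) τ =
          Lo (fun τ => τ ^ 2 / hw τ * ∑ s, sm N δ r s * F s τ) τ by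
        rw [Lo, Lo, Filter.EventuallyEq.fderiv_eq (mem_of_superset (opn.mem_nhds hτ)
          fun τ hτ => lF τ hτ r)], Lo_mul (dj.restrictScalars ℝ) (.fun_sum fun s _ => dc s),
        Lo_hol dj, Lo_sum _ fun s _ => dc s, Finset.sum_congr rfl fun s _ =>
          Lo_mul (differentiableAt_const _) (df s τ hτ)] at e1
      simp only [Lo_hol (differentiableAt_const _), zero_mul, zero_add, map_div₀, map_one,
        map_pow] at e1
      have e2 := e _ (S_pos hτ) r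
      have e3 : τ.im ^ 2 * ∑ s, sm N δ r s * Lo (F s) τ - ∑ s, sm N δ r s * Θ s τ =
          τ.im * ∑ s, sm N δ r s * D s τ := by
        simp only [Finset.mul_sum, ← Finset.sum_sub_distrib]
        exact Finset.sum_congr rfl fun s _ => by linear_combination sm N δ r s * e τ hτ s
      rw [lΘ τ hτ, S_im, ofReal_div, ← mul_conj] at e2
      field_simp at e1 e2 ⊢
      refine mul_left_cancel₀ (mul_ne_zero (mul_ne_zero t t') v') ?_
      linear_combination -e2 - τ.im ^ 2 * e1 + τ ^ 2 * conj τ ^ 2 * e3) (S_pos hτ)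
  have := ne0 (S_pos hτ)
  have := hw_ne (S_pos hτ)
  have v' : (τ.im : ℂ) ≠ 0 := ofReal_ne_zero.2 hτ.ne'
  simp only [S_S hτ, div_eq_zero_iff, mul_eq_zero, *, or_false] at z
  rw [eq_div_iff (pow_ne_zero 2 v')]
  linear_combination e τ hτ r + τ.im * z

end Vale.Agent.P004Z.Kf
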