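import Vale.Agent.P004Z.Kf.St

/-! # P004Z, block G5: the lowering operator and series -/

open Complex MeasureTheory Filter Topology Set
open scoped Real ComplexConjugate

noncomputable section

namespace Vale.Agent.P004Z.Kf

theorem ee_add (x y : ℂ) : ee (x + y) = ee x * ee y := by rw [ee, ee, ee, mul_add, exp_add]

theorem ee_int (n : ℤ) : ee n = 1 := by rw [ee, mul_comm, exp_int_mul_two_pi_mul_I]

theorem ee_conj (x : ℂ) : conj (ee x) = ee (-conj x) := by
  simp [ee, ← exp_conj, map_ofNat]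

theorem ee_norm (x : ℂ) : ‖ee x‖ = Real.exp (-(2 * π * x.im)) := by
  simp [ee, norm_exp]

theorem ee_real (x : ℝ) : ((Real.exp x : ℝ) : ℂ) = ee (-(I * x) / (2 * π)) := by
  have : (π : ℂ) ≠ 0 := ofReal_ne_zero.2 Real.pi_ne_zero
  rw [ee, ofReal_exp]
  congr 1
  field_simp
  simp

theorem ee_der (c τ : ℂ) : HasDerivAt (fun τ => ee (c * τ)) (ee (c * τ) * (2 * π * I * c)) τ := by
  simpa [ee] using (((hasDerivAt_id τ).const_mul c).const_mul (2 * π * I)).cexp

/-- the upper half plane -/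
abbrev UH : Set ℂ := {τ | 0 < τ.im}

theorem opn : IsOpen UH := isOpen_lt continuous_const continuous_im

/-- the functional -/
def La : (ℂ →L[ℝ] ℂ) →L[ℝ] ℂ :=
  ContinuousLinearMap.apply ℝ ℂ I - I • ContinuousLinearMap.apply ℝ ℂ 1

theorem Lo_eq {h : ℂ → ℂ} {D : ℂ →L[ℝ] ℂ} {τ : ℂ} (d : HasFDerivAt h D τ) :
    Lo h τ = D I - I * D 1 := by rw [Lo, d.fderiv]

theorem Lo_hol {h : ℂ → ℂ} {τ : ℂ} (d : DifferentiableAt ℂ h τ) : Lo h τ = 0 := by
  rw [Lo_eq (d.hasDerivAt.hasFDerivAt.restrictScalars ℝ)]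
  simp [mul_comm]

theorem Lo_mul {g h : ℂ → ℂ} {τ : ℂ} (dg : DifferentiableAt ℝ g τ) (dh : DifferentiableAt ℝ h τ) :
    Lo (fun τ => g τ * h τ) τ = Lo g τ * h τ + g τ * Lo h τ := by
  rw [Lo_eq (dg.hasFDerivAt.fun_mul dh.hasFDerivAt), Lo, Lo]
  simp
  ring

theorem Lo_add {g h : ℂ → ℂ} {τ : ℂ} (dg : DifferentiableAt ℝ g τ) (dh : DifferentiableAt ℝ h τ) :
    Lo (fun τ => g τ + h τ) τ = Lo g τ + Lo h τ := by
  rw [Lo_eq (dg.hasFDerivAt.fun_add dh.hasFDerivAt), Lo, Lo]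
  simp
  ring

theorem Lo_sum {ι : Type} (s : Finset ι) {g : ι → ℂ → ℂ} {τ : ℂ}
    (d : ∀ i ∈ s, DifferentiableAt ℝ (g i) τ) :
    Lo (fun τ => ∑ i ∈ s, g i τ) τ = ∑ i ∈ s, Lo (g i) τ := by
  rw [Lo_eq (HasFDerivAt.fun_sum fun i hi => (d i hi).hasFDerivAt)]
  simp [Lo, Finset.mul_sum]

theorem Lo_comp {h σ : ℂ → ℂ} {τ c : ℂ} (dh : DifferentiableAt ℝ h (σ τ))
    (d : HasDerivAt σ c τ) : Lo (fun τ => h (σ τ)) τ = conj c * Lo h (σ τ) := by
  have e : ∀ w : ℂ, fderiv ℝ h (σ τ) w =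
      w.re * fderiv ℝ h (σ τ) 1 + w.im * fderiv ℝ h (σ τ) I := fun w => by
    rw [← real_smul, ← real_smul, ← map_smul, ← map_smul, ← map_add]
    simp
  rw [show (fun τ => h (σ τ)) = h ∘ σ from rfl,
    Lo_eq (dh.hasFDerivAt.comp τ (d.hasFDerivAt.restrictScalars ℝ)), Lo]
  simp only [ContinuousLinearMap.comp_apply, ContinuousLinearMap.coe_restrictScalars',
    ContinuousLinearMap.toSpanSingleton_apply, smul_eq_mul, one_mul]
  rw [e (I * c), e c, show conj c = c.re - c.im * I by simp [Complex.ext_iff]]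
  simp only [I_mul_re, I_mul_im, ofReal_neg]
  linear_combination (-c.im * fderiv ℝ h (σ τ) 1) * I_mul_I

theorem S_im (τ : ℂ) : (-1 / τ).im = τ.im / normSq τ := by
  simp [div_eq_mul_inv]

theorem ne0 {τ : ℂ} (h : 0 < τ.im) : τ ≠ 0 := fun e => by simp [e] at h

theorem S_pos {τ : ℂ} (h : 0 < τ.im) : 0 < (-1 / τ).im := by
  rw [S_im]; exact div_pos h (normSq_pos.2 (ne0 h))

theorem S_der {τ : ℂ} (h : 0 < τ.im) : HasDerivAt (fun τ : ℂ => -1 / τ) (1 / τ ^ 2) τ := by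
  simpa [div_eq_mul_inv] using (hasDerivAt_inv (ne0 h)).fun_neg

/-- no function has two weights -/
theorem two_wt {f g : ℂ → ℂ} (hf : DifferentiableOn ℂ f UH) (hg : DifferentiableOn ℂ g UH)
    (h : ∀ τ : ℂ, 0 < τ.im → f τ = conj τ * g τ) {τ : ℂ} (hτ : 0 < τ.im) : f τ = 0 := by
  have n := opn.mem_nhds hτ
  have e := Lo_hol (hf.differentiableAt n)
  rw [show Lo f τ = Lo (fun τ => conj τ * g τ) τ by
    rw [Lo, Lo, Filter.EventuallyEq.fderiv_eq (mem_of_superset n h)],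
    Lo_mul (g := conj) conjCLE.differentiableAt ((hg.differentiableAt n).restrictScalars ℝ),
    Lo_hol (hg.differentiableAt n), Lo_eq (h := conj) conjCLE.hasFDerivAt] at e
  simp at e
  rw [h τ hτ, e.resolve_left (by norm_num [Complex.ext_iff]), mul_zero]

theorem hol {ι : Type} {a : ι → ℂ} {x : ι → ℝ}
    (h : ∀ τ : ℂ, 0 < τ.im → Summable fun i => ‖a i * ee (x i * τ)‖) :
    DifferentiableOn ℂ (fun τ => ∑' i, a i * ee (x i * τ)) UH := fun τ hτ => by
  have h0 : 0 < τ.im := hτ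
  have o : IsOpen {w : ℂ | τ.im / 2 < w.im ∧ w.im < 2 * τ.im} :=
    (isOpen_lt continuous_const continuous_im).inter (isOpen_lt continuous_im continuous_const)
  refine ((differentiableOn_tsum_of_summable_norm ((h (I * (τ.im / 2 : ℝ)) (by simpa)).add
    (h (I * (2 * τ.im : ℝ)) (by simpa))) (fun i w _ => ((ee_der _ w).const_mul
      _).differentiableAt.differentiableWithinAt) o fun i w hw => ?_).differentiableAt
    (o.mem_nhds ⟨by linarith, by linarith⟩)).differentiableWithinAt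
  simp only [norm_mul, ee_norm, ← mul_add, im_ofReal_mul, I_mul_im, ofReal_re]
  gcongr
  have := Real.pi_pos
  rcases le_total 0 (x i) with h1 | h1
  · exact le_add_of_le_of_nonneg (by gcongr; exact hw.1.le) (Real.exp_pos _).le
  · refine le_add_of_nonneg_of_le (Real.exp_pos _).le (Real.exp_le_exp.2 ?_)
    nlinarith [mul_nonneg (neg_nonneg.2 h1) (sub_nonneg.2 hw.2.le)]

/-- series with coefficients depending on `v` -/
structure Ser {ι : Type} (x : ι → ℝ) (T T' : ι → ℝ → ℂ) : Prop where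
  der : ∀ i v, 0 < v → HasDerivAt (T i) (T' i v) v
  cont : ∀ i, ContinuousOn (T' i) (Ioi 0)
  bd : ∀ v₀, 0 < v₀ → ∃ u : ι → ℝ, Summable u ∧ ∀ i v, v₀ ≤ v →
    Real.exp (-(2 * π * (x i * v))) * ((1 + |x i|) * ‖T i v‖ + ‖T' i v‖) ≤ u i * (1 + v)

/-- the sum -/
def sF {ι : Type} (x : ι → ℝ) (T : ι → ℝ → ℂ) (τ : ℂ) : ℂ := ∑' i, ee (x i * τ) * T i τ.im

variable {ι : Type} {x : ι → ℝ} {T T' : ι → ℝ → ℂ}

theorem Ser.le (h : Ser x T T') {v₀ : ℝ} (h0 : 0 < v₀) : ∃ u : ι → ℝ, Summable u ∧ ∀ i (τ : ℂ),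
    v₀ ≤ τ.im → ‖ee (x i * τ) * T i τ.im‖ ≤ u i * (1 + τ.im) :=
  (h.bd v₀ h0).imp fun u k => ⟨k.1, fun i τ hτ => le_trans (by
    rw [norm_mul, ee_norm, im_ofReal_mul]
    gcongr
    nlinarith [norm_nonneg (T i τ.im), norm_nonneg (T' i τ.im), abs_nonneg (x i)]) (k.2 i _ hτ)⟩

theorem Ser.main (h : Ser x T T') : ContDiffOn ℝ 1 (sF x T) UH ∧
    ∀ τ : ℂ, 0 < τ.im → HasSum (fun i => ee (x i * τ) * T' i τ.im) (Lo (sF x T) τ) := by
  let D : ι → ℂ → ℂ →L[ℝ] ℂ := fun i τ => (ee (x i * τ) * (2 * π * I * x i) * T i τ.im) •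
    ContinuousLinearMap.id ℝ ℂ + imCLM.smulRight (ee (x i * τ) * T' i τ.im)
  have hD : ∀ i (τ : ℂ), 0 < τ.im → HasFDerivAt (fun τ : ℂ => ee (x i * τ) * T i τ.im) (D i τ) τ :=
    fun i τ hτ => (((ee_der _ τ).hasFDerivAt.restrictScalars ℝ).fun_mul
      ((h.der i _ hτ).hasFDerivAt.comp τ imCLM.hasFDerivAt)).congr_fderiv (by
        ext w; simp [D]; ring)
  have key : ∀ τ : ℂ, 0 < τ.im → ∃ s ∈ 𝓝 τ, ContinuousOn (fun w => ∑' i, D i w) s ∧
      ∀ w ∈ s, (Summable fun i => D i w) ∧ HasFDerivAt (sF x T) (∑' i, D i w) w := fun τ h0 => by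
    let s : Set ℂ := {w | τ.im / 2 < w.im} ∩ {w | w.im < 2 * τ.im}
    have o : IsOpen s :=
      (isOpen_lt continuous_const continuous_im).inter (isOpen_lt continuous_im continuous_const)
    have m : τ ∈ s := ⟨half_lt_self h0, by show τ.im < _; linarith⟩
    have p : ∀ w ∈ s, 0 < w.im := fun w hw => (half_pos h0).trans hw.1
    obtain ⟨u, hu, b⟩ := h.bd _ (half_pos h0)
    obtain ⟨u', hu', b'⟩ := h.le h0
    have hb : ∀ i, ∀ w ∈ s, ‖D i w‖ ≤ 7 * (|u i| * (1 + 2 * τ.im)) := fun i w hw => by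
      have b1 := (b i w.im hw.1.le).trans (show _ ≤ |u i| * (1 + 2 * τ.im) by
        have := p w hw
        gcongr
        exacts [le_abs_self _, hw.2.le])
      refine (ContinuousLinearMap.opNorm_le_bound _ (by positivity) fun z => ?_)
      simp only [D, add_apply, smul_apply,
        ContinuousLinearMap.id_apply, ContinuousLinearMap.smulRight_apply, imCLM_apply]
      refine (norm_add_le _ _).trans ?_
      simp only [norm_smul, norm_mul, ee_norm, im_ofReal_mul, norm_real, norm_I, Complex.norm_ofNat,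
        Real.norm_eq_abs, abs_of_pos Real.pi_pos, mul_one]
      have z1 := abs_im_le_norm z
      have := Real.pi_lt_d2
      have := Real.pi_pos
      have := Real.exp_pos (-(2 * π * (x i * w.im)))
      generalize Real.exp _ = E at *
      calc _ ≤ E * (7 * (1 + |x i|)) * ‖T i w.im‖ * ‖z‖ + 7 * ‖z‖ * (E * ‖T' i w.im‖) := by
            have : |z.im| ≤ 7 * ‖z‖ := by linarith [norm_nonneg z]
            have : 2 * π * |x i| ≤ 7 * (1 + |x i|) := by nlinarith [abs_nonneg (x i)]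
            gcongr
        _ = 7 * (E * ((1 + |x i|) * ‖T i w.im‖ + ‖T' i w.im‖)) * ‖z‖ := by ring
        _ ≤ _ := by gcongr
    have su : Summable fun i => 7 * (|u i| * (1 + 2 * τ.im)) := (hu.abs.mul_right _).mul_left _
    refine ⟨s, o.mem_nhds m, continuousOn_tsum (fun i => ?_) su hb, fun w hw =>
      ⟨.of_norm_bounded su fun i => hb i w hw, hasFDerivAt_tsum_of_isPreconnected su o
        ((convex_halfSpace_im_gt _).inter (convex_halfSpace_im_lt _)).isPreconnected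
        (fun i w hw => hD i w (p w hw)) hb m
        (.of_norm_bounded (hu'.mul_right _) fun i => b' i τ le_rfl) hw⟩⟩
    have c0 : Continuous fun w : ℂ => ee (x i * w) := by unfold ee; fun_prop
    have c1 : ContinuousOn (fun w : ℂ => T i w.im) s := fun w hw =>
      ((h.der i _ (p w hw)).continuousAt.comp continuous_im.continuousAt).continuousWithinAt
    have c2 : ContinuousOn (fun w : ℂ => T' i w.im) s :=
      (h.cont i).comp continuous_im.continuousOn p
    exact (((c0.continuousOn.mul continuousOn_const).mul c1).smul continuousOn_const).add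
      ((ContinuousLinearMap.smulRightL ℝ ℂ ℂ imCLM).continuous.comp_continuousOn
        (c0.continuousOn.mul c2))
  refine ⟨fun τ hτ => ?_, fun τ hτ => ?_⟩
  · obtain ⟨s, hs, c, d⟩ := key τ hτ
    exact (contDiffAt_one_iff.2 ⟨_, s, hs, c, fun w hw => (d w hw).2⟩).contDiffWithinAt
  · obtain ⟨s, hs, -, d⟩ := key τ hτ
    obtain ⟨d1, d2⟩ := d τ (mem_of_mem_nhds hs)
    rw [Lo_eq d2]
    refine (d1.hasSum.mapL La).congr_fun fun i => ?_
    simp [La, D, mul_comm]

end Vale.Agent.P004Z.Kf
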