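import Mathlib

/-! # P004Z, block G5: the integrals of single terms -/

open MeasureTheory Real Set Filter Topology

noncomputable section

namespace Vale.Agent.P004Z.Kf

theorem sub_int (g : ℝ → ℝ) : ∫ t, cosh t * g (sinh t) = ∫ x, g x := by
  have := integral_image_eq_integral_abs_deriv_smul (f := sinh) (f' := cosh) MeasurableSet.univ
    (fun x _ => (hasDerivAt_sinh x).hasDerivWithinAt) sinh_injective.injOn g
  simp only [image_univ, sinh_surjective.range_eq, Measure.restrict_univ, smul_eq_mul,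
    abs_of_pos (cosh_pos _)] at this
  exact this.symm

/-- the majorant -/
def Dm (β t : ℝ) : ℝ := cosh t * exp (-β * sinh t ^ 2)

theorem Dm_pos (β t : ℝ) : 0 < Dm β t := mul_pos (cosh_pos _) (exp_pos _)

theorem Dm_int {β : ℝ} (h : 0 < β) : Integrable (Dm β) := by
  have := integrableOn_image_iff_integrableOn_abs_deriv_smul (f := sinh) (f' := cosh)
    MeasurableSet.univ (fun x _ => (hasDerivAt_sinh x).hasDerivWithinAt) sinh_injective.injOn
    fun x => exp (-β * x ^ 2)
  simp only [image_univ, sinh_surjective.range_eq, integrableOn_univ, smul_eq_mul,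
    abs_of_pos (cosh_pos _)] at this
  exact this.1 (integrable_exp_neg_mul_sq h)

theorem Dm_val (β : ℝ) : ∫ t, Dm β t = √(π / β) :=
  (sub_int fun x => exp (-β * x ^ 2)).trans (integral_gaussian β)

theorem abs_le_cosh (t : ℝ) : |t| ≤ cosh t ∧ |sinh t| ≤ cosh t := by
  have h : |sinh t| ≤ cosh t := abs_le_of_sq_le_sq (by rw [cosh_sq]; linarith) (cosh_pos t).le
  exact ⟨(by rw [abs_sinh]; exact self_le_sinh_iff.2 (abs_nonneg t) : |t| ≤ |sinh t|).trans h, h⟩

theorem Dm_t {β : ℝ} (h : 0 < β) (t : ℝ) : Dm β t * |t| ≤ (1 + 2 / β) * Dm (β / 2) t := by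
  have h1 : |t| ≤ (1 + 2 / β) * exp (β / 2 * sinh t ^ 2) := by
    have e := add_one_le_exp (β / 2 * sinh t ^ 2)
    have e1 : 1 ≤ exp (β / 2 * sinh t ^ 2) := one_le_exp (by positivity)
    have : sinh t ^ 2 ≤ 2 / β * exp (β / 2 * sinh t ^ 2) := by
      rw [div_mul_eq_mul_div, le_div_iff₀ h]; nlinarith
    have h2 := (abs_le_cosh t).1
    have h3 := cosh_sq t
    nlinarith [one_le_cosh t]
  calc _ ≤ Dm β t * ((1 + 2 / β) * exp (β / 2 * sinh t ^ 2)) := by gcongr; exact (Dm_pos _ _).le
    _ = _ := by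
      rw [Dm, Dm, show -(β / 2) * sinh t ^ 2 = -β * sinh t ^ 2 + β / 2 * sinh t ^ 2 by ring,
        exp_add]
      ring

theorem ex_cosh (β t : ℝ) : exp (-β * cosh t ^ 2) = exp (-β) * exp (-β * sinh t ^ 2) := by
  rw [← exp_add, cosh_sq]; ring_nf

theorem int5 {β : ℝ} (h : 0 < β) : Integrable fun t => cosh t ^ 5 * exp (-β * cosh t ^ 2) := by
  refine ((Dm_int (half_pos h)).const_mul (2 / (β / 2) ^ 2 * exp (-(β / 2)))).mono'
    (by fun_prop) (ae_of_all _ fun t => ?_)
  have e := pow_div_factorial_le_exp (β / 2 * cosh t ^ 2) (by positivity) 2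
  have c := cosh_pos t
  rw [norm_of_nonneg (by positivity), Dm, show -β * cosh t ^ 2 = -(β / 2) * cosh t ^ 2 +
    -(β / 2 * cosh t ^ 2) by ring, exp_add, ex_cosh, exp_neg (β / 2 * _)]
  have : cosh t ^ 4 * (exp (β / 2 * cosh t ^ 2))⁻¹ ≤ 2 / (β / 2) ^ 2 := by
    rw [mul_inv_le_iff₀ (exp_pos _), div_mul_eq_mul_div, le_div_iff₀ (by positivity)]
    norm_num [Nat.factorial] at e
    nlinarith
  calc _ = cosh t ^ 4 * (exp (β / 2 * cosh t ^ 2))⁻¹ *
        (exp (-(β / 2)) * (cosh t * exp (-(β / 2) * sinh t ^ 2))) := by ring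
    _ ≤ _ := by rw [mul_assoc (2 / _)]; gcongr

theorem int_of {β : ℝ} (h : 0 < β) {g : ℝ → ℝ} (hg : Continuous g) (C : ℝ)
    (hb : ∀ t, |g t| ≤ C * cosh t ^ 5) : Integrable fun t => g t * exp (-β * cosh t ^ 2) :=
  ((int5 h).const_mul C).mono' (by fun_prop) (ae_of_all _ fun t => by
    rw [norm_mul, norm_of_nonneg (exp_pos _).le, ← mul_assoc]
    gcongr
    exact hb t)

theorem pw (t : ℝ) {k : ℕ} (h : k ≤ 5) : cosh t ^ k ≤ cosh t ^ 5 :=
  pow_le_pow_right₀ (one_le_cosh t) h

theorem tsh (t : ℝ) : |t * sinh t| ≤ cosh t ^ 2 := by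
  rw [abs_mul, sq]
  exact mul_le_mul (abs_le_cosh t).1 (abs_le_cosh t).2 (abs_nonneg _) (cosh_pos t).le

/-- half of the exponential integral -/
def qq (β : ℝ) : ℝ := √(β / π) * ∫ t, t * sinh t * exp (-β * cosh t ^ 2)

theorem qq_der {β : ℝ} (h : 0 < β) : HasDerivAt qq (-(exp (-β) / (2 * β))) β := by
  have c := cosh_pos
  have i0 := int_of h (g := fun t => t * sinh t) (by fun_prop) 1 fun t =>
    (tsh t).trans ((pw t (by norm_num)).trans (one_mul _).ge)
  obtain ⟨i1, d⟩ := hasDerivAt_integral_of_dominated_loc_of_deriv_le (μ := volume)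
    (F := fun b t : ℝ => t * sinh t * exp (-b * cosh t ^ 2))
    (F' := fun b t : ℝ => t * sinh t * (exp (-b * cosh t ^ 2) * (-1 * cosh t ^ 2)))
    (Ioi_mem_nhds (half_lt_self h)) (Eventually.of_forall fun b => by fun_prop) i0 (by fun_prop)
    (ae_of_all _ fun t b hb => by
      rw [norm_mul, norm_mul _ (-1 * _), norm_of_nonneg (exp_pos _).le, norm_eq_abs, neg_one_mul,
        norm_neg, norm_of_nonneg (sq_nonneg _)]
      calc _ ≤ cosh t ^ 2 * (exp (-(β / 2) * cosh t ^ 2) * cosh t ^ 2) := by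
            gcongr
            exacts [tsh t, le_of_lt hb]
        _ = cosh t ^ 4 * exp (-(β / 2) * cosh t ^ 2) := by ring
        _ ≤ _ := mul_le_mul_of_nonneg_right (pw t (by norm_num)) (exp_pos _).le)
    (int5 (half_pos h))
    (ae_of_all _ fun t b _ => (((hasDerivAt_id b).neg.mul_const _).exp).const_mul _)
  have hp := integral_mul_deriv_eq_deriv_mul_of_integrable (u := fun t : ℝ => t)
    (u' := fun _ => 1) (v := fun t => cosh t * exp (-β * cosh t ^ 2))
    (v' := fun t => sinh t * exp (-β * cosh t ^ 2) +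
      cosh t * (exp (-β * cosh t ^ 2) * (-β * (2 * cosh t * sinh t))))
    (fun x _ => hasDerivAt_id x) (fun x _ => (hasDerivAt_cosh x).mul
      ((((hasDerivAt_cosh x).pow 2).const_mul (-β)).exp.congr_deriv (by simp)))
    ((i0.add (i1.const_mul (2 * β))).congr (ae_of_all _ fun t => by simp; ring))
    ((int_of h continuous_cosh 1 fun t => by
      rw [abs_of_pos (c t), one_mul]; simpa using pw t (k := 1) (by norm_num)).congr
        (ae_of_all _ fun t => by simp))
    ((int_of h (g := fun t => t * cosh t) (by fun_prop) 1 fun t => by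
      rw [abs_mul, abs_of_pos (c t), one_mul]
      exact (mul_le_mul_of_nonneg_right (abs_le_cosh t).1 (c t).le).trans
        ((sq _).ge.trans (pw t (by norm_num)))).congr (ae_of_all _ fun t => by simp; ring))
  have e1 : ∫ t, 1 * (cosh t * exp (-β * cosh t ^ 2)) = exp (-β) * √(π / β) := by
    rw [← Dm_val, ← integral_const_mul]
    exact integral_congr_ae (ae_of_all _ fun t => by simp only [ex_cosh, Dm]; ring)
  rw [e1, integral_congr_ae (g := fun t => t * sinh t * exp (-β * cosh t ^ 2) + 2 * β *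
    (t * sinh t * (exp (-β * cosh t ^ 2) * (-1 * cosh t ^ 2)))) (ae_of_all _ fun t => by ring),
    integral_add i0 (i1.const_mul _), integral_const_mul] at hp
  have hs : 0 < √(β / π) := sqrt_pos.2 (div_pos h pi_pos)
  have s1 : √(β / π) * √(β / π) = β / π := mul_self_sqrt (div_pos h pi_pos).le
  have s2 : √(π / β) = (√(β / π))⁻¹ := by rw [← sqrt_inv, inv_div]
  refine ((((hasDerivAt_id β).div_const π).sqrt (div_pos h pi_pos).ne').mul d).congr_deriv ?_
  simp only [id]
  rw [s2] at hp
  generalize (∫ t, t * sinh t * exp (-β * cosh t ^ 2)) = J at *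
  generalize (∫ t, t * sinh t * (exp (-β * cosh t ^ 2) * (-1 * cosh t ^ 2))) = J' at *
  generalize √(β / π) = s at *
  have : J = -(exp (-β) * s⁻¹) - 2 * β * J' := by linarith
  have hβ : β = s * s * π := by rw [s1]; field_simp
  rw [this]
  have := pi_pos
  field_simp
  rw [hβ]; ring

/-- the integrand -/
def ff (A C α s : ℝ) : ℝ :=
  √(α / π) * ((C * exp (-s) - A * exp s) * exp (-α * (A * exp s + C * exp (-s)) ^ 2))

theorem ff_neg (A C α s : ℝ) : ff (-A) (-C) α s = -ff A C α s := by
  rw [ff, ff, show (-A * exp s + -C * exp (-s)) ^ 2 = (A * exp s + C * exp (-s)) ^ 2 by ring]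
  ring

theorem odd0 {f : ℝ → ℝ} (h : ∀ t, f (-t) = -f t) : ∫ t, f t = 0 := by
  have := integral_neg_eq_self f volume
  simp only [h, integral_neg] at this
  linarith

/-- the two basic cases -/
theorem ff_base {a c α : ℝ} (ha : 0 < a) (hc : 0 < c) (hα : 0 < α) (ε : ℝ) (hε : ε = 1 ∨ ε = -1) :
    Integrable (fun s => ff (ε * a) c α s * s) ∧
    ∫ s, |ff (ε * a) c α s * s| ≤ exp (-(2 * α * (a * c + ε * a * c))) *
      (|log (c / a)| + 2 + 1 / (α * (a * c))) ∧
    ∫ s, ff (ε * a) c α s * s = if ε = 1 then -qq (4 * α * (a * c)) else log (c / a) / 2 := by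
  obtain ⟨ρ, hρ, e⟩ : ∃ ρ, 0 < ρ ∧ a * c = ρ ^ 2 :=
    ⟨√(a * c), sqrt_pos.2 (mul_pos ha hc), (sq_sqrt (mul_pos ha hc).le).symm⟩
  obtain ⟨s0, e0, e1, e2⟩ : ∃ s0, log (c / a) = 2 * s0 ∧ a * exp s0 = ρ ∧ c * exp (-s0) = ρ := by
    have : a * (ρ / a) ^ 2 = c := by field_simp; linarith
    refine ⟨log (ρ / a), ?_, ?_, ?_⟩
    · rw [← this, mul_div_cancel_left₀ _ ha.ne', log_pow]; rfl
    · rw [exp_log (div_pos hρ ha)]; field_simp
    · rw [exp_neg, exp_log (div_pos hρ ha), ← this]; field_simp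
  set β := 4 * α * (a * c) with hβ
  have b0 : 0 < β := by positivity
  have hs : √(α / π) * (2 * ρ) = √(β / π) := by
    rw [hβ, e, show 4 * α * ρ ^ 2 / π = α / π * (2 * ρ) ^ 2 by ring,
      sqrt_mul (by positivity), sqrt_sq (by positivity)]
  have s0' : 0 < √(β / π) := sqrt_pos.2 (div_pos b0 pi_pos)
  have key : ∀ t, ff (ε * a) c α (t + s0) = if ε = 1 then
      -(√(β / π) * (sinh t * exp (-β * cosh t ^ 2))) else √(β / π) * Dm β t := fun t => by
    have a1 : a * exp (t + s0) = ρ * exp t := by rw [exp_add, ← e1]; ring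
    have a2 : c * exp (-(t + s0)) = ρ * exp (-t) := by rw [neg_add, exp_add, ← e2]; ring
    rw [ff, mul_assoc ε, a1, a2, ← hs, Dm, sinh_eq, cosh_eq, hβ, e]
    rcases hε with rfl | rfl
    · rw [if_pos rfl]; ring_nf
    · rw [if_neg (by norm_num)]; ring_nf
  have bd : ∀ t, |ff (ε * a) c α (t + s0) * (t + s0)| ≤ exp (-(2 * α * (a * c + ε * a * c))) *
      √(β / π) * ((1 + 2 / β) * Dm (β / 2) t + |s0| * Dm β t) := fun t => by
    have h1 : |ff (ε * a) c α (t + s0)| ≤
        exp (-(2 * α * (a * c + ε * a * c))) * √(β / π) * Dm β t := by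
      rw [key]
      rcases hε with rfl | rfl
      · rw [if_pos rfl, abs_neg, abs_mul, abs_mul, abs_of_pos s0', abs_of_pos (exp_pos _), ex_cosh,
          show 2 * α * (a * c + 1 * a * c) = β by rw [hβ]; ring, Dm]
        calc _ ≤ √(β / π) * (cosh t * (exp (-β) * exp (-β * sinh t ^ 2))) := by
              gcongr; exact (abs_le_cosh t).2
          _ = _ := by ring
      · rw [if_neg (by norm_num), abs_of_pos (mul_pos s0' (Dm_pos _ _))]; simp
    rw [abs_mul]
    calc _ ≤ exp (-(2 * α * (a * c + ε * a * c))) * √(β / π) * Dm β t * (|t| + |s0|) := by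
          gcongr
          exacts [(mul_pos (by positivity) (Dm_pos _ _)).le, abs_add_le _ _]
      _ = exp (-(2 * α * (a * c + ε * a * c))) * √(β / π) * (Dm β t * |t| + |s0| * Dm β t) := by
          ring
      _ ≤ _ := mul_le_mul_of_nonneg_left (add_le_add_left (Dm_t b0 t) _) (by positivity)
  have i1 : Integrable fun t => (1 + 2 / β) * Dm (β / 2) t + |s0| * Dm β t :=
    ((Dm_int (half_pos b0)).const_mul (1 + 2 / β)).add ((Dm_int b0).const_mul |s0|)
  have i2 : Integrable fun t => ff (ε * a) c α (t + s0) * (t + s0) :=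
    (i1.const_mul _).mono' (by unfold ff; fun_prop) (ae_of_all _ bd)
  have s2 : √(β / π) * √(π / β) = 1 := by
    rw [← sqrt_mul (by positivity), div_mul_div_cancel₀ pi_pos.ne', div_self b0.ne', sqrt_one]
  refine ⟨by simpa using i2.comp_sub_right s0, ?_, ?_⟩
  · rw [← integral_add_right_eq_self _ s0]
    refine (integral_mono i2.abs (i1.const_mul _) bd).trans ?_
    rw [integral_const_mul, integral_add ((Dm_int (half_pos b0)).const_mul _)
      ((Dm_int b0).const_mul _), integral_const_mul, integral_const_mul, Dm_val, Dm_val, mul_assoc,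
      e0, abs_mul, abs_two]
    gcongr
    have : √(π / (β / 2)) ≤ 2 * √(π / β) := by
      rw [← sqrt_sq zero_le_two, ← sqrt_mul (by positivity)]
      refine sqrt_le_sqrt ?_
      rw [div_div_eq_mul_div, mul_div_right_comm]
      nlinarith [div_pos pi_pos b0]
    calc _ ≤ √(β / π) * ((1 + 2 / β) * (2 * √(π / β)) + |s0| * √(π / β)) := by gcongr
      _ = √(β / π) * √(π / β) * (|s0| + 2 + 4 / β) := by ring
      _ ≤ _ := by
        rw [s2, one_mul, hβ, mul_assoc, ← div_div 4 4, div_self four_ne_zero]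
        linarith [abs_nonneg s0]
  · rw [← integral_add_right_eq_self _ s0]
    simp only [key]
    split_ifs
    · rw [integral_congr_ae (g := fun t => -√(β / π) * (t * sinh t * exp (-β * cosh t ^ 2)) +
        -√(β / π) * s0 * (sinh t * exp (-β * cosh t ^ 2))) (ae_of_all _ fun t => by ring),
        integral_add, integral_const_mul, integral_const_mul, odd0 (f := fun t => sinh t * _)
        fun t => by simp, qq]
      · ring
      · exact (int_of b0 (g := fun t => t * sinh t) (by fun_prop) 1 fun t =>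
          (tsh t).trans ((pw t (by norm_num)).trans (one_mul _).ge)).const_mul _
      · exact (int_of b0 continuous_sinh 1 fun t => (abs_le_cosh t).2.trans (by
          simpa using pw t (k := 1) (by norm_num))).const_mul _
    · rw [integral_congr_ae (g := fun t => √(β / π) * (Dm β t * t) + √(β / π) * s0 * Dm β t)
        (ae_of_all _ fun t => by ring), integral_add, integral_const_mul, integral_const_mul,
        odd0 (f := fun t => Dm β t * t) fun t => by simp [Dm], Dm_val, e0]
      · linear_combination s0 * s2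
      · refine (((Dm_int (half_pos b0)).const_mul (1 + 2 / β)).mono' (by unfold Dm; fun_prop)
          (ae_of_all _ fun t => ?_)).const_mul _
        rw [norm_mul, norm_of_nonneg (Dm_pos _ _).le]
        exact Dm_t b0 t
      · exact (Dm_int b0).const_mul _

end Vale.Agent.P004Z.Kf
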